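import Vale.Agent.P151.Bdl.B1
import Mathlib.Algebra.Order.Chebyshev
import Mathlib.Analysis.Calculus.Deriv.MeanValue
import Mathlib.Analysis.SpecialFunctions.ExpDeriv
import Mathlib.Combinatorics.SimpleGraph.Metric
import Mathlib.Combinatorics.SimpleGraph.Walk.Counting
import Mathlib.Data.Finset.DenselyOrdered
import Mathlib.Data.Int.Star
import Mathlib.Order.CompletePartialOrder
import Mathlib.Probability.Distributions.SetBernoulli
import Mathlib.Tactic

/-! No percolation at `p_c` on nonamenable quasi-transitive graphs: the lower bound for `F_S` of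
P165 (Benjamini-Schramm) and Newman's argument. Copies of the P165 declarations used. -/

section
/-! Scalar inequalities for the bootstrap. -/

open Filter

namespace Vale.Agent.P165.BS2

lemma ev_log {ρ : ℝ} (hρ : 0 ≤ ρ) (D : ℝ) {η : ℝ} (hη : 0 < η) :
    ∀ᶠ L : ℝ in atTop, Real.log (1 + ρ * L) + D ≤ η * L := by
  have h1 : Tendsto (fun L : ℝ => Real.log (1 + L) / (1 + L)) atTop (nhds 0) := by
    have := (Real.isLittleO_log_id_atTop).tendsto_div_nhds_zero
    exact this.comp (tendsto_atTop_add_const_left atTop (1 : ℝ) tendsto_id)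
  have hη2 : 0 < η / 4 := by positivity
  have h2 : ∀ᶠ L : ℝ in atTop, Real.log (1 + L) / (1 + L) < η / 4 := h1.eventually_lt_const hη2
  filter_upwards [h2, eventually_ge_atTop (1 : ℝ),
    eventually_ge_atTop ((|D| + Real.log (1 + ρ)) / (η / 2))] with L h3 h4 h5
  have h6 : 0 < 1 + L := by linarith
  rw [div_lt_iff₀ h6] at h3
  have h7 : Real.log (1 + ρ * L) ≤ Real.log (1 + ρ) + Real.log (1 + L) := by
    rw [← Real.log_mul (by positivity) (by positivity)]
    apply Real.log_le_log (by positivity)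
    nlinarith
  rw [div_le_iff₀ (by positivity)] at h5
  have h8 : D ≤ |D| := le_abs_self D
  nlinarith

/-- A multiple of `B` in `(t - B, t]`. -/
lemma exists_mul {B : ℕ} (hB : 1 ≤ B) {t : ℝ} (ht : 0 ≤ t) :
    ∃ j : ℕ, ((B * j : ℕ) : ℝ) ≤ t ∧ t - B ≤ ((B * j : ℕ) : ℝ) := by
  have hB0 : (0 : ℝ) < B := by exact_mod_cast hB
  refine ⟨⌊t / B⌋₊, ?_, ?_⟩
  · push_cast
    have := Nat.floor_le (div_nonneg ht hB0.le)
    rw [le_div_iff₀ hB0] at this
    linarith
  · push_cast
    have := Nat.lt_floor_add_one (t / B)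
    rw [div_lt_iff₀ hB0] at this
    nlinarith

/-- The height `k` with `e^k` comparable with `A`. -/
lemma exists_height {A : ℝ} (hA : 1 ≤ A) :
    ∃ k : ℕ, 1 ≤ k ∧ A ≤ Real.exp k ∧ (k : ℝ) ≤ Real.log A + 1 := by
  have h0 : 0 ≤ Real.log A := Real.log_nonneg hA
  refine ⟨⌊Real.log A⌋₊ + 1, by omega, ?_, ?_⟩
  · rw [← Real.log_le_iff_le_exp (by linarith)]
    push_cast
    exact (Nat.lt_floor_add_one _).le
  · push_cast
    have := Nat.floor_le h0
    linarith

lemma scal_lt {a β : ℝ} (ha : 0 < a) (haβ : a < β) (hβ : β < 1) (hab : β * (1 - a) < a)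
    {B : ℕ} (hB : 1 ≤ B) {C Y : ℝ} (hC : 1 ≤ C) (hY : 1 ≤ Y) :
    ∃ K : ℝ, 1 ≤ K ∧ ∀ X, K ≤ X → ∃ j k : ℕ, 1 ≤ k ∧
      C * (1 + ((B * j : ℕ) : ℝ)) * X ≤ Real.exp k ∧
      C * (1 + ((B * j : ℕ) : ℝ)) * Real.exp ((B * j : ℕ) : ℝ) * Y / X ≤
        Real.exp (a * ((B * j : ℕ) : ℝ)) / 2 ∧
      Real.exp (β * k) ≤ Real.exp (a * ((B * j : ℕ) : ℝ)) / 2 := by
  have hβ0 : 0 < β := ha.trans haβ
  have h1a : 0 < 1 - a := by linarith
  have hlt : β / a < 1 / (1 - a) := by
    rw [div_lt_div_iff₀ ha h1a]; linarith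
  obtain ⟨ρ, hρ1, hρ2⟩ := exists_between hlt
  rw [div_lt_iff₀ ha] at hρ1
  rw [lt_div_iff₀ h1a] at hρ2
  have hρ0 : 0 < ρ := by
    by_contra h
    push Not at h
    nlinarith
  have e1 := ev_log hρ0.le (Real.log 2 + β * (Real.log C + 1) + a * B) (η := (ρ * a - β))
    (by linarith)
  have e2 := ev_log hρ0.le (Real.log 2 + Real.log C + Real.log Y) (η := (1 - ρ * (1 - a)))
    (by linarith)
  obtain ⟨L0, hL0⟩ := (e1.and (e2.and (eventually_ge_atTop (0 : ℝ)))).exists_forall_of_atTop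
  refine ⟨Real.exp (max L0 0), Real.one_le_exp (le_max_right _ _), fun X hX => ?_⟩
  have hX0 : 0 < X := (Real.exp_pos _).trans_le hX
  have hX1 : 1 ≤ X := (Real.one_le_exp (le_max_right _ _)).trans hX
  have hLX : max L0 0 ≤ Real.log X := (Real.le_log_iff_exp_le hX0).2 hX
  set L := Real.log X with hL
  obtain ⟨h1, h2, h3⟩ := hL0 L ((le_max_left _ _).trans hLX)
  obtain ⟨j, hj1, hj2⟩ := exists_mul hB (t := ρ * L) (by positivity)
  set n : ℝ := ((B * j : ℕ) : ℝ) with hn
  have hn0 : 0 ≤ n := Nat.cast_nonneg _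
  have hlog : Real.log (1 + n) ≤ Real.log (1 + ρ * L) :=
    Real.log_le_log (by linarith) (by linarith)
  have hlog0 : 0 ≤ Real.log (1 + n) := Real.log_nonneg (by linarith)
  have hA : 1 ≤ C * (1 + n) * X := by
    have : 1 ≤ C * (1 + n) := by nlinarith
    nlinarith
  obtain ⟨k, hk1, hk2, hk3⟩ := exists_height hA
  have hlogA : Real.log (C * (1 + n) * X) = Real.log C + Real.log (1 + n) + L := by
    rw [Real.log_mul (by positivity) (by positivity), Real.log_mul (by positivity) (by positivity)]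
  rw [hlogA] at hk3
  refine ⟨j, k, hk1, hk2, ?_, ?_⟩
  · rw [div_le_div_iff₀ hX0 (by norm_num)]
    rw [← Real.log_le_log_iff (by positivity) (by positivity)]
    rw [Real.log_mul (by positivity) (by positivity), Real.log_mul (by positivity) (by positivity),
      Real.log_mul (by positivity) (by positivity), Real.log_mul (by positivity) (by positivity),
      Real.log_mul (by positivity) (by positivity), Real.log_exp, Real.log_exp]
    nlinarith
  · rw [le_div_iff₀ (by norm_num), ← Real.log_le_log_iff (by positivity) (by positivity),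
      Real.log_mul (by positivity) (by positivity), Real.log_exp, Real.log_exp]
    have hβk : β * k ≤ β * (Real.log C + Real.log (1 + n) + L + 1) :=
      mul_le_mul_of_nonneg_left hk3 hβ0.le
    have h4 : β * Real.log (1 + n) ≤ Real.log (1 + ρ * L) := by nlinarith
    nlinarith

lemma scal_one {a κ : ℝ} (hκ : 0 < κ) (haκ : 1 - κ / 8 ≤ a)
    {B : ℕ} (hB : 1 ≤ B) {C : ℝ} (hC : 1 ≤ C) :
    ∃ K : ℝ, 1 ≤ K ∧ ∀ X, K ≤ X → ∃ j k : ℕ,
      C * (1 + ((B * j : ℕ) : ℝ)) * X ≤ Real.exp k ∧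
      X ^ (1 - κ) * (Real.exp k + C * (1 + ((B * j : ℕ) : ℝ)) * Real.exp ((B * j : ℕ) : ℝ) / X) ≤
        Real.exp (a * ((B * j : ℕ) : ℝ)) := by
  have e1 := ev_log (ρ := 2) (by norm_num) (Real.log C + Real.log (1 + Real.exp (1 + B)))
    (η := 3 * κ / 4) (by positivity)
  obtain ⟨L0, hL0⟩ := (e1.and (eventually_ge_atTop (0 : ℝ))).exists_forall_of_atTop
  refine ⟨Real.exp (max L0 0), Real.one_le_exp (le_max_right _ _), fun X hX => ?_⟩
  have hX0 : 0 < X := (Real.exp_pos _).trans_le hX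
  have hX1 : 1 ≤ X := (Real.one_le_exp (le_max_right _ _)).trans hX
  have hLX : max L0 0 ≤ Real.log X := (Real.le_log_iff_exp_le hX0).2 hX
  set L := Real.log X with hL
  have hXL : X = Real.exp L := (Real.exp_log hX0).symm
  obtain ⟨h1, h3⟩ := hL0 L ((le_max_left _ _).trans hLX)
  obtain ⟨j, hj1, hj2⟩ := exists_mul hB (t := 2 * L) (by positivity)
  set n : ℝ := ((B * j : ℕ) : ℝ) with hn
  have hn0 : 0 ≤ n := Nat.cast_nonneg _
  have hlog : Real.log (1 + n) ≤ Real.log (1 + 2 * L) :=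
    Real.log_le_log (by linarith) (by linarith)
  have hA : 1 ≤ C * (1 + n) * X := by
    have : 1 ≤ C * (1 + n) := by nlinarith
    nlinarith
  obtain ⟨k, hk1, hk2, hk3⟩ := exists_height hA
  refine ⟨j, k, hk2, ?_⟩
  have hCn : 0 < C * (1 + n) := by positivity
  have hek : Real.exp k ≤ C * (1 + n) * (Real.exp (1 + B) * (Real.exp n / X)) := by
    have h4 : Real.exp k ≤ C * (1 + n) * X * Real.exp 1 := by
      calc Real.exp k ≤ Real.exp (Real.log (C * (1 + n) * X) + 1) := Real.exp_le_exp.2 hk3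
        _ = C * (1 + n) * X * Real.exp 1 := by rw [Real.exp_add, Real.exp_log (by positivity)]
    refine h4.trans ?_
    rw [mul_assoc (C * (1 + n))]
    refine mul_le_mul_of_nonneg_left ?_ hCn.le
    rw [hXL, ← Real.exp_sub, ← Real.exp_add, ← Real.exp_add]
    exact Real.exp_le_exp.2 (by linarith)
  have hsum : Real.exp k + C * (1 + n) * Real.exp n / X ≤
      C * (1 + n) * (1 + Real.exp (1 + B)) * Real.exp (n - L) := by
    have h5 : Real.exp (n - L) = Real.exp n / X := by rw [Real.exp_sub, ← hXL]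
    rw [h5]
    calc _ ≤ C * (1 + n) * (Real.exp (1 + B) * (Real.exp n / X)) + C * (1 + n) * Real.exp n / X :=
          add_le_add hek le_rfl
      _ = _ := by ring
  have hpow : X ^ (1 - κ) = Real.exp (L * (1 - κ)) := by
    rw [Real.rpow_def_of_pos hX0]
  rw [hpow]
  refine (mul_le_mul_of_nonneg_left hsum (Real.exp_pos _).le).trans ?_
  rw [← Real.log_le_log_iff (by positivity) (by positivity),
    Real.log_mul (by positivity) (by positivity), Real.log_mul (by positivity) (by positivity),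
    Real.log_mul (by positivity) (by positivity), Real.log_mul (by positivity) (by positivity),
    Real.log_exp, Real.log_exp, Real.log_exp]
  have h6 : (1 - a) * n ≤ κ / 8 * (2 * L) :=
    mul_le_mul (by linarith) hj1 hn0 (by positivity)
  nlinarith

end Vale.Agent.P165.BS2
end

section
/-! The abstract core: isoperimetry for `F` from a bootstrap of the growth exponent. -/

open Finset

set_option linter.unusedSectionVars false

namespace Vale.Agent.P165.BS2

variable {V : Type} [DecidableEq V]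

/-- The facts about percolation used in the main argument; the parameter ranges over `(0, b)`,
`X q` is the expected cluster size, `ft q n S` the set of points connected to `S` with probability
at least `e^{-n}`, `F q S` the expected size of the union of the clusters of the points of `S`. -/
structure Iface2 (b : ℝ) (X : ℝ → ℝ) (ft : ℝ → ℕ → Finset V → Finset V)
    (F : ℝ → Finset V → ℝ) : Prop where
  b_pos : 0 < b
  X_ge : ∀ q, 0 < q → q < b → 1 ≤ X q
  subset : ∀ q, 0 < q → q < b → ∀ n S, S ⊆ ft q n S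
  mono : ∀ p q, 0 < p → p ≤ q → q < b → ∀ m n : ℕ, m ≤ n → ∀ S T, S ⊆ T → ft p m S ⊆ ft q n T
  comp : ∀ q, 0 < q → q < b → ∀ (m n : ℕ) S, ft q n (ft q m S) ⊆ ft q (m + n) S
  card_le : ∀ q, 0 < q → q < b → ∀ (n : ℕ) (S : Finset V),
    ((ft q n S).card : ℝ) ≤ Real.exp n * X q * S.card
  card_le_F : ∀ q, 0 < q → q < b → ∀ (n : ℕ) (S : Finset V),
    ((ft q n S).card : ℝ) ≤ Real.exp n * F q S
  grow : ∀ q, 0 < q → q < b → ∃ (n : ℕ) (c : ℝ), 0 < c ∧ ∀ S : Finset V,
    (1 + c) * S.card ≤ ((ft q n S).card : ℝ)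
  F_ub : ∀ q, 0 < q → q < b → ∃ M : ℕ, ∀ S : Finset V,
    F q S ≤ S.card + ∑ m ∈ Finset.Icc 1 M, Real.exp (1 - (m : ℝ)) * (ft q m S).card
  main : ∀ p p2, 0 < p → p < p2 → p2 < b → ∃ C : ℝ, 1 ≤ C ∧ ∀ q, p2 ≤ q → q < b →
    ∀ (S : Finset V) (n k : ℕ), C * (1 + n) * X q ≤ Real.exp k →
      ((ft p n S).card : ℝ) ≤ (ft q k S).card + C * (1 + n) * Real.exp n * F q S / X q

variable {b : ℝ} {X : ℝ → ℝ} {ft : ℝ → ℕ → Finset V → Finset V} {F : ℝ → Finset V → ℝ}

/-- Exponential growth of the fattening at the level `p`, with rate `a`. -/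
def Expo (ft : ℝ → ℕ → Finset V → Finset V) (p a : ℝ) : Prop :=
  ∃ B : ℕ, 1 ≤ B ∧ ∀ (j : ℕ) (S : Finset V),
    Real.exp (a * ((B * j : ℕ) : ℝ)) * S.card ≤ ((ft p (B * j) S).card : ℝ)

lemma iter (hI : Iface2 b X ft F) {q β : ℝ} (h0 : 0 < q) (h1 : q < b) (hβ : 0 ≤ β) {N : ℕ}
    (h : ∀ S : Finset V, ∃ k : ℕ, 1 ≤ k ∧ k ≤ N ∧
      Real.exp (β * k) * S.card ≤ ((ft q k S).card : ℝ)) :
    ∀ (n : ℕ) (S : Finset V),
      Real.exp (β * ((n : ℝ) - N)) * S.card ≤ ((ft q n S).card : ℝ) := by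
  intro n
  induction n using Nat.strong_induction_on with
  | _ n ih =>
    intro S
    rcases le_or_gt n N with hn | hn
    · have h2 : Real.exp (β * ((n : ℝ) - N)) ≤ 1 := by
        rw [Real.exp_le_one_iff]
        have : (n : ℝ) ≤ N := by exact_mod_cast hn
        nlinarith
      have h3 : (S.card : ℝ) ≤ (ft q n S).card := by
        exact_mod_cast card_le_card (hI.subset q h0 h1 n S)
      have h4 : (0 : ℝ) ≤ S.card := Nat.cast_nonneg _
      nlinarith
    · obtain ⟨k, hk1, hk2, hk3⟩ := h S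
      have hkn : k < n := lt_of_le_of_lt hk2 hn
      have h2 := ih (n - k) (by omega) (ft q k S)
      have h3 : ((ft q (n - k) (ft q k S)).card : ℝ) ≤ (ft q n S).card := by
        have := hI.comp q h0 h1 k (n - k) S
        rw [Nat.add_sub_cancel' hkn.le] at this
        exact_mod_cast card_le_card this
      refine le_trans ?_ (h2.trans h3)
      have h4 : ((n - k : ℕ) : ℝ) = (n : ℝ) - k := by
        rw [Nat.cast_sub hkn.le]
      rw [h4]
      have h5 : Real.exp (β * ((n : ℝ) - N)) =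
          Real.exp (β * ((n : ℝ) - k - N)) * Real.exp (β * k) := by
        rw [← Real.exp_add]; congr 1; ring
      rw [h5, mul_assoc]
      exact mul_le_mul_of_nonneg_left hk3 (Real.exp_pos _).le

lemma expo_of_iter (hI : Iface2 b X ft F) {q β β' : ℝ} (h0 : 0 < q) (h1 : q < b) (hβ : 0 ≤ β)
    (hββ : β' < β) {N : ℕ}
    (h : ∀ S : Finset V, ∃ k : ℕ, 1 ≤ k ∧ k ≤ N ∧
      Real.exp (β * k) * S.card ≤ ((ft q k S).card : ℝ)) : Expo ft q β' := by
  have hd : 0 < β - β' := by linarith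
  obtain ⟨B, hB⟩ := exists_nat_ge (β * N / (β - β'))
  refine ⟨B + 1, by omega, fun j S => ?_⟩
  rcases Nat.eq_zero_or_pos j with rfl | hj
  · simp only [mul_zero, Nat.cast_zero, Real.exp_zero, one_mul]
    exact_mod_cast card_le_card (hI.subset q h0 h1 0 S)
  · refine le_trans ?_ (iter hI h0 h1 hβ h ((B + 1) * j) S)
    refine mul_le_mul_of_nonneg_right (Real.exp_le_exp.2 ?_) (Nat.cast_nonneg _)
    rw [div_le_iff₀ hd] at hB
    have h2 : ((B : ℝ)) ≤ (((B + 1) * j : ℕ) : ℝ) := by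
      have : B ≤ (B + 1) * j := by nlinarith
      exact_mod_cast this
    nlinarith

/-- The rates. -/
def Rates (b : ℝ) (ft : ℝ → ℕ → Finset V → Finset V) : Set ℝ :=
  {a | ∃ p, 0 < p ∧ p < b ∧ Expo ft p a}

lemma exists_rate_pos (hI : Iface2 b X ft F) : ∃ a ∈ Rates b ft, 0 < a := by
  have hb := hI.b_pos
  obtain ⟨n, c, hc, h⟩ := hI.grow (b / 2) (by linarith) (by linarith)
  have hl : 0 < Real.log (1 + c) := Real.log_pos (by linarith)
  set β : ℝ := Real.log (1 + c) / (n + 1 : ℕ) with hβ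
  have hn : (0 : ℝ) < ((n + 1 : ℕ) : ℝ) := by exact_mod_cast Nat.succ_pos n
  have hβ0 : 0 < β := div_pos hl hn
  refine ⟨β / 2, ⟨b / 2, by linarith, by linarith, ?_⟩, by linarith⟩
  refine expo_of_iter hI (by linarith) (by linarith) hβ0.le (by linarith) (N := n + 1)
    fun S => ⟨n + 1, by omega, le_rfl, ?_⟩
  have h2 : β * ((n + 1 : ℕ) : ℝ) = Real.log (1 + c) := by
    rw [hβ]; field_simp
  rw [h2, Real.exp_log (by linarith)]
  refine (h S).trans ?_
  exact_mod_cast card_le_card (hI.mono (b / 2) (b / 2) (by linarith) le_rfl (by linarith) n (n + 1)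
    (by omega) S S subset_rfl)

lemma rate_le_one [Nonempty V] (hI : Iface2 b X ft F) {a : ℝ} (ha : a ∈ Rates b ft) : a ≤ 1 := by
  obtain ⟨p, hp0, hpb, B, hB, h⟩ := ha
  by_contra hcon
  push Not at hcon
  obtain ⟨v⟩ := ‹Nonempty V›
  have hX := hI.X_ge p hp0 hpb
  have hX0 : 0 < X p := by linarith
  obtain ⟨j, hj⟩ := exists_nat_gt (Real.log (X p) / (a - 1))
  have hd : 0 < a - 1 := by linarith
  rw [div_lt_iff₀ hd] at hj
  have h2 := (h j {v}).trans (hI.card_le p hp0 hpb (B * j) {v})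
  simp only [card_singleton, Nat.cast_one, mul_one] at h2
  rw [← Real.log_le_log_iff (Real.exp_pos _) (by positivity), Real.log_exp,
    Real.log_mul (Real.exp_pos _).ne' hX0.ne', Real.log_exp] at h2
  have h3 : (j : ℝ) ≤ ((B * j : ℕ) : ℝ) := by
    have : j ≤ B * j := by nlinarith
    exact_mod_cast this
  nlinarith

lemma sum_geom_le {β : ℝ} (hβ : β < 1) (M : ℕ) :
    ∑ m ∈ Finset.Icc 1 M, Real.exp (1 - (m : ℝ)) * Real.exp (β * m) ≤
      Real.exp 1 / (1 - Real.exp (-(1 - β))) := by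
  set r := Real.exp (-(1 - β)) with hr
  have hr0 : 0 < r := Real.exp_pos _
  have hr1 : r < 1 := by rw [hr, Real.exp_lt_one_iff]; linarith
  have h1 : ∀ m : ℕ, Real.exp (1 - (m : ℝ)) * Real.exp (β * m) = Real.exp 1 * r ^ m := by
    intro m
    rw [hr, ← Real.exp_nat_mul, ← Real.exp_add, ← Real.exp_add]
    congr 1; ring
  have h2 : Summable fun m : ℕ => r ^ m := summable_geometric_of_lt_one hr0.le hr1
  calc _ = Real.exp 1 * ∑ m ∈ Finset.Icc 1 M, r ^ m := by
        rw [mul_sum]; exact sum_congr rfl fun m _ => h1 m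
    _ ≤ Real.exp 1 * ∑' m : ℕ, r ^ m := by
        refine mul_le_mul_of_nonneg_left ?_ (Real.exp_pos _).le
        exact h2.sum_le_tsum _ fun m _ => by positivity
    _ = _ := by rw [tsum_geometric_of_lt_one hr0.le hr1, div_eq_mul_inv]

/-- The step: a rate `a` gives every rate below `a / (1 - a)`. -/
lemma step (hI : Iface2 b X ft F) {p1 p2 a β : ℝ} (hp0 : 0 < p1) (hp : p1 < p2) (hpb : p2 < b)
    (ha : 0 < a) (haβ : a < β) (hβ : β < 1) (hab : β * (1 - a) < a) (hE : Expo ft p1 a) :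
    ∃ K : ℝ, 1 ≤ K ∧ ∀ q, p2 ≤ q → q < b → K ≤ X q → ∃ N : ℕ, ∀ S : Finset V, ∃ k : ℕ,
      1 ≤ k ∧ k ≤ N ∧ Real.exp (β * k) * S.card ≤ ((ft q k S).card : ℝ) := by
  obtain ⟨B, hB, hE⟩ := hE
  obtain ⟨C, hC, hmain⟩ := hI.main p1 p2 hp0 hp hpb
  set Y : ℝ := 1 + Real.exp 1 / (1 - Real.exp (-(1 - β))) with hY
  have hr1 : Real.exp (-(1 - β)) < 1 := by rw [Real.exp_lt_one_iff]; linarith
  have hY1 : 1 ≤ Y := by
    have : 0 ≤ Real.exp 1 / (1 - Real.exp (-(1 - β))) :=
      div_nonneg (Real.exp_pos _).le (by linarith)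
    linarith
  obtain ⟨K, hK1, hK⟩ := scal_lt ha haβ hβ hab hB hC hY1
  refine ⟨K, hK1, fun q hq1 hq2 hKX => ?_⟩
  have hq0 : 0 < q := by linarith
  have hX0 : 0 < X q := by linarith
  obtain ⟨j, k0, hk1, hk2, hk3, hk4⟩ := hK (X q) hKX
  obtain ⟨M, hM⟩ := hI.F_ub q hq0 hq2
  refine ⟨max M k0, fun S => ?_⟩
  by_contra hcon
  push Not at hcon
  have hS0 : (0 : ℝ) ≤ S.card := Nat.cast_nonneg _
  have hF : F q S ≤ Y * S.card := by
    calc F q S ≤ S.card + ∑ m ∈ Finset.Icc 1 M, Real.exp (1 - (m : ℝ)) * (ft q m S).card := hM S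
      _ ≤ S.card + ∑ m ∈ Finset.Icc 1 M,
          Real.exp (1 - (m : ℝ)) * Real.exp (β * m) * S.card := by
          refine add_le_add le_rfl (sum_le_sum fun m hm => ?_)
          rw [mul_assoc]
          refine mul_le_mul_of_nonneg_left ?_ (Real.exp_pos _).le
          rw [mem_Icc] at hm
          exact (hcon m hm.1 (hm.2.trans (le_max_left _ _))).le
      _ ≤ S.card + Real.exp 1 / (1 - Real.exp (-(1 - β))) * S.card := by
          rw [← sum_mul]
          gcongr
          exact sum_geom_le hβ M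
      _ = Y * S.card := by rw [hY]; ring
  have h1 := hmain q hq1 hq2 S (B * j) k0 hk2
  have h2 := hE j S
  have h3 := hcon k0 hk1 (le_max_right _ _)
  set n : ℝ := ((B * j : ℕ) : ℝ) with hn
  have hn0 : 0 ≤ n := Nat.cast_nonneg _
  have h4 : C * (1 + n) * Real.exp n * F q S / X q ≤ Real.exp (a * n) / 2 * S.card := by
    calc C * (1 + n) * Real.exp n * F q S / X q
        ≤ C * (1 + n) * Real.exp n * (Y * S.card) / X q := by gcongr
      _ = C * (1 + n) * Real.exp n * Y / X q * S.card := by ring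
      _ ≤ _ := mul_le_mul_of_nonneg_right hk3 hS0
  have h5 : Real.exp (β * k0) * S.card ≤ Real.exp (a * n) / 2 * S.card :=
    mul_le_mul_of_nonneg_right hk4 hS0
  linarith

/-- Isoperimetry for `F`. -/
theorem core2 [Nonempty V] (hI : Iface2 b X ft F) {κ : ℝ} (hκ : 0 < κ) :
    ∃ p2 K : ℝ, 0 < p2 ∧ p2 < b ∧ 1 ≤ K ∧ ∀ q, p2 ≤ q → q < b → K ≤ X q →
      ∀ S : Finset V, X q ^ (1 - κ) * S.card ≤ F q S := by
  have hbdd : BddAbove (Rates b ft) := ⟨1, fun a ha => rate_le_one hI ha⟩
  obtain ⟨a0, ha0, ha0'⟩ := exists_rate_pos hI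
  have hne : (Rates b ft).Nonempty := ⟨a0, ha0⟩
  set α := sSup (Rates b ft) with hα
  have hα0 : 0 < α := ha0'.trans_le (le_csSup hbdd ha0)
  have hα1 : α ≤ 1 := csSup_le hne fun a ha => rate_le_one hI ha
  rcases lt_or_eq_of_le hα1 with hlt | heq
  · -- the case `α < 1`
    set β := α + min (α ^ 2) (1 - α) / 2 with hβ
    have hm1 := min_le_left (α ^ 2) (1 - α)
    have hm2 := min_le_right (α ^ 2) (1 - α)
    have hm3 : 0 < min (α ^ 2) (1 - α) := lt_min (by positivity) (by linarith)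
    have hβα : α < β := by linarith
    have hβ1 : β < 1 := by linarith
    have hβ0 : 0 < β := by linarith
    have h1 : β * (1 - α) < α := by nlinarith
    have h2 : β / (1 + β) < α := by
      rw [div_lt_iff₀ (by linarith)]; linarith
    obtain ⟨a, ha, ha2⟩ := exists_lt_of_lt_csSup hne h2
    have haα : a ≤ α := le_csSup hbdd ha
    obtain ⟨p1, hp0, hpb, hE⟩ := ha
    have ha3 : 0 < a := (div_pos hβ0 (by linarith)).trans ha2
    rw [div_lt_iff₀ (by linarith)] at ha2
    obtain ⟨K, hK1, hK⟩ := step hI (p2 := (p1 + b) / 2) hp0 (by linarith) (by linarith) ha3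
      (by linarith) hβ1 (by nlinarith) hE
    refine ⟨(p1 + b) / 2, K, by linarith, by linarith, hK1, fun q hq1 hq2 hKX => ?_⟩
    exfalso
    obtain ⟨N, hN⟩ := hK q hq1 hq2 hKX
    have h3 : Expo ft q ((α + β) / 2) :=
      expo_of_iter hI (by linarith) hq2 hβ0.le (by linarith) hN
    have h4 : (α + β) / 2 ≤ α := le_csSup hbdd ⟨q, by linarith, hq2, h3⟩
    linarith
  · -- the case `α = 1`
    have h1 : 1 - min κ 1 / 8 < α := by
      rw [heq]
      have : 0 < min κ 1 := lt_min hκ one_pos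
      linarith
    obtain ⟨a, ha, ha2⟩ := exists_lt_of_lt_csSup hne h1
    obtain ⟨p1, hp0, hpb, B, hB, hE⟩ := ha
    obtain ⟨C, hC, hmain⟩ := hI.main p1 ((p1 + b) / 2) hp0 (by linarith) (by linarith)
    have hκ' : 0 < min κ 1 := lt_min hκ one_pos
    obtain ⟨K, hK1, hK⟩ := scal_one hκ' ha2.le hB hC
    refine ⟨(p1 + b) / 2, K, by linarith, by linarith, hK1, fun q hq1 hq2 hKX S => ?_⟩
    have hq0 : 0 < q := by linarith
    have hX1 : 1 ≤ X q := by linarith
    have hX0 : 0 < X q := by linarith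
    obtain ⟨j, k, hk1, hk2⟩ := hK (X q) hKX
    set n : ℝ := ((B * j : ℕ) : ℝ) with hn
    have hn0 : 0 ≤ n := Nat.cast_nonneg _
    have hS0 : (0 : ℝ) ≤ S.card := Nat.cast_nonneg _
    have h2 := hE j S
    have h3 := hmain q hq1 hq2 S (B * j) k hk1
    have h4 := hI.card_le_F q hq0 hq2 k S
    set D := Real.exp k + C * (1 + n) * Real.exp n / X q with hD
    have hD0 : 0 < D := by positivity
    have h5 : Real.exp (a * n) * S.card ≤ D * F q S := by
      calc Real.exp (a * n) * S.card ≤ _ := h2.trans h3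
        _ ≤ Real.exp k * F q S + C * (1 + n) * Real.exp n * F q S / X q := by linarith
        _ = D * F q S := by rw [hD]; ring
    have h6 : X q ^ (1 - min κ 1) * S.card ≤ F q S := by
      have h7 : D * (X q ^ (1 - min κ 1) * S.card) ≤ D * F q S := by
        refine le_trans ?_ h5
        calc D * (X q ^ (1 - min κ 1) * S.card) = X q ^ (1 - min κ 1) * D * S.card := by ring
          _ ≤ _ := mul_le_mul_of_nonneg_right hk2 hS0
      exact le_of_mul_le_mul_left h7 hD0
    refine le_trans ?_ h6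
    refine mul_le_mul_of_nonneg_right ?_ hS0
    exact Real.rpow_le_rpow_of_exponent_le hX1 (by linarith [min_le_left κ 1])

end Vale.Agent.P165.BS2
end

section
open Finset

set_option linter.unusedSectionVars false

namespace Vale.Agent.P151

section Thin
variable {ι : Type*} [DecidableEq ι]

lemma pow_card_mul_le_Ex {r : ℝ} (h0 : 0 ≤ r) (h1 : r ≤ 1) (W : Finset ι) {F : Finset ι → ℝ}
    (hF : ∀ S, 0 ≤ F S) : r ^ W.card * F W ≤ Ex r W F := by
  have h := Finset.single_le_sum (s := W.powerset)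
    (f := fun S => r ^ S.card * (1 - r) ^ (W.card - S.card) * F S)
    (fun S _ => mul_nonneg (mul_nonneg (pow_nonneg h0 _) (pow_nonneg (by linarith) _)) (hF S))
    (Finset.mem_powerset_self W)
  simpa [Ex] using h

variable {V : Type*} [DecidableEq V]

end Thin

end Vale.Agent.P151
end

section
open Finset

set_option linter.unusedSectionVars false

namespace Vale.Agent.P151

section Infinite
variable {V : Type*} [DecidableEq V]

section basic
variable {G : SimpleGraph V} {p : ℝ} {A B : Finset (Sym2 V) → ℝ}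

lemma EV_mono_p {q : ℝ} (h0 : 0 ≤ p) (hpq : p ≤ q) (h1 : q ≤ 1) (hAm : Monotone A)
    (hA : ∀ S, A S ≤ 1) : EV G p A ≤ EV G q A :=
  EV_le (fun F => (Ex_mono_p h0 hpq h1 _ hAm).trans (le_EV (h0.trans hpq) h1 hA F))

end basic

end Infinite

end Vale.Agent.P151
end

section
open MeasureTheory ProbabilityTheory

namespace Vale.Agent.P165

universe u

variable {V : Type u}

/-- The number of infinite open clusters when `ω` is the set of open edges. -/
noncomputable def numInfiniteClusters (ω : Set (Sym2 V)) : ℕ∞ :=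
  Set.encard {C : (SimpleGraph.fromEdgeSet ω).ConnectedComponent | C.supp.Infinite}

/-- The critical probability for the existence of an infinite cluster in Bernoulli bond
percolation on `G`; `setBernoulli G.edgeSet p` is the law of the random set of open edges. -/
noncomputable def pc (G : SimpleGraph V) : ℝ :=
  sInf {p : ℝ | ∃ h : p ∈ Set.Icc (0 : ℝ) 1,
    0 < setBernoulli G.edgeSet (⟨p, h⟩ : unitInterval) {ω | 1 ≤ numInfiniteClusters ω}}

/-- `G` is quasi-transitive: its automorphism group has finitely many orbits on vertices. -/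
def IsQuasiTransitive (G : SimpleGraph V) : Prop :=
  ∃ S : Finset V, ∀ x : V, ∃ y ∈ S, ∃ φ : G ≃g G, φ y = x

end Vale.Agent.P165
end

section
open MeasureTheory ProbabilityTheory Measure unitInterval
open scoped ENNReal Finset

namespace Vale.Agent.P165

variable {ι : Type*}

theorem setBer_inter_eq (u : Set ι) (p : I) (F η : Finset ι) (hF : (F : Set ι) ⊆ u) (hη : η ⊆ F) :
    setBernoulli u p {ω | ω ∩ (F : Set ι) = (η : Set ι)}
      = ENNReal.ofReal ((p : ℝ) ^ η.card * (1 - (p : ℝ)) ^ (F.card - η.card)) := by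
  classical
  rw [setBernoulli_apply']
  have hpre : ((fun q : ι → Prop ↦ {i | q i}) ⁻¹' {ω | ω ∩ (F : Set ι) = (η : Set ι)})
      = (F : Set ι).pi (fun i => {q : Prop | q ↔ i ∈ η}) := by
    ext q
    simp only [Set.mem_preimage, Set.mem_ofPred_eq, Set.mem_pi, Finset.mem_coe]
    constructor
    · intro h i hi
      have := Set.ext_iff.1 h i
      simp only [Set.mem_inter_iff, Set.mem_ofPred_eq, Finset.mem_coe] at this
      constructor
      · intro hq; exact this.1 ⟨hq, hi⟩
      · intro hq; exact (this.2 hq).1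
    · intro h
      ext i
      simp only [Set.mem_inter_iff, Set.mem_ofPred_eq, Finset.mem_coe]
      constructor
      · rintro ⟨h1, h2⟩; exact (h i h2).1 h1
      · intro hi; exact ⟨(h i (hη hi)).2 hi, hη hi⟩
  rw [hpre, infinitePi_pi _ (fun i _ => MeasurableSet.of_discrete)]
  have hval : ∀ i ∈ F, ((toNNReal p • dirac (i ∈ u) + toNNReal (σ p) • dirac False : Measure Prop)
      {q : Prop | q ↔ i ∈ η}) = ENNReal.ofReal (if i ∈ η then (p : ℝ) else 1 - (p : ℝ)) := by
    intro i hi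
    have hiu : i ∈ u := hF hi
    have h1 : (↑(toNNReal p) : ℝ≥0∞) = ENNReal.ofReal (p : ℝ) := by
      rw [ENNReal.ofReal]
      congr 1
      exact (Real.toNNReal_of_nonneg p.2.1).symm
    have h2 : (↑(toNNReal (σ p)) : ℝ≥0∞) = ENNReal.ofReal (1 - (p : ℝ)) := by
      rw [ENNReal.ofReal]
      congr 1
      exact (Real.toNNReal_of_nonneg (σ p).2.1).symm
    by_cases hη' : i ∈ η
    · simp [hiu, hη', h1]
    · simp [hiu, hη', h2]
  rw [Finset.prod_congr rfl hval, ← ENNReal.ofReal_prod_of_nonneg]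
  · congr 1
    rw [Finset.prod_ite, Finset.prod_const, Finset.prod_const]
    have e1 : (F.filter (fun i => i ∈ η)) = η := by
      ext i; simp only [Finset.mem_filter]; exact ⟨fun h => h.2, fun h => ⟨hη h, h⟩⟩
    have e2 : (F.filter (fun i => ¬ i ∈ η)) = F \ η := by
      ext i; simp only [Finset.mem_filter, Finset.mem_sdiff]
    rw [e1, e2, Finset.card_sdiff_of_subset hη]
  · intro i _
    split_ifs
    · exact p.2.1
    · linarith [p.2.2]

theorem measurableSet_inter_eq (F η : Finset ι) :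
    MeasurableSet {ω : Set ι | ω ∩ (F : Set ι) = (η : Set ι)} := by
  classical
  by_cases hη : η ⊆ F
  · have : {ω : Set ι | ω ∩ (F : Set ι) = (η : Set ι)} = ⋂ i ∈ F, {ω : Set ι | i ∈ ω ↔ i ∈ η} := by
      ext ω
      simp only [Set.mem_ofPred_eq, Set.mem_iInter]
      constructor
      · intro h i hi
        have := Set.ext_iff.1 h i
        simp only [Set.mem_inter_iff, Finset.mem_coe] at this
        constructor
        · intro hq; exact this.1 ⟨hq, hi⟩
        · intro hq; exact (this.2 hq).1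
      · intro h
        ext i
        simp only [Set.mem_inter_iff, Finset.mem_coe]
        constructor
        · rintro ⟨h1, h2⟩; exact (h i h2).1 h1
        · intro hi; exact ⟨(h i (hη hi)).2 hi, hη hi⟩
    rw [this]
    refine Finset.measurableSet_biInter _ (fun i _ => ?_)
    by_cases hi : i ∈ η
    · simp only [hi, iff_true]
      exact measurableSet_setOfPred.2 (measurable_set_mem i)
    · simp only [hi, iff_false]
      exact (measurableSet_setOfPred.2 (measurable_set_mem i)).compl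
  · have : {ω : Set ι | ω ∩ (F : Set ι) = (η : Set ι)} = ∅ := by
      ext ω
      simp only [Set.mem_ofPred_eq, Set.mem_empty_iff_false, iff_false]
      intro h
      apply hη
      intro i hi
      have : i ∈ ω ∩ (F : Set ι) := by rw [h]; exact hi
      exact this.2
    rw [this]; exact MeasurableSet.empty

theorem setOf_inter_eq_biUnion (F : Finset ι) (Q : Set ι → Prop) [DecidablePred Q] :
    {ω : Set ι | Q (ω ∩ (F : Set ι))}
      = ⋃ η ∈ F.powerset.filter (fun η : Finset ι => Q (η : Set ι)), {ω : Set ι | ω ∩ (F : Set ι) = (η : Set ι)} := by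
  classical
  ext ω
  simp only [Set.mem_ofPred_eq, Finset.mem_filter, Finset.mem_powerset, Set.mem_iUnion,
    exists_prop]
  constructor
  · intro h
    refine ⟨F.filter (fun i => i ∈ ω), ⟨Finset.filter_subset _ _, ?_⟩, ?_⟩
    · have : ((F.filter (fun i => i ∈ ω) : Finset ι) : Set ι) = ω ∩ (F : Set ι) := by
        ext i; simp [and_comm]
      rw [this]; exact h
    · ext i; simp [and_comm]
  · rintro ⟨η, ⟨_, h2⟩, h3⟩
    rw [h3]; exact h2

theorem setBer_inter_pred (u : Set ι) (p : I) (F : Finset ι) (hF : (F : Set ι) ⊆ u)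
    (Q : Set ι → Prop) [DecidablePred Q] :
    (setBernoulli u p).real {ω | Q (ω ∩ (F : Set ι))}
      = ∑ η ∈ F.powerset.filter (fun η : Finset ι => Q (η : Set ι)), (p : ℝ) ^ η.card * (1 - (p : ℝ)) ^ (F.card - η.card) := by
  classical
  rw [setOf_inter_eq_biUnion, measureReal_biUnion_finset]
  · refine Finset.sum_congr rfl (fun η hη => ?_)
    rw [Finset.mem_filter, Finset.mem_powerset] at hη
    rw [measureReal_def, setBer_inter_eq u p F η hF hη.1, ENNReal.toReal_ofReal]
    have := p.2.1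
    have h2 : (0 : ℝ) ≤ 1 - (p : ℝ) := by linarith [p.2.2]
    positivity
  · intro η _ η' _ hne
    rw [Function.onFun, Set.disjoint_left]
    intro ω h1 h2
    apply hne
    have h1' : ω ∩ (F : Set ι) = (η : Set ι) := h1
    have h2' : ω ∩ (F : Set ι) = (η' : Set ι) := h2
    exact_mod_cast h1'.symm.trans h2'
  · exact fun η _ => measurableSet_inter_eq F η

end Vale.Agent.P165
end

section
namespace Vale.Agent.P165

open SimpleGraph

universe u
variable {V : Type u}

/-- Balls of a locally finite graph, as finsets. -/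
noncomputable def ballF (G : SimpleGraph V) [G.LocallyFinite] (o : V) : ℕ → Finset V := by
  classical
  exact fun n => Nat.rec {o} (fun _ B => B ∪ B.biUnion (fun x => G.neighborFinset x)) n

theorem ballF_zero (G : SimpleGraph V) [G.LocallyFinite] (o : V) : ballF G o 0 = {o} := rfl

theorem mem_ballF_succ (G : SimpleGraph V) [G.LocallyFinite] (o : V) (n : ℕ) (y : V) :
    y ∈ ballF G o (n + 1) ↔ y ∈ ballF G o n ∨ ∃ x ∈ ballF G o n, G.Adj x y := by
  classical
  have : ballF G o (n + 1) = ballF G o n ∪ (ballF G o n).biUnion (fun x => G.neighborFinset x) := by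
    unfold ballF; rfl
  rw [this]
  simp

theorem ballF_mono (G : SimpleGraph V) [G.LocallyFinite] (o : V) : Monotone (ballF G o) := by
  refine monotone_nat_of_le_succ (fun n x hx => ?_)
  rw [mem_ballF_succ]; exact Or.inl hx

theorem mem_ballF_self (G : SimpleGraph V) [G.LocallyFinite] (o : V) (n : ℕ) : o ∈ ballF G o n := by
  have : o ∈ ballF G o 0 := by rw [ballF_zero]; simp
  exact ballF_mono G o (Nat.zero_le n) this

theorem mem_ballF_of_walk (G : SimpleGraph V) [G.LocallyFinite] (o : V) :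
    ∀ (n : ℕ) (x : V) (w : G.Walk x o), w.length ≤ n → x ∈ ballF G o n := by
  intro n
  induction n with
  | zero =>
    intro x w hw
    have : x = o := Walk.eq_of_length_eq_zero (Nat.le_zero.1 hw)
    subst this
    exact mem_ballF_self G x 0
  | succ n ih =>
    intro x w hw
    cases w with
    | nil => exact mem_ballF_self G _ _
    | cons h q =>
      rw [mem_ballF_succ]
      right
      refine ⟨_, ih _ q ?_, h.symm⟩
      simp at hw; exact hw

theorem mem_ballF_of_dist_le (G : SimpleGraph V) [G.LocallyFinite] (hG : G.Connected) (o x : V)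
    (n : ℕ) (h : G.dist x o ≤ n) : x ∈ ballF G o n := by
  obtain ⟨w, hw⟩ := (hG.preconnected x o).exists_walk_length_eq_dist
  exact mem_ballF_of_walk G o n x w (hw ▸ h)

theorem countable_of_connected (G : SimpleGraph V) [G.LocallyFinite] (hG : G.Connected) :
    Countable V := by
  obtain ⟨o⟩ := hG.nonempty
  have h : (Set.univ : Set V) = ⋃ n, (ballF G o n : Set V) := by
    ext x
    simp only [Set.mem_univ, Set.mem_iUnion, true_iff]
    exact ⟨G.dist x o, mem_ballF_of_dist_le G hG o x _ le_rfl⟩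
  have hc : (Set.univ : Set V).Countable := by
    rw [h]
    exact Set.countable_iUnion (fun n => (ballF G o n).countable_toSet)
  exact Set.countable_univ_iff.1 hc

theorem exists_ballF_superset (G : SimpleGraph V) [G.LocallyFinite] (hG : G.Connected) (o : V)
    (F : Finset V) : ∃ n, F ⊆ ballF G o n := by
  classical
  induction F using Finset.induction_on with
  | empty => exact ⟨0, by simp⟩
  | insert a F _ ih =>
    obtain ⟨n, hn⟩ := ih
    refine ⟨max n (G.dist a o), ?_⟩
    intro x hx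
    rw [Finset.mem_insert] at hx
    rcases hx with rfl | hx
    · exact mem_ballF_of_dist_le G hG o _ _ (le_max_right _ _)
    · exact ballF_mono G o (le_max_left _ _) (hn hx)

end Vale.Agent.P165
end

section
open MeasureTheory ProbabilityTheory SimpleGraph

namespace Vale.Agent.P165

universe u
variable {V : Type u}

/-- There is an open walk of length `n` from `x` to `y`. -/
def ReachN (n : ℕ) (x y : V) (ω : Set (Sym2 V)) : Prop :=
  ∃ w : (fromEdgeSet ω).Walk x y, w.length = n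

theorem measurableSet_reachN [Countable V] (n : ℕ) (x y : V) :
    MeasurableSet {ω : Set (Sym2 V) | ReachN n x y ω} := by
  induction n generalizing x with
  | zero =>
    by_cases h : x = y
    · subst h
      have : {ω : Set (Sym2 V) | ReachN 0 x x ω} = Set.univ := by
        ext ω; simp only [Set.mem_ofPred_eq, Set.mem_univ, iff_true]
        exact ⟨Walk.nil, rfl⟩
      rw [this]; exact MeasurableSet.univ
    · have : {ω : Set (Sym2 V) | ReachN 0 x y ω} = ∅ := by
        ext ω; simp only [Set.mem_ofPred_eq, Set.mem_empty_iff_false, iff_false]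
        rintro ⟨w, hw⟩
        exact h (Walk.eq_of_length_eq_zero hw)
      rw [this]; exact MeasurableSet.empty
  | succ n ih =>
    have : {ω : Set (Sym2 V) | ReachN (n + 1) x y ω}
        = ⋃ z : V, ({ω : Set (Sym2 V) | (fromEdgeSet ω).Adj x z} ∩ {ω | ReachN n z y ω}) := by
      ext ω
      simp only [Set.mem_ofPred_eq, Set.mem_iUnion, Set.mem_inter_iff]
      constructor
      · rintro ⟨w, hw⟩
        cases w with
        | nil => simp at hw
        | cons h q => exact ⟨_, h, q, by simpa using hw⟩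
      · rintro ⟨z, h, q, hq⟩
        exact ⟨Walk.cons h q, by simpa using hq⟩
    rw [this]
    refine MeasurableSet.iUnion (fun z => MeasurableSet.inter ?_ (ih z))
    by_cases hxz : x = z
    · subst hxz
      simp
    · have : {ω : Set (Sym2 V) | (fromEdgeSet ω).Adj x z} = {ω | s(x, z) ∈ ω} := by
        ext ω; simp [fromEdgeSet_adj, hxz]
      rw [this]
      exact measurableSet_setOfPred.2 (measurable_set_mem _)

theorem reachable_iff_reachN (x y : V) (ω : Set (Sym2 V)) :
    (fromEdgeSet ω).Reachable x y ↔ ∃ n, ReachN n x y ω :=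
  ⟨fun ⟨w⟩ => ⟨w.length, w, rfl⟩, fun ⟨_, w, _⟩ => ⟨w⟩⟩

theorem measurableSet_reachable [Countable V] (x y : V) :
    MeasurableSet {ω : Set (Sym2 V) | (fromEdgeSet ω).Reachable x y} := by
  have : {ω : Set (Sym2 V) | (fromEdgeSet ω).Reachable x y} = ⋃ n, {ω | ReachN n x y ω} := by
    ext ω; simp only [Set.mem_ofPred_eq, Set.mem_iUnion]; exact reachable_iff_reachN x y ω
  rw [this]
  exact MeasurableSet.iUnion (fun n => measurableSet_reachN n x y)

/-- The cluster of `x` is infinite. -/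
def InfC (x : V) : Set (Set (Sym2 V)) := {ω | {y | (fromEdgeSet ω).Reachable x y}.Infinite}

end Vale.Agent.P165
end

section
open MeasureTheory ProbabilityTheory SimpleGraph
open scoped ENNReal

namespace Vale.Agent.P165

universe u
variable {V : Type u}

theorem exists_supp_infinite_of_one_le {ω : Set (Sym2 V)} (h : 1 ≤ numInfiniteClusters ω) :
    ∃ x, ω ∈ InfC x := by
  unfold numInfiniteClusters at h
  rw [Set.one_le_encard_iff_nonempty] at h
  obtain ⟨C, hC⟩ := h
  induction C using ConnectedComponent.ind with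
  | _ x =>
    refine ⟨x, ?_⟩
    have hC' : ((fromEdgeSet ω).connectedComponentMk x).supp.Infinite := hC
    refine hC'.mono (fun y hy => ?_)
    have hy' : (fromEdgeSet ω).connectedComponentMk y = (fromEdgeSet ω).connectedComponentMk x := hy
    exact (ConnectedComponent.eq.1 hy').symm

theorem supp_infinite_of_infC {ω : Set (Sym2 V)} {x : V} (h : ω ∈ InfC x) :
    ((fromEdgeSet ω).connectedComponentMk x).supp.Infinite := by
  have h' : {y | (fromEdgeSet ω).Reachable x y}.Infinite := h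
  refine h'.mono (fun y hy => ?_)
  exact ConnectedComponent.eq.2 (Reachable.symm hy)

theorem one_le_of_infC {ω : Set (Sym2 V)} {x : V} (h : ω ∈ InfC x) :
    1 ≤ numInfiniteClusters ω := by
  unfold numInfiniteClusters
  rw [Set.one_le_encard_iff_nonempty]
  exact ⟨_, supp_infinite_of_infC h⟩

end Vale.Agent.P165
end

section
namespace Vale.Agent.P165

open SimpleGraph

universe u
variable {V : Type u}

/-- All edges of `G` with at least one endpoint in `L`. -/
noncomputable def touch (G : SimpleGraph V) [G.LocallyFinite] (L : Finset V) :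
    Finset (Sym2 V) := by
  classical
  exact L.biUnion (fun x => (G.neighborFinset x).image (fun y => s(x, y)))

theorem mem_touch (G : SimpleGraph V) [G.LocallyFinite] (L : Finset V) (e : Sym2 V) :
    e ∈ touch G L ↔ ∃ x ∈ L, ∃ y, G.Adj x y ∧ s(x, y) = e := by
  classical
  simp [touch]

theorem touch_subset (G : SimpleGraph V) [G.LocallyFinite] (L : Finset V) :
    ((touch G L : Finset (Sym2 V)) : Set (Sym2 V)) ⊆ G.edgeSet := by
  intro e he
  rw [Finset.mem_coe, mem_touch] at he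
  obtain ⟨x, _, y, hxy, rfl⟩ := he
  exact hxy

/-- With open edges `η`, the vertex `o` is connected to the complement of `L`. -/
def crossing (o : V) (L : Finset V) (η : Set (Sym2 V)) : Prop :=
  ∃ y, y ∉ L ∧ (SimpleGraph.fromEdgeSet η).Reachable o y

end Vale.Agent.P165
end

section
open MeasureTheory ProbabilityTheory SimpleGraph
open scoped ENNReal

namespace Vale.Agent.P165

universe u
variable {V : Type u}

open Classical in
theorem prob_crossing (G : SimpleGraph V) [G.LocallyFinite] (p : unitInterval) (o : V)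
    (L : Finset V) :
    (setBernoulli G.edgeSet p).real {ω | crossing o L (ω ∩ (touch G L : Finset (Sym2 V)))}
      = ∑ η ∈ (touch G L).powerset.filter (fun η : Finset (Sym2 V) => crossing o L (η : Set (Sym2 V))),
        (p : ℝ) ^ η.card * (1 - (p : ℝ)) ^ ((touch G L).card - η.card) :=
  setBer_inter_pred G.edgeSet p (touch G L) (touch_subset G L) (crossing o L)

open Classical in
/-- A uniform lower bound on finite-volume crossing probabilities gives an infinite cluster. -/
theorem prob_infC_ge (G : SimpleGraph V) [G.LocallyFinite] (hG : G.Connected)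
    (p : unitInterval) (o : V) (c : ℝ)
    (h : ∀ L : Finset V, o ∈ L → c ≤ ∑ η ∈ (touch G L).powerset.filter
        (fun η : Finset (Sym2 V) => crossing o L (η : Set (Sym2 V))),
        (p : ℝ) ^ η.card * (1 - (p : ℝ)) ^ ((touch G L).card - η.card)) :
    c ≤ (setBernoulli G.edgeSet p).real (InfC o) := by
  have : Countable V := countable_of_connected G hG
  set μ := setBernoulli G.edgeSet p with hμ
  set A : ℕ → Set (Set (Sym2 V)) := fun n => {ω | crossing o (ballF G o n) ω} with hA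
  have hAmeas : ∀ n, MeasurableSet (A n) := by
    intro n
    have : A n = ⋃ y : {y : V // y ∉ ballF G o n}, {ω : Set (Sym2 V) | (fromEdgeSet ω).Reachable o y} := by
      ext ω
      simp only [hA, crossing, Set.mem_ofPred_eq, Set.mem_iUnion]
      constructor
      · rintro ⟨y, hy, h⟩; exact ⟨⟨y, hy⟩, h⟩
      · rintro ⟨⟨y, hy⟩, h⟩; exact ⟨y, hy, h⟩
    rw [this]
    exact MeasurableSet.iUnion (fun y => measurableSet_reachable o y)
  have hanti : Antitone A := by
    intro m n hmn ω hω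
    obtain ⟨y, hy, h⟩ := hω
    exact ⟨y, fun hy' => hy (ballF_mono G o hmn hy'), h⟩
  have hge : ∀ n, c ≤ μ.real (A n) := by
    intro n
    refine (h (ballF G o n) (mem_ballF_self G o n)).trans ?_
    rw [← prob_crossing]
    refine measureReal_mono ?_ (measure_ne_top _ _)
    intro ω hω
    obtain ⟨y, hy, h⟩ := hω
    exact ⟨y, hy, h.mono (fromEdgeSet_mono Set.inter_subset_left)⟩
  have hsub : ⋂ n, A n ⊆ InfC o := by
    intro ω hω
    rw [Set.mem_iInter] at hω
    show {y | (fromEdgeSet ω).Reachable o y}.Infinite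
    intro hfin
    obtain ⟨n, hn⟩ := exists_ballF_superset G hG o hfin.toFinset
    obtain ⟨y, hy, h⟩ := hω n
    exact hy (hn (by rw [Set.Finite.mem_toFinset]; exact h))
  have htend : Filter.Tendsto (fun n => μ (A n)) Filter.atTop (nhds (μ (⋂ n, A n))) :=
    tendsto_measure_iInter_atTop (fun n => (hAmeas n).nullMeasurableSet) hanti
      ⟨0, measure_ne_top _ _⟩
  have htend' : Filter.Tendsto (fun n => μ.real (A n)) Filter.atTop (nhds (μ.real (⋂ n, A n))) :=
    (ENNReal.tendsto_toReal (measure_ne_top _ _)).comp htend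
  have h1 : c ≤ μ.real (⋂ n, A n) := ge_of_tendsto' htend' hge
  exact h1.trans (measureReal_mono hsub (measure_ne_top _ _))

open Classical in
theorem pc_le (G : SimpleGraph V) [G.LocallyFinite] (hG : G.Connected)
    (p : ℝ) (hp : p ∈ Set.Icc (0 : ℝ) 1) (o : V) (c : ℝ) (hc : 0 < c)
    (h : ∀ L : Finset V, o ∈ L → c ≤ ∑ η ∈ (touch G L).powerset.filter
        (fun η : Finset (Sym2 V) => crossing o L (η : Set (Sym2 V))),
        p ^ η.card * (1 - p) ^ ((touch G L).card - η.card)) :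
    pc G ≤ p := by
  unfold pc
  refine csInf_le ⟨0, ?_⟩ ⟨hp, ?_⟩
  · rintro q ⟨hq, _⟩; exact hq.1
  · have h1 := prob_infC_ge G hG ⟨p, hp⟩ o c h
    have h2 : 0 < (setBernoulli G.edgeSet (⟨p, hp⟩ : unitInterval)) (InfC o) := by
      rw [pos_iff_ne_zero]
      intro h0
      rw [measureReal_def, h0] at h1
      simp at h1
      linarith
    exact lt_of_lt_of_le h2 (measure_mono (fun ω hω => one_le_of_infC hω))

end Vale.Agent.P165
end

section
/-!
# P165, large groups: definitions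

Everything is done in finite volume: `edgesIn G F` is the set of edges of `G` inside the finite
set `F`, `Ex p Λ A` is the expectation of `A` when every edge of `Λ` is open with probability `p`.
-/

open Finset

set_option linter.unusedSectionVars false

namespace Vale.Agent.P165.LF

open Vale.Agent.P151 (Ex Cn cl csz edgesIn EV con tau)

open Classical in
/-- The indicator of a proposition. -/
noncomputable def ind (P : Prop) : ℝ := if P then 1 else 0

lemma ind_nonneg (P : Prop) : 0 ≤ ind P := by unfold ind; split_ifs <;> norm_num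
lemma ind_le_one (P : Prop) : ind P ≤ 1 := by unfold ind; split_ifs <;> norm_num
lemma ind_true {P : Prop} (h : P) : ind P = 1 := if_pos h
lemma ind_false {P : Prop} (h : ¬ P) : ind P = 0 := if_neg h
lemma ind_mono {P Q : Prop} (h : P → Q) : ind P ≤ ind Q := by
  by_cases hP : P
  · rw [ind_true hP, ind_true (h hP)]
  · rw [ind_false hP]; exact ind_nonneg Q
lemma ind_congr {P Q : Prop} (h : P ↔ Q) : ind P = ind Q :=
  le_antisymm (ind_mono h.1) (ind_mono h.2)
lemma ind_and (P Q : Prop) : ind (P ∧ Q) = ind P * ind Q := by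
  by_cases hP : P <;> by_cases hQ : Q <;> simp [ind, hP, hQ]

variable {V : Type} [DecidableEq V]

/-- The union of the clusters of the points of `B`. -/
def clS (S : Finset (Sym2 V)) (B : Set V) : Set V := {y | ∃ b ∈ B, Cn S b y}

open Classical in
/-- The edges of `Λ` with no end point in `Q`. -/
noncomputable def offE (Λ : Finset (Sym2 V)) (Q : Set V) : Finset (Sym2 V) :=
  Λ.filter (fun e => ∀ v ∈ e, v ∉ Q)

/-- The indicator that `x` is connected to `B`. -/
noncomputable def hit (x : V) (B : Set V) (S : Finset (Sym2 V)) : ℝ := ind (∃ y ∈ B, Cn S x y)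

open Classical in
/-- The number of points of `B` in the cluster of `x`. -/
noncomputable def cnt (x : V) (B : Set V) (S : Finset (Sym2 V)) : ℕ :=
  ((cl S x).filter (fun y => y ∈ B)).card

/-- The family of all finite-volume expected cluster sizes. -/
noncomputable def vol (G : SimpleGraph V) (q : ℝ) (z : V × Finset V) : ℝ :=
  Ex q (edgesIn G z.2) (fun S => (csz S z.1 : ℝ))

/-- The expected cluster size is uniformly bounded. -/
def Sub (G : SimpleGraph V) (q : ℝ) : Prop := BddAbove (Set.range (vol G q))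

/-- The (largest) expected cluster size. -/
noncomputable def chi (G : SimpleGraph V) (q : ℝ) : ℝ := ⨆ z, vol G q z

end Vale.Agent.P165.LF
end

section
/-! Elementary facts: expectations in infinite volume, automorphisms, base change. -/

open Finset

set_option linter.unusedSectionVars false

namespace Vale.Agent.P165.LF

open Vale.Agent.P151 (Ex Cn cl csz edgesIn EV con tau)

variable {V : Type} [DecidableEq V]

lemma hit_mono (x : V) (B : Set V) : Monotone (hit x B) := by
  intro S T h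
  refine ind_mono ?_
  rintro ⟨y, hy, hc⟩
  exact ⟨y, hy, hc.mono h⟩

lemma hit_nonneg (x : V) (B : Set V) (S : Finset (Sym2 V)) : 0 ≤ hit x B S := ind_nonneg _

lemma hit_le_one (x : V) (B : Set V) (S : Finset (Sym2 V)) : hit x B S ≤ 1 := ind_le_one _

/-- A finite sum of infinite-volume expectations is controlled in finite volume. -/
lemma sum_EV_le {G : SimpleGraph V} {p : ℝ} (h0 : 0 ≤ p) (h1 : p ≤ 1) {κ : Type*} (s : Finset κ)
    (H : κ → Finset (Sym2 V) → ℝ) (hm : ∀ k ∈ s, Monotone (H k)) (hb : ∀ k ∈ s, ∀ S, H k S ≤ 1)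
    {C : ℝ} (hC : ∀ F : Finset V, Ex p (edgesIn G F) (fun S => ∑ k ∈ s, H k S) ≤ C) :
    ∑ k ∈ s, EV G p (H k) ≤ C := by
  classical
  refine le_of_forall_pos_le_add fun ε hε => ?_
  have hpos : (0 : ℝ) < (s.card : ℝ) + 1 := by positivity
  set δ : ℝ := ε / ((s.card : ℝ) + 1) with hδ
  have hδ0 : 0 < δ := div_pos hε hpos
  have hex : ∀ k, ∃ F : Finset V, EV G p (H k) - δ < Ex p (edgesIn G F) (H k) := fun k =>
    Vale.Agent.P151.exists_lt_Ex (by linarith)
  choose Fk hFk using hex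
  set F : Finset V := s.biUnion Fk with hF
  have h2 : ∀ k ∈ s, EV G p (H k) ≤ Ex p (edgesIn G F) (H k) + δ := by
    intro k hk
    have h3 : Ex p (edgesIn G (Fk k)) (H k) ≤ Ex p (edgesIn G F) (H k) :=
      Vale.Agent.P151.Ex_edgesIn_mono h0 h1 (hm k hk) (Finset.subset_biUnion_of_mem Fk hk)
    have h4 := hFk k
    linarith
  calc ∑ k ∈ s, EV G p (H k) ≤ ∑ k ∈ s, (Ex p (edgesIn G F) (H k) + δ) := Finset.sum_le_sum h2
    _ = Ex p (edgesIn G F) (fun S => ∑ k ∈ s, H k S) + s.card * δ := by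
        rw [Finset.sum_add_distrib, Vale.Agent.P151.Ex_sum, Finset.sum_const, nsmul_eq_mul]
    _ ≤ C + ε := by
        have h5 : (s.card : ℝ) * δ ≤ ε := by
          rw [hδ, mul_div_assoc', div_le_iff₀ hpos]
          nlinarith
        have h6 := hC F
        linarith

lemma Cn_of_walk {G : SimpleGraph V} {x y : V} (w : G.Walk x y) (S : Finset (Sym2 V))
    (h : ∀ e ∈ w.edges, e ∈ S) : Cn S x y := by
  induction w with
  | nil => exact Vale.Agent.P151.Cn.refl S _
  | @cons a b c hadj w ih =>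
    have h1 : Cn S a b := Vale.Agent.P151.Cn_of_mem (h _ (by simp))
    exact h1.trans (ih (fun e he => h e (by simp [he])))

/-- In finite volume, along a geodesic inside `F`. -/
lemma exists_finset_pow_dist_le {G : SimpleGraph V} (hG : G.Connected) (x y : V) :
    ∃ F : Finset V, ∀ F', F ⊆ F' → ∀ p : ℝ, 0 ≤ p → p ≤ 1 →
      p ^ G.dist x y ≤ Ex p (edgesIn G F') (con x y) := by
  obtain ⟨w, hw⟩ := hG.exists_walk_length_eq_dist x y
  refine ⟨w.support.toFinset, fun F' hF' p h0 h1 => ?_⟩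
  set W : Finset (Sym2 V) := w.edges.toFinset with hW
  have hWF : W ⊆ edgesIn G F' := by
    intro e he
    rw [hW, List.mem_toFinset] at he
    rw [Vale.Agent.P151.mem_edgesIn]
    refine ⟨w.edges_subset_edgeSet he, fun v hv => hF' ?_⟩
    rw [List.mem_toFinset]
    exact w.mem_support_of_mem_edges he hv
  have hcon : con x y W = 1 := by
    unfold Vale.Agent.P151.con
    rw [if_pos]
    exact Cn_of_walk w W (fun e he => by rw [hW, List.mem_toFinset]; exact he)
  have hcard : W.card ≤ G.dist x y := by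
    rw [hW, ← hw, ← SimpleGraph.Walk.length_edges]
    exact List.toFinset_card_le _
  calc p ^ G.dist x y ≤ p ^ W.card := pow_le_pow_of_le_one h0 h1 hcard
    _ = p ^ W.card * con x y W := by rw [hcon, mul_one]
    _ ≤ Ex p W (con x y) :=
        Vale.Agent.P151.pow_card_mul_le_Ex h0 h1 W (fun S => Vale.Agent.P151.con_nonneg x y S)
    _ ≤ Ex p (edgesIn G F') (con x y) :=
        Vale.Agent.P151.Ex_mono_set h0 h1 hWF (Vale.Agent.P151.con_mono x y)

/-- Connection probabilities are at least `p ^ dist`. -/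
lemma pow_dist_le {G : SimpleGraph V} (hG : G.Connected) {p : ℝ} (h0 : 0 ≤ p) (h1 : p ≤ 1)
    (x y : V) : p ^ G.dist x y ≤ EV G p (con x y) := by
  obtain ⟨F, hF⟩ := exists_finset_pow_dist_le hG x y
  exact (hF F (Finset.Subset.refl F) p h0 h1).trans
    (Vale.Agent.P151.le_EV h0 h1 (Vale.Agent.P151.con_le_one x y) F)

lemma csz_le_chi {G : SimpleGraph V} {q : ℝ} (hs : Sub G q) (x : V) (F : Finset V) :
    Ex q (edgesIn G F) (fun S => (csz S x : ℝ)) ≤ chi G q := by
  exact le_ciSup hs (x, F)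

lemma chi_le {G : SimpleGraph V} [Nonempty V] {q c : ℝ} (h : ∀ (x : V) (F : Finset V),
    Ex q (edgesIn G F) (fun S => (csz S x : ℝ)) ≤ c) : chi G q ≤ c := by
  exact ciSup_le (fun z => h z.1 z.2)

lemma one_le_chi {G : SimpleGraph V} [Nonempty V] {q : ℝ} (h0 : 0 ≤ q) (h1 : q ≤ 1)
    (hs : Sub G q) : 1 ≤ chi G q := by
  obtain ⟨x⟩ := ‹Nonempty V›
  refine le_trans ?_ (csz_le_chi hs x ∅)
  have h2 := Vale.Agent.P151.Ex_mono h0 h1 (Λ := edgesIn G (∅ : Finset V))
    (F := fun _ => (1 : ℝ)) (G := fun S => (csz S x : ℝ)) (fun S _ => by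
      have h3 : 1 ≤ csz S x := Vale.Agent.P151.csz_pos S x
      exact_mod_cast h3)
  rwa [Vale.Agent.P151.Ex_const] at h2

lemma csz_cast_mono (x : V) : Monotone (fun S : Finset (Sym2 V) => (csz S x : ℝ)) := by
  intro S T h
  exact Nat.cast_le.2 (Vale.Agent.P151.csz_mono h x)

lemma chi_mono {G : SimpleGraph V} [Nonempty V] {p q : ℝ} (h0 : 0 ≤ p) (hpq : p ≤ q) (h1 : q ≤ 1)
    (hs : Sub G q) : chi G p ≤ chi G q := by
  exact chi_le (fun x F => (Vale.Agent.P151.Ex_mono_p h0 hpq h1 _ (csz_cast_mono x)).trans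
    (csz_le_chi hs x F))

lemma Sub.mono {G : SimpleGraph V} {p q : ℝ} (h0 : 0 ≤ p) (hpq : p ≤ q) (h1 : q ≤ 1)
    (hs : Sub G q) : Sub G p := by
  obtain ⟨c, hc⟩ := hs
  refine ⟨c, ?_⟩
  rintro _ ⟨z, rfl⟩
  exact (Vale.Agent.P151.Ex_mono_p h0 hpq h1 _ (csz_cast_mono z.1)).trans (hc ⟨z, rfl⟩)

end Vale.Agent.P165.LF
end

section
/-! P165, full conjecture: hitting probabilities and `F_S` -/

open Finset MeasureTheory ProbabilityTheory

set_option linter.unusedSectionVars false

namespace Vale.Agent.P165.BS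

open Vale.Agent.P151 (Ex Cn cl csz edgesIn EV con tau)
open Vale.Agent.P165.LF

variable {V : Type} [DecidableEq V] {G : SimpleGraph V}

/-- `P_p(z ↔ S)`. -/
noncomputable def HP (G : SimpleGraph V) (p : ℝ) (z : V) (S : Finset V) : ℝ :=
  EV G p (hit z (S : Set V))

/-- `F_S(p) = ∑_z P_p(z ↔ S)`. -/
noncomputable def FS (G : SimpleGraph V) (p : ℝ) (S : Finset V) : ℝ :=
  ⨆ Z : Finset V, ∑ z ∈ Z, HP G p z S

lemma sum_hit_le (Z S : Finset V) (T : Finset (Sym2 V)) :
    ∑ z ∈ Z, hit z (S : Set V) T ≤ ∑ s ∈ S, (csz T s : ℝ) := by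
  classical
  have h1 : ∀ z ∈ Z, hit z (S : Set V) T ≤ ∑ s ∈ S, ind (z ∈ cl T s) := by
    intro z _
    unfold hit
    by_cases h : ∃ y ∈ (S : Set V), Cn T z y
    · rw [ind_true h]
      obtain ⟨y, hy, hc⟩ := h
      have h2 : (1 : ℝ) = ind (z ∈ cl T y) := (ind_true (Vale.Agent.P151.mem_cl.2 hc.symm)).symm
      rw [h2]
      exact Finset.single_le_sum (f := fun s => ind (z ∈ cl T s)) (fun s _ => ind_nonneg _)
        (Finset.mem_coe.1 hy)
    · rw [ind_false h]
      exact Finset.sum_nonneg (fun s _ => ind_nonneg _)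
  refine (Finset.sum_le_sum h1).trans ?_
  rw [Finset.sum_comm]
  refine Finset.sum_le_sum fun s _ => ?_
  have h3 : ∑ z ∈ Z, ind (z ∈ cl T s) = ((Z.filter (fun z => z ∈ cl T s)).card : ℝ) := by
    rw [Finset.card_filter, Nat.cast_sum]
    refine Finset.sum_congr rfl fun z _ => ?_
    unfold ind
    split_ifs <;> simp
  rw [h3]
  have h4 : (Z.filter (fun z => z ∈ cl T s)).card ≤ csz T s :=
    Finset.card_le_card (fun z hz => (Finset.mem_filter.1 hz).2)
  exact_mod_cast h4

/-- Partial sums of `F_S` are at most `|S| χ`. -/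
theorem sum_HP_le {p : ℝ} (h0 : 0 ≤ p) (h1 : p ≤ 1) (hs : Sub G p) (Z S : Finset V) :
    ∑ z ∈ Z, HP G p z S ≤ S.card * chi G p := by
  refine sum_EV_le h0 h1 Z (fun z => hit z (S : Set V)) (fun z _ => hit_mono z _)
    (fun z _ T => hit_le_one z _ T) (fun F => ?_)
  refine (Vale.Agent.P151.Ex_mono h0 h1 (fun T _ => sum_hit_le Z S T)).trans ?_
  rw [Vale.Agent.P151.Ex_sum]
  refine (Finset.sum_le_sum fun s _ => csz_le_chi hs s F).trans ?_
  rw [Finset.sum_const, nsmul_eq_mul]

theorem sum_HP_le_FS {p : ℝ} (h0 : 0 ≤ p) (h1 : p ≤ 1) (hs : Sub G p) (Z S : Finset V) :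
    ∑ z ∈ Z, HP G p z S ≤ FS G p S := by
  refine le_ciSup (f := fun Z : Finset V => ∑ z ∈ Z, HP G p z S) ⟨S.card * chi G p, ?_⟩ Z
  rintro _ ⟨Z, rfl⟩
  exact sum_HP_le h0 h1 hs Z S

end Vale.Agent.P165.BS
end

section
namespace Vale.Agent.P165

universe u

variable {V : Type u}

/-- The (outer) vertex boundary of a finite vertex set. -/
def vertexBoundary (G : SimpleGraph V) (A : Finset V) : Set V :=
  {y | y ∉ A ∧ ∃ x ∈ A, G.Adj x y}

/-- The vertex-isoperimetric constant `h_V(G) = inf |∂_V A| / |A|`. -/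
noncomputable def vertexCheeger (G : SimpleGraph V) : ℝ :=
  ⨅ A : {A : Finset V // A.Nonempty}, ((vertexBoundary G A.1).ncard : ℝ) / (A.1.card : ℝ)

end Vale.Agent.P165
end

section
/-!
# P165, the general case: definitions

`HP G q x S` is `P_q(x ↔ S)`, `FS G q S` is the expected size of the union of the clusters of the
points of `S`, `fat G q n S` is the set of points connected to `S` with probability at least
`e^{-n}`.
-/

open Finset

set_option linter.unusedSectionVars false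

namespace Vale.Agent.P165.BS

open Vale.Agent.P151 (Ex Cn cl csz edgesIn EV con tau)
open Vale.Agent.P165.LF

variable {V : Type} [DecidableEq V]

open Classical in
/-- The points connected to `S` with probability at least `e^{-n}` (if there are finitely many). -/
noncomputable def fat (G : SimpleGraph V) (q : ℝ) (n : ℕ) (S : Finset V) : Finset V :=
  if h : {z | Real.exp (-(n : ℝ)) ≤ HP G q z S}.Finite then h.toFinset else S

end Vale.Agent.P165.BS
end

section
open Finset

set_option linter.unusedSectionVars false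

namespace Vale.Agent.P165.LF

open Vale.Agent.P151 (Ex Cn cl csz edgesIn EV con tau)

section bk

variable {ι : Type*} [DecidableEq ι]

/-- Two-witness properties which hold on disjoint open witnesses. -/
def DQ (Q : Finset ι → Finset ι → Prop) (S : Finset ι) : Prop :=
  ∃ I J : Finset ι, I ⊆ S ∧ J ⊆ S ∧ Disjoint I J ∧ Q I J

theorem DQ_insert {Q : Finset ι → Finset ι → Prop}
    (hQ : ∀ I I' J J' : Finset ι, I ⊆ I' → J ⊆ J' → Q I J → Q I' J') {e : ι} {S : Finset ι}
    (he : e ∉ S) :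
    DQ Q (insert e S) ↔ DQ (fun I J => Q (insert e I) J ∨ Q I (insert e J)) S := by
  constructor
  · rintro ⟨I, J, hI, hJ, hd, h⟩
    have hI' : I.erase e ⊆ S := fun x hx => by
      rcases mem_insert.1 (hI (mem_of_mem_erase hx)) with h' | h'
      · exact absurd h' (ne_of_mem_erase hx)
      · exact h'
    have hJ' : J.erase e ⊆ S := fun x hx => by
      rcases mem_insert.1 (hJ (mem_of_mem_erase hx)) with h' | h'
      · exact absurd h' (ne_of_mem_erase hx)
      · exact h'
    refine ⟨I.erase e, J.erase e, hI', hJ',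
      disjoint_of_subset_left (erase_subset _ _) (disjoint_of_subset_right (erase_subset _ _) hd), ?_⟩
    by_cases heI : e ∈ I
    · left
      have heJ : e ∉ J := disjoint_left.1 hd heI
      rw [insert_erase heI, erase_eq_of_notMem heJ]
      exact h
    · right
      rw [erase_eq_of_notMem heI]
      exact hQ I I J _ (Subset.refl I) (fun x hx => by
        by_cases hxe : x = e
        · rw [hxe]; exact mem_insert_self _ _
        · exact mem_insert_of_mem (mem_erase.2 ⟨hxe, hx⟩)) h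
  · rintro ⟨I, J, hI, hJ, hd, h⟩
    have heI : e ∉ I := fun h' => he (hI h')
    have heJ : e ∉ J := fun h' => he (hJ h')
    rcases h with h | h
    · exact ⟨insert e I, J, insert_subset_insert e hI, hJ.trans (subset_insert _ _),
        disjoint_insert_left.2 ⟨heJ, hd⟩, h⟩
    · exact ⟨I, insert e J, hI.trans (subset_insert _ _), insert_subset_insert e hJ,
        disjoint_insert_right.2 ⟨heI, hd⟩, h⟩

open Vale.Agent.P151 (Ex_empty Ex_insert Ex_congr Ex_add Ex_const_mul Ex_mono Ex_mul_const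
  Ex_nonneg) in
theorem bk_aux {p : ℝ} (h0 : 0 ≤ p) (h1 : p ≤ 1) (E : Finset ι) (Q : Finset ι → Finset ι → Prop)
    (hQ : ∀ I I' J J' : Finset ι, I ⊆ I' → J ⊆ J' → Q I J → Q I' J') :
    Ex p E (fun S => ind (DQ Q S)) ≤ Ex p E (fun S => Ex p E (fun T => ind (Q S T))) := by
  induction E using Finset.induction_on generalizing Q with
  | empty =>
    rw [Ex_empty, Ex_empty, Ex_empty]
    refine ind_mono ?_
    rintro ⟨I, J, hI, hJ, _, h⟩
    rwa [subset_empty.1 hI, subset_empty.1 hJ] at h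
  | insert e E he ih =>
    have hL : Ex p (insert e E) (fun S => ind (DQ Q S))
        = p * Ex p E (fun S => ind (DQ (fun I J => Q (insert e I) J ∨ Q I (insert e J)) S))
          + (1 - p) * Ex p E (fun S => ind (DQ Q S)) := by
      rw [Ex_insert p he]
      congr 2
      refine Ex_congr p (fun S hS => ?_)
      rw [propext (DQ_insert hQ (fun h => he (hS h)))]
    have hR : Ex p (insert e E) (fun S => Ex p (insert e E) (fun T => ind (Q S T)))
        = p ^ 2 * Ex p E (fun S => Ex p E (fun T => ind (Q (insert e S) (insert e T))))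
          + p * (1 - p) * (Ex p E (fun S => Ex p E (fun T => ind (Q (insert e S) T)))
            + Ex p E (fun S => Ex p E (fun T => ind (Q S (insert e T)))))
          + (1 - p) ^ 2 * Ex p E (fun S => Ex p E (fun T => ind (Q S T))) := by
      rw [Ex_insert p he]
      have e1 : ∀ S, Ex p (insert e E) (fun T => ind (Q S T))
          = p * Ex p E (fun T => ind (Q S (insert e T))) + (1 - p) * Ex p E (fun T => ind (Q S T)) :=
        fun S => Ex_insert p he _
      simp only [e1]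
      rw [Ex_add, Ex_add, Ex_const_mul, Ex_const_mul, Ex_const_mul, Ex_const_mul]
      ring
    rw [hL, hR]
    have i1 := ih (fun I J => Q (insert e I) J ∨ Q I (insert e J)) (by
      rintro I I' J J' hI hJ (h | h)
      · exact Or.inl (hQ _ _ _ _ (insert_subset_insert e hI) hJ h)
      · exact Or.inr (hQ _ _ _ _ hI (insert_subset_insert e hJ) h))
    have i0 := ih Q hQ
    set q12 := Ex p E (fun S => Ex p E (fun T => ind (Q (insert e S) (insert e T)))) with h12
    set q1 := Ex p E (fun S => Ex p E (fun T => ind (Q (insert e S) T))) with hq1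
    set q2 := Ex p E (fun S => Ex p E (fun T => ind (Q S (insert e T)))) with hq2
    set q0 := Ex p E (fun S => Ex p E (fun T => ind (Q S T))) with hq0
    set qo := Ex p E (fun S => Ex p E (fun T => ind (Q (insert e S) T ∨ Q S (insert e T)))) with hqo
    set qa := Ex p E (fun S => Ex p E (fun T => ind (Q (insert e S) T ∧ Q S (insert e T)))) with hqa
    have hsum : qo + qa = q1 + q2 := by
      rw [hqo, hqa, hq1, hq2, ← Ex_add, ← Ex_add]
      refine Ex_congr p (fun S _ => ?_)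
      rw [← Ex_add, ← Ex_add]
      refine Ex_congr p (fun T _ => ?_)
      by_cases ha : Q (insert e S) T <;> by_cases hb : Q S (insert e T) <;>
        simp [ind, ha, hb]
    have ho12 : qo ≤ q12 := by
      refine Ex_mono h0 h1 (fun S _ => Ex_mono h0 h1 (fun T _ => ind_mono (fun h => ?_)))
      rcases h with h | h
      · exact hQ _ _ _ _ (Subset.refl _) (subset_insert _ _) h
      · exact hQ _ _ _ _ (subset_insert _ _) (Subset.refl _) h
    have h0a : q0 ≤ qa := by
      refine Ex_mono h0 h1 (fun S _ => Ex_mono h0 h1 (fun T _ => ind_mono (fun h => ?_)))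
      exact ⟨hQ _ _ _ _ (subset_insert _ _) (Subset.refl _) h,
        hQ _ _ _ _ (Subset.refl _) (subset_insert _ _) h⟩
    have h2 : 0 ≤ 1 - p := by linarith only [h1]
    have m1 : p * Ex p E (fun S => ind (DQ (fun I J => Q (insert e I) J ∨ Q I (insert e J)) S))
        ≤ p * qo := mul_le_mul_of_nonneg_left i1 h0
    have m0 : (1 - p) * Ex p E (fun S => ind (DQ Q S)) ≤ (1 - p) * q0 :=
      mul_le_mul_of_nonneg_left i0 h2
    have m2 : p ^ 2 * qo ≤ p ^ 2 * q12 := mul_le_mul_of_nonneg_left ho12 (by positivity)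
    have m3 : 0 ≤ p * (1 - p) * (qa - q0) :=
      mul_nonneg (mul_nonneg h0 h2) (by linarith only [h0a])
    have hs' : q1 + q2 = qo + qa := hsum.symm
    have : p ^ 2 * q12 + p * (1 - p) * (q1 + q2) + (1 - p) ^ 2 * q0
        = p * qo + (1 - p) * q0 + (p ^ 2 * q12 - p ^ 2 * qo) + p * (1 - p) * (qa - q0) := by
      rw [hs']
      ring
    rw [this]
    linarith only [m1, m0, m2, m3]

end bk

/-- BK inequality for increasing events (two-argument form). -/
theorem bk_gen {ι : Type*} [DecidableEq ι] {p : ℝ} (h0 : 0 ≤ p) (h1 : p ≤ 1) (Λ : Finset ι)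
    (Φ : Finset ι → Finset ι → Prop)
    (hΦ : ∀ S S' T T', S ⊆ S' → T ⊆ T' → Φ S T → Φ S' T') :
    Ex p Λ (fun S => ind (∃ S1 S2, S1 ⊆ S ∧ S2 ⊆ S ∧ Disjoint S1 S2 ∧ Φ S1 S2)) ≤
      Ex p Λ (fun S => Ex p Λ (fun T => ind (Φ S T))) :=
  bk_aux h0 h1 Λ Φ hΦ

/-- BK inequality for increasing events. -/
theorem bk {ι : Type*} [DecidableEq ι] {p : ℝ} (h0 : 0 ≤ p) (h1 : p ≤ 1) (Λ : Finset ι)
    (A B : Finset ι → Prop) (hA : ∀ S S', S ⊆ S' → A S → A S') (hB : ∀ S S', S ⊆ S' → B S → B S') :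
    Ex p Λ (fun S => ind (∃ S1 S2, S1 ⊆ S ∧ S2 ⊆ S ∧ Disjoint S1 S2 ∧ A S1 ∧ B S2)) ≤
      Ex p Λ (fun S => ind (A S)) * Ex p Λ (fun S => ind (B S)) := by
  have h := bk_gen h0 h1 Λ (fun I J => A I ∧ B J)
    (fun I I' J J' hI hJ h => ⟨hA I I' hI h.1, hB J J' hJ h.2⟩)
  refine h.trans (le_of_eq ?_)
  rw [← Vale.Agent.P151.Ex_mul_const]
  refine Vale.Agent.P151.Ex_congr p (fun S _ => ?_)
  rw [← Vale.Agent.P151.Ex_const_mul]
  refine Vale.Agent.P151.Ex_congr p (fun T _ => ?_)
  exact ind_and _ _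

variable {V : Type} [DecidableEq V]

theorem Cn_of_walk_bk {S P : Finset (Sym2 V)} {x y : V} (w : (Vale.Agent.P151.gr S).Walk x y)
    (hP : ∀ e ∈ w.edges, e ∈ P) : Cn P x y := by
  induction w with
  | nil => exact Vale.Agent.P151.Cn.refl _ _
  | cons h p ih =>
    rw [SimpleGraph.Walk.edges_cons] at hP
    exact (Vale.Agent.P151.Cn_of_mem (hP _ (List.mem_cons_self ..))).trans
      (ih (fun e he => hP e (List.mem_cons_of_mem _ he)))

/-- Path splitting, with the additional information that the path is connected. -/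
theorem path_split' (S : Finset (Sym2 V)) (x y : V) (h : Cn S x y) :
    ∃ P, P ⊆ S ∧ Cn P x y ∧ (∀ e ∈ P, ∀ v ∈ e, Cn P x v) ∧ ∀ z, Cn P x z →
      ∃ S1 S2, S1 ⊆ P ∧ S2 ⊆ P ∧ Disjoint S1 S2 ∧ Cn S1 x z ∧ Cn S2 z y := by
  classical
  obtain ⟨w0⟩ := h
  obtain ⟨v, hwp⟩ : ∃ v : (Vale.Agent.P151.gr S).Walk x y, v.IsPath :=
    ⟨(w0.toPath : (Vale.Agent.P151.gr S).Walk x y), w0.toPath.2⟩
  set P : Finset (Sym2 V) := v.edges.toFinset with hP
  have hPS : P ⊆ S := by
    intro e he
    rw [hP, List.mem_toFinset] at he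
    have := SimpleGraph.Walk.edges_subset_edgeSet v he
    induction e with
    | _ a b =>
      exact (Vale.Agent.P151.gr_adj.1 this).1
  have hsupp : ∀ z, Cn P x z → z ∈ v.support := by
    intro z hz
    refine Vale.Agent.P151.Cn_closed (S := P) (A := {z | z ∈ v.support}) ?_
      v.start_mem_support hz
    intro a _ b hab
    rw [hP, List.mem_toFinset] at hab
    exact SimpleGraph.Walk.snd_mem_support_of_mem_edges v hab
  have hsplit : ∀ z, z ∈ v.support →
      ∃ S1 S2, S1 ⊆ P ∧ S2 ⊆ P ∧ Disjoint S1 S2 ∧ Cn S1 x z ∧ Cn S2 z y := by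
    intro z hz
    refine ⟨(v.takeUntil z hz).edges.toFinset, (v.dropUntil z hz).edges.toFinset, ?_, ?_, ?_, ?_, ?_⟩
    · intro e he
      rw [List.mem_toFinset] at he
      rw [hP, List.mem_toFinset]
      exact SimpleGraph.Walk.edges_takeUntil_subset_edges v hz he
    · intro e he
      rw [List.mem_toFinset] at he
      rw [hP, List.mem_toFinset]
      exact SimpleGraph.Walk.edges_dropUntil_subset_edges v hz he
    · rw [Finset.disjoint_left]
      intro e he1 he2
      rw [List.mem_toFinset] at he1 he2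
      have hnd : v.edges.Nodup := hwp.isTrail.edges_nodup
      have hsp : v.edges = (v.takeUntil z hz).edges ++ (v.dropUntil z hz).edges := by
        conv_lhs => rw [← SimpleGraph.Walk.take_spec v hz]
        rw [SimpleGraph.Walk.edges_append]
      rw [hsp] at hnd
      exact (List.nodup_append.1 hnd).2.2 e he1 e he2 rfl
    · exact Cn_of_walk_bk _ (fun e he => List.mem_toFinset.2 he)
    · exact Cn_of_walk_bk _ (fun e he => List.mem_toFinset.2 he)
  refine ⟨P, hPS, Cn_of_walk_bk v (fun e he => List.mem_toFinset.2 he), ?_, fun z hz => hsplit z (hsupp z hz)⟩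
  intro e he z hze
  have hz : z ∈ v.support := by
    rw [hP, List.mem_toFinset] at he
    induction e with
    | _ a b =>
      rcases Sym2.mem_iff.1 hze with rfl | rfl
      · exact SimpleGraph.Walk.fst_mem_support_of_mem_edges v he
      · exact SimpleGraph.Walk.snd_mem_support_of_mem_edges v he
  obtain ⟨S1, _, h1, _, _, h2, _⟩ := hsplit z hz
  exact h2.mono h1

end Vale.Agent.P165.LF
end

section
open Finset

set_option linter.unusedSectionVars false

namespace Vale.Agent.P165.LF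

open Vale.Agent.P151 (Ex Cn cl csz edgesIn EV con tau)

variable {V : Type} [DecidableEq V]

/-- Path splitting for three points: an open connection of `x`, `y`, `z` contains edge-disjoint
connections of a point `u` to `x`, `y`, `z`. -/
theorem tree_split (S : Finset (Sym2 V)) (x y z : V) (hy : Cn S x y) (hz : Cn S x z) :
    ∃ u, Cn S x u ∧ ∃ S1 S2, S1 ⊆ S ∧ S2 ⊆ S ∧ Disjoint S1 S2 ∧ Cn S1 x u ∧
      ∃ T1 T2, T1 ⊆ S2 ∧ T2 ⊆ S2 ∧ Disjoint T1 T2 ∧ Cn T1 u y ∧ Cn T2 u z := by
  obtain ⟨P, hPS, hPxy, hPc, hsplit⟩ := path_split' S x y hy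
  have hA : z ∈ {v | ∃ u, Cn P x u ∧ Cn (S \ P) u v} := by
    refine Vale.Agent.P151.Cn_closed (S := S) ?_
      ⟨x, Vale.Agent.P151.Cn.refl _ _, Vale.Agent.P151.Cn.refl _ _⟩ hz
    rintro a ⟨u, hu, hua⟩ b hab
    by_cases h : s(a, b) ∈ P
    · exact ⟨b, hPc _ h b (Sym2.mem_mk_right a b), Vale.Agent.P151.Cn.refl _ _⟩
    · exact ⟨u, hu, hua.trans (Vale.Agent.P151.Cn_of_mem (mem_sdiff.2 ⟨hab, h⟩))⟩
  obtain ⟨u, hu, huz⟩ := hA
  obtain ⟨S1, T1, hS1, hT1, hd, hxu, huy⟩ := hsplit u hu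
  refine ⟨u, hu.mono hPS, S1, T1 ∪ (S \ P), hS1.trans hPS,
    union_subset (hT1.trans hPS) sdiff_subset, ?_, hxu, T1, S \ P, subset_union_left,
    subset_union_right, ?_, huy, huz⟩
  · rw [disjoint_union_right]
    exact ⟨hd, disjoint_of_subset_left hS1 disjoint_sdiff⟩
  · exact disjoint_of_subset_left hT1 disjoint_sdiff

theorem con_eq_ind (x y : V) (S : Finset (Sym2 V)) : con x y S = ind (Cn S x y) := by
  unfold con ind
  rfl

/-- Three-point function. -/
theorem three_point {q : ℝ} (h0 : 0 ≤ q) (h1 : q ≤ 1) (Λ : Finset (Sym2 V)) (U : Finset V)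
    (hU : ∀ e ∈ Λ, ∀ v ∈ e, v ∈ U) (x y z : V) (hx : x ∈ U) :
    Ex q Λ (fun S => ind (Cn S x y) * ind (Cn S x z)) ≤
      ∑ u ∈ U, Ex q Λ (con x u) * (Ex q Λ (con u y) * Ex q Λ (con u z)) := by
  have hpt : ∀ S ⊆ Λ, ind (Cn S x y) * ind (Cn S x z) ≤
      ∑ u ∈ U, ind (∃ S1 S2, S1 ⊆ S ∧ S2 ⊆ S ∧ Disjoint S1 S2 ∧ Cn S1 x u ∧
        (∃ T1 T2, T1 ⊆ S2 ∧ T2 ⊆ S2 ∧ Disjoint T1 T2 ∧ Cn T1 u y ∧ Cn T2 u z)) := by
    intro S hS
    rw [← ind_and]
    by_cases h : Cn S x y ∧ Cn S x z
    · rw [ind_true h]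
      obtain ⟨u, hxu, hu⟩ := tree_split S x y z h.1 h.2
      have huU : u ∈ (U : Set V) := by
        refine Vale.Agent.P151.Cn_closed (S := S) (A := (U : Set V)) ?_ (mem_coe.2 hx) hxu
        intro a _ b hab
        exact hU _ (hS hab) b (Sym2.mem_mk_right a b)
      refine le_trans (le_of_eq (ind_true hu).symm) ?_
      exact Finset.single_le_sum (f := fun u => ind (∃ S1 S2, S1 ⊆ S ∧ S2 ⊆ S ∧
        Disjoint S1 S2 ∧ Cn S1 x u ∧
        (∃ T1 T2, T1 ⊆ S2 ∧ T2 ⊆ S2 ∧ Disjoint T1 T2 ∧ Cn T1 u y ∧ Cn T2 u z)))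
        (fun _ _ => ind_nonneg _) (mem_coe.1 huU)
    · rw [ind_false h]
      exact Finset.sum_nonneg (fun _ _ => ind_nonneg _)
  refine (Vale.Agent.P151.Ex_mono h0 h1 hpt).trans ?_
  rw [Vale.Agent.P151.Ex_sum]
  refine Finset.sum_le_sum (fun u _ => ?_)
  refine (bk h0 h1 Λ (fun S => Cn S x u)
    (fun S => ∃ T1 T2, T1 ⊆ S ∧ T2 ⊆ S ∧ Disjoint T1 T2 ∧ Cn T1 u y ∧ Cn T2 u z)
    (fun S S' h h' => h'.mono h) ?_).trans ?_
  · rintro S S' h ⟨T1, T2, hT1, hT2, h'⟩
    exact ⟨T1, T2, hT1.trans h, hT2.trans h, h'⟩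
  · have e1 : Ex q Λ (con x u) = Ex q Λ (fun S => ind (Cn S x u)) :=
      Vale.Agent.P151.Ex_congr q (fun S _ => con_eq_ind x u S)
    have e2 : Ex q Λ (con u y) = Ex q Λ (fun S => ind (Cn S u y)) :=
      Vale.Agent.P151.Ex_congr q (fun S _ => con_eq_ind u y S)
    have e3 : Ex q Λ (con u z) = Ex q Λ (fun S => ind (Cn S u z)) :=
      Vale.Agent.P151.Ex_congr q (fun S _ => con_eq_ind u z S)
    rw [e1, e2, e3]
    refine mul_le_mul_of_nonneg_left ?_ (Vale.Agent.P151.Ex_nonneg h0 h1 (fun _ _ => ind_nonneg _))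
    exact bk h0 h1 Λ (fun S => Cn S u y) (fun S => Cn S u z) (fun S S' h h' => h'.mono h)
      (fun S S' h h' => h'.mono h)

/-- The cluster size as a sum. -/
theorem csz_eq_sum {S : Finset (Sym2 V)} {U : Finset V} (hU : ∀ e ∈ S, ∀ v ∈ e, v ∈ U) {x : V}
    (hx : x ∈ U) : (csz S x : ℝ) = ∑ y ∈ U, ind (Cn S x y) := by
  classical
  have hsub : cl S x ⊆ U := by
    intro y hy
    rw [Vale.Agent.P151.mem_cl] at hy
    have : y ∈ (U : Set V) := by
      refine Vale.Agent.P151.Cn_closed (S := S) (A := (U : Set V)) ?_ (mem_coe.2 hx) hy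
      intro a _ b hab
      exact hU _ hab b (Sym2.mem_mk_right a b)
    exact mem_coe.1 this
  have e1 : ∑ y ∈ U, ind (Cn S x y) = ∑ y ∈ U, (if y ∈ cl S x then (1 : ℝ) else 0) := by
    refine Finset.sum_congr rfl (fun y _ => ?_)
    by_cases h : Cn S x y
    · rw [ind_true h, if_pos (Vale.Agent.P151.mem_cl.2 h)]
    · rw [ind_false h, if_neg (fun h' => h (Vale.Agent.P151.mem_cl.1 h'))]
  rw [e1, ← Finset.sum_filter, Finset.sum_const, nsmul_eq_mul, mul_one]
  unfold csz
  congr 2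
  ext y
  rw [mem_filter]
  exact ⟨fun h => ⟨hsub h, h⟩, fun h => h.2⟩

theorem sum_con_le (G : SimpleGraph V) {q X : ℝ} (h0 : 0 ≤ q) (h1 : q ≤ 1)
    (hX : ∀ z, vol G q z ≤ X) (F U : Finset V) (u : V) :
    ∑ y ∈ U, Ex q (edgesIn G F) (con u y) ≤ X := by
  have h := hX (u, F)
  refine le_trans ?_ h
  unfold vol
  rw [← Vale.Agent.P151.Ex_sum]
  refine Vale.Agent.P151.Ex_mono h0 h1 (fun S hS => ?_)
  simp only
  have hS' : ∀ e ∈ S, ∀ v ∈ e, v ∈ insert u (F ∪ U) := fun e he v hv =>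
    mem_insert_of_mem (mem_union_left _ ((Vale.Agent.P151.mem_edgesIn.1 (hS he)).2 v hv))
  rw [csz_eq_sum hS' (mem_insert_self u _)]
  calc ∑ y ∈ U, con u y S = ∑ y ∈ U, ind (Cn S u y) :=
        Finset.sum_congr rfl (fun y _ => con_eq_ind u y S)
    _ ≤ _ := Finset.sum_le_sum_of_subset_of_nonneg
        (fun y hy => mem_insert_of_mem (mem_union_right _ hy)) (fun _ _ _ => ind_nonneg _)

/-- Second moment of the cluster size (tree-graph inequality). -/
theorem second_moment (G : SimpleGraph V) {q X : ℝ} (h0 : 0 ≤ q) (h1 : q ≤ 1)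
    (hX : ∀ z, vol G q z ≤ X) (x : V) (F : Finset V) :
    Ex q (edgesIn G F) (fun S => (csz S x : ℝ) ^ 2) ≤ X ^ 3 := by
  set Λ := edgesIn G F with hΛ
  set U := insert x F with hU
  have hUe : ∀ e ∈ Λ, ∀ v ∈ e, v ∈ U := fun e he v hv =>
    mem_insert_of_mem ((Vale.Agent.P151.mem_edgesIn.1 he).2 v hv)
  have hxU : x ∈ U := mem_insert_self x F
  have hX0 : 0 ≤ X := by
    refine le_trans ?_ (hX (x, F))
    exact Vale.Agent.P151.Ex_nonneg h0 h1 (fun S _ => by positivity)
  have hcon0 : ∀ a b, 0 ≤ Ex q Λ (con a b) := fun a b =>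
    Vale.Agent.P151.Ex_nonneg h0 h1 (fun S _ => Vale.Agent.P151.con_nonneg a b S)
  calc Ex q Λ (fun S => (csz S x : ℝ) ^ 2)
      = Ex q Λ (fun S => ∑ y ∈ U, ∑ z ∈ U, ind (Cn S x y) * ind (Cn S x z)) := by
        refine Vale.Agent.P151.Ex_congr q (fun S hS => ?_)
        rw [csz_eq_sum (fun e he => hUe e (hS he)) hxU, sq, Finset.sum_mul_sum]
    _ = ∑ y ∈ U, ∑ z ∈ U, Ex q Λ (fun S => ind (Cn S x y) * ind (Cn S x z)) := by
        rw [Vale.Agent.P151.Ex_sum]
        exact Finset.sum_congr rfl (fun y _ => Vale.Agent.P151.Ex_sum _ _ _ _)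
    _ ≤ ∑ y ∈ U, ∑ z ∈ U, ∑ u ∈ U, Ex q Λ (con x u) * (Ex q Λ (con u y) * Ex q Λ (con u z)) :=
        Finset.sum_le_sum (fun y _ => Finset.sum_le_sum (fun z _ =>
          three_point h0 h1 Λ U hUe x y z hxU))
    _ = ∑ u ∈ U, Ex q Λ (con x u) * ((∑ y ∈ U, Ex q Λ (con u y)) * ∑ z ∈ U, Ex q Λ (con u z)) := by
        have e : ∀ u ∈ U, Ex q Λ (con x u) * ((∑ y ∈ U, Ex q Λ (con u y))
            * ∑ z ∈ U, Ex q Λ (con u z))
            = ∑ y ∈ U, ∑ z ∈ U, Ex q Λ (con x u) * (Ex q Λ (con u y) * Ex q Λ (con u z)) := by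
          intro u _
          rw [Finset.sum_mul_sum, Finset.mul_sum]
          exact Finset.sum_congr rfl (fun y _ => by rw [Finset.mul_sum])
        rw [Finset.sum_congr rfl e]
        calc _ = ∑ y ∈ U, ∑ u ∈ U, ∑ z ∈ U,
              Ex q Λ (con x u) * (Ex q Λ (con u y) * Ex q Λ (con u z)) :=
              Finset.sum_congr rfl (fun y _ => Finset.sum_comm)
          _ = _ := Finset.sum_comm
    _ ≤ ∑ u ∈ U, Ex q Λ (con x u) * (X * X) := by
        refine Finset.sum_le_sum (fun u _ => mul_le_mul_of_nonneg_left ?_ (hcon0 x u))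
        exact mul_le_mul (sum_con_le G h0 h1 hX F U u) (sum_con_le G h0 h1 hX F U u)
          (Finset.sum_nonneg (fun z _ => hcon0 u z)) hX0
    _ = (∑ u ∈ U, Ex q Λ (con x u)) * (X * X) := by rw [Finset.sum_mul]
    _ ≤ X * (X * X) := mul_le_mul_of_nonneg_right (sum_con_le G h0 h1 hX F U x) (by positivity)
    _ = X ^ 3 := by ring

end Vale.Agent.P165.LF
end

section
/-! Elementary facts on `hP`, `fat`, `Fs`. -/

open Finset

set_option linter.unusedSectionVars false

namespace Vale.Agent.P165.BS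

open Vale.Agent.P151 (Ex Cn cl csz edgesIn EV con tau)
open Vale.Agent.P165.LF

variable {V : Type} [DecidableEq V] {G : SimpleGraph V}

theorem hP_nonneg {q : ℝ} (h0 : 0 ≤ q) (h1 : q ≤ 1) (x : V) (S : Finset V) : 0 ≤ HP G q x S :=
  Vale.Agent.P151.EV_nonneg h0 h1 (fun T => hit_nonneg x _ T) (fun T => hit_le_one x _ T)

theorem hP_le_one {q : ℝ} (h0 : 0 ≤ q) (h1 : q ≤ 1) (x : V) (S : Finset V) : HP G q x S ≤ 1 :=
  Vale.Agent.P151.EV_le_one h0 h1 (fun T => hit_le_one x _ T)

/-- Finite volume probabilities are smaller. -/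
theorem le_hP {q : ℝ} (h0 : 0 ≤ q) (h1 : q ≤ 1) (x : V) (S F : Finset V) :
    Ex q (edgesIn G F) (hit x (S : Set V)) ≤ HP G q x S :=
  Vale.Agent.P151.le_EV h0 h1 (fun T => hit_le_one x _ T) F

theorem hP_mem {q : ℝ} (h0 : 0 ≤ q) (h1 : q ≤ 1) {x : V} {S : Finset V} (hx : x ∈ S) :
    HP G q x S = 1 := by
  refine le_antisymm (hP_le_one h0 h1 x S) (le_trans (le_of_eq ?_) (le_hP h0 h1 x S ∅))
  have h : (hit x (S : Set V)) = fun _ => (1 : ℝ) := by
    funext T
    exact ind_true ⟨x, hx, Vale.Agent.P151.Cn.refl T x⟩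
  rw [h, Vale.Agent.P151.Ex_const]

private theorem fat_hit_mono_set (x : V) {S T : Finset V} (h : S ⊆ T) (U : Finset (Sym2 V)) :
    hit x (S : Set V) U ≤ hit x (T : Set V) U := by
  refine ind_mono ?_
  rintro ⟨y, hy, hc⟩
  exact ⟨y, h hy, hc⟩

theorem hP_mono {p q : ℝ} (h0 : 0 ≤ p) (hpq : p ≤ q) (h1 : q ≤ 1) (x : V) {S T : Finset V}
    (h : S ⊆ T) : HP G p x S ≤ HP G q x T :=
  (Vale.Agent.P151.EV_mono_p h0 hpq h1 (hit_mono x _) (fun U => hit_le_one x _ U)).trans
    (Vale.Agent.P151.EV_mono (h0.trans hpq) h1 (fun U => fat_hit_mono_set x h U)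
      (fun U => hit_le_one x _ U))

private theorem fat_hit_le_sum (z : V) (S : Finset V) (T : Finset (Sym2 V)) :
    hit z (S : Set V) T ≤ ∑ b ∈ S, ind (Cn T b z) := by
  unfold hit
  by_cases h : ∃ y ∈ (S : Set V), Cn T z y
  · rw [ind_true h]
    obtain ⟨y, hy, hc⟩ := h
    have h2 := single_le_sum (f := fun b => ind (Cn T b z)) (fun b _ => ind_nonneg _) hy
    exact le_trans (le_of_eq (ind_true hc.symm).symm) h2
  · rw [ind_false h]
    exact sum_nonneg fun b _ => ind_nonneg _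

private theorem fat_sum_ind_le (F : Finset V) (b : V) (T : Finset (Sym2 V)) :
    ∑ z ∈ F, ind (Cn T b z) ≤ (csz T b : ℝ) := by
  classical
  have h1 : ∑ z ∈ F, ind (Cn T b z) = ((F.filter (fun z => Cn T b z)).card : ℝ) := by
    rw [card_filter]
    push_cast
    refine sum_congr rfl fun z _ => ?_
    unfold ind
    congr
  rw [h1]
  have : (F.filter (fun z => Cn T b z)).card ≤ csz T b := by
    unfold csz
    refine card_le_card fun z hz => ?_
    rw [Vale.Agent.P151.mem_cl]
    exact (mem_filter.1 hz).2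
  exact_mod_cast this

/-- Sums of `hP` over finite sets. -/
theorem sum_hP_le {q : ℝ} (h0 : 0 ≤ q) (h1 : q ≤ 1) (hs : Sub G q) (S T : Finset V) :
    ∑ v ∈ T, HP G q v S ≤ chi G q * S.card := by
  refine sum_EV_le h0 h1 T (fun v => hit v (S : Set V)) (fun v _ => hit_mono v _)
    (fun v _ U => hit_le_one v _ U) fun F => ?_
  calc Ex q (edgesIn G F) (fun U => ∑ v ∈ T, hit v (S : Set V) U)
      ≤ Ex q (edgesIn G F) (fun U => ∑ s ∈ S, (csz U s : ℝ)) := by
        refine Vale.Agent.P151.Ex_mono h0 h1 fun U _ => ?_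
        calc ∑ v ∈ T, hit v (S : Set V) U ≤ ∑ v ∈ T, ∑ s ∈ S, ind (Cn U s v) :=
              sum_le_sum fun v _ => fat_hit_le_sum v S U
          _ = ∑ s ∈ S, ∑ v ∈ T, ind (Cn U s v) := sum_comm
          _ ≤ ∑ s ∈ S, (csz U s : ℝ) := sum_le_sum fun s _ => fat_sum_ind_le T s U
    _ = ∑ s ∈ S, Ex q (edgesIn G F) (fun U => (csz U s : ℝ)) := Vale.Agent.P151.Ex_sum _ _ _ _
    _ ≤ ∑ _s ∈ S, chi G q := sum_le_sum fun s _ => csz_le_chi hs s F
    _ = chi G q * S.card := by rw [sum_const, nsmul_eq_mul, mul_comm]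

private theorem fat_bdd {q : ℝ} (h0 : 0 ≤ q) (h1 : q ≤ 1) (hs : Sub G q) (S : Finset V) :
    BddAbove (Set.range (fun Z : Finset V => ∑ z ∈ Z, HP G q z S)) := by
  refine ⟨chi G q * S.card, ?_⟩
  rintro _ ⟨Z, rfl⟩
  exact sum_hP_le h0 h1 hs S Z

private theorem fat_sum_le_FS {q : ℝ} (h0 : 0 ≤ q) (h1 : q ≤ 1) (hs : Sub G q) (S Z : Finset V) :
    ∑ z ∈ Z, HP G q z S ≤ FS G q S := le_ciSup (fat_bdd h0 h1 hs S) Z

theorem card_le_Fs {q : ℝ} (h0 : 0 ≤ q) (h1 : q ≤ 1) (hs : Sub G q) (S : Finset V) :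
    (S.card : ℝ) ≤ FS G q S := by
  refine le_trans (le_of_eq ?_) (fat_sum_le_FS h0 h1 hs S S)
  rw [sum_congr rfl fun z hz => hP_mem h0 h1 hz, sum_const, nsmul_eq_mul, mul_one]

/-- Finite volume lower bound for `Fs`. -/
theorem sum_Ex_hit_le_Fs {q : ℝ} (h0 : 0 ≤ q) (h1 : q ≤ 1) (hs : Sub G q) (S T F : Finset V) :
    ∑ v ∈ T, Ex q (edgesIn G F) (hit v (S : Set V)) ≤ FS G q S :=
  (sum_le_sum fun v _ => le_hP h0 h1 v S F).trans (fat_sum_le_FS h0 h1 hs S T)

/-- `hP` is approximated in finite volume, uniformly over a finite set. -/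
theorem exists_hP_lt {q : ℝ} (h0 : 0 ≤ q) (h1 : q ≤ 1) (S L : Finset V) {c : ℝ}
    (hc : ∀ x ∈ L, c < HP G q x S) : ∃ F0 : Finset V, ∀ F, F0 ⊆ F →
      ∀ x ∈ L, c < Ex q (edgesIn G F) (hit x (S : Set V)) := by
  have hex : ∀ x ∈ L, ∃ F : Finset V, c < Ex q (edgesIn G F) (hit x (S : Set V)) := fun x hx =>
    Vale.Agent.P151.exists_lt_Ex (hc x hx)
  choose! Fx hFx using hex
  refine ⟨L.biUnion Fx, fun F hF x hx => (hFx x hx).trans_le ?_⟩
  exact Vale.Agent.P151.Ex_edgesIn_mono h0 h1 (hit_mono x _) ((subset_biUnion_of_mem Fx hx).trans hF)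

private theorem fat_card_mul_le {q : ℝ} (h0 : 0 ≤ q) (h1 : q ≤ 1) (hs : Sub G q) (n : ℕ)
    (S T : Finset V) (hT : ∀ z ∈ T, Real.exp (-(n : ℝ)) ≤ HP G q z S) :
    (T.card : ℝ) ≤ Real.exp n * chi G q * S.card := by
  have h2 : (T.card : ℝ) * Real.exp (-(n : ℝ)) ≤ chi G q * S.card := by
    refine le_trans ?_ (sum_hP_le h0 h1 hs S T)
    rw [← nsmul_eq_mul, ← sum_const]
    exact sum_le_sum fun z hz => hT z hz
  have h3 : (0 : ℝ) < Real.exp n := Real.exp_pos _
  have h4 : Real.exp n * Real.exp (-(n : ℝ)) = 1 := by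
    rw [← Real.exp_add, add_neg_cancel, Real.exp_zero]
  calc (T.card : ℝ) = Real.exp n * ((T.card : ℝ) * Real.exp (-(n : ℝ))) := by
        rw [mul_left_comm, h4, mul_one]
    _ ≤ Real.exp n * (chi G q * S.card) := mul_le_mul_of_nonneg_left h2 h3.le
    _ = _ := by ring

theorem fat_finite {q : ℝ} (h0 : 0 ≤ q) (h1 : q ≤ 1) (hs : Sub G q) (n : ℕ) (S : Finset V) :
    {z | Real.exp (-(n : ℝ)) ≤ HP G q z S}.Finite := by
  by_contra hinf
  have hinf' : {z | Real.exp (-(n : ℝ)) ≤ HP G q z S}.Infinite := hinf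
  obtain ⟨N, hN⟩ := exists_nat_gt (Real.exp n * chi G q * S.card)
  obtain ⟨T, hT, hcard⟩ := hinf'.exists_subset_card_eq N
  have h2 := fat_card_mul_le h0 h1 hs n S T fun z hz => hT hz
  rw [hcard] at h2
  linarith

theorem mem_fat {q : ℝ} (h0 : 0 ≤ q) (h1 : q ≤ 1) (hs : Sub G q) {n : ℕ} {S : Finset V} {z : V} :
    z ∈ fat G q n S ↔ Real.exp (-(n : ℝ)) ≤ HP G q z S := by
  unfold fat
  rw [dif_pos (fat_finite h0 h1 hs n S), Set.Finite.mem_toFinset]
  rfl

private theorem fat_exp_neg_le_one (n : ℕ) : Real.exp (-(n : ℝ)) ≤ 1 :=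
  Real.exp_le_one_iff.2 (neg_nonpos.2 (Nat.cast_nonneg n))

theorem subset_fat {q : ℝ} (h0 : 0 ≤ q) (h1 : q ≤ 1) (hs : Sub G q) (n : ℕ) (S : Finset V) :
    S ⊆ fat G q n S := by
  intro z hz
  rw [mem_fat h0 h1 hs, hP_mem h0 h1 hz]
  exact fat_exp_neg_le_one n

theorem fat_mono {p q : ℝ} (h0 : 0 ≤ p) (hpq : p ≤ q) (h1 : q ≤ 1) (hs : Sub G q) {m n : ℕ}
    (hmn : m ≤ n) {S T : Finset V} (h : S ⊆ T) : fat G p m S ⊆ fat G q n T := by
  intro z hz
  have : Nonempty V := ⟨z⟩
  rw [mem_fat h0 (hpq.trans h1) (Sub.mono h0 hpq h1 hs)] at hz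
  rw [mem_fat (h0.trans hpq) h1 hs]
  refine le_trans ?_ (hz.trans (hP_mono h0 hpq h1 z h))
  rw [Real.exp_le_exp, neg_le_neg_iff]
  exact_mod_cast hmn

theorem card_fat_le {q : ℝ} (h0 : 0 ≤ q) (h1 : q ≤ 1) (hs : Sub G q) (n : ℕ) (S : Finset V) :
    ((fat G q n S).card : ℝ) ≤ Real.exp n * chi G q * S.card :=
  fat_card_mul_le h0 h1 hs n S _ fun _ hz => (mem_fat h0 h1 hs).1 hz

private theorem fat_cl_sub {F : Finset V} {S : Finset (Sym2 V)} (hS : S ⊆ edgesIn G F)
    {x : V} (hx : x ∈ F) : cl S x ⊆ F := by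
  intro y hy
  rw [Vale.Agent.P151.mem_cl] at hy
  refine Finset.mem_coe.1 (Vale.Agent.P151.Cn_closed (A := (F : Set V)) ?_ hx hy)
  intro u _ v hv
  exact (Vale.Agent.P151.mk_mem_edgesIn.1 (hS hv)).2.2

/-- Double counting: `∑_x #(C_x ∩ L) = ∑_{a ∈ L} |C_a|`, with a weight depending on the cluster. -/
theorem sum_cnt_mul (F L : Finset V) (hL : L ⊆ F) {S : Finset (Sym2 V)} (hS : S ⊆ edgesIn G F)
    (w : Finset V → ℝ) :
    ∑ x ∈ F, (cnt x (L : Set V) S : ℝ) * w (cl S x) = ∑ a ∈ L, (csz S a : ℝ) * w (cl S a) := by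
  classical
  have h1 : ∀ x ∈ F, (cnt x (L : Set V) S : ℝ) * w (cl S x) =
      ∑ a ∈ L, (if Cn S x a then w (cl S a) else 0) := by
    intro x _
    have e1 : ∑ a ∈ L, (if Cn S x a then w (cl S a) else 0) =
        ∑ a ∈ L, (if Cn S x a then w (cl S x) else 0) := by
      refine sum_congr rfl fun a _ => ?_
      split_ifs with h
      · rw [Vale.Agent.P151.cl_eq h]
      · rfl
    rw [e1, ← sum_filter, sum_const, nsmul_eq_mul]
    congr 2
    unfold cnt
    congr 1
    ext a
    simp only [mem_filter, Vale.Agent.P151.mem_cl, mem_coe]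
    exact and_comm
  have h2 : ∀ a ∈ L, ∑ x ∈ F, (if Cn S x a then w (cl S a) else 0) =
      (csz S a : ℝ) * w (cl S a) := by
    intro a ha
    rw [← sum_filter, sum_const, nsmul_eq_mul]
    congr 2
    unfold csz
    congr 1
    ext x
    rw [mem_filter, Vale.Agent.P151.mem_cl]
    exact ⟨fun h => h.2.symm, fun h =>
      ⟨fat_cl_sub hS (hL ha) (Vale.Agent.P151.mem_cl.2 h), h.symm⟩⟩
  rw [sum_congr rfl h1, sum_comm, sum_congr rfl h2]

end Vale.Agent.P165.BS
end

section
open Finset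

set_option linter.unusedSectionVars false

namespace Vale.Agent.P165.LF

open Vale.Agent.P151 (Ex Cn cl csz edgesIn EV con tau)

variable {V : Type} [DecidableEq V]

/-- Kozma-Nitzan inequality: if every point of the finite set `A` is connected to `B` with
probability at least `m`, then `P(x ↔ B) ≥ m P(x ↔ A)`. -/
theorem kn_fin {p : ℝ} (h0 : 0 ≤ p) (h1 : p ≤ 1) (Λ : Finset (Sym2 V)) (x : V) (A : Finset V)
    (B : Set V) {m : ℝ} (hm : ∀ a ∈ A, m ≤ Ex p Λ (hit a B)) :
    m * Ex p Λ (hit x (A : Set V)) ≤ Ex p Λ (hit x B) := by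
  classical
  set W : Finset V := Λ.biUnion Sym2.toFinset ∪ A ∪ {x} with hWdef
  have hW : ∀ e ∈ Λ, ∀ v ∈ e, v ∈ W := by
    intro e he v hv
    rw [hWdef]
    refine Finset.mem_union_left _ (Finset.mem_union_left _ ?_)
    exact Finset.mem_biUnion.2 ⟨e, he, Sym2.mem_toFinset.2 hv⟩
  have hAW : ∀ a ∈ A, a ∈ W := fun a ha =>
    Finset.mem_union_left _ (Finset.mem_union_right _ ha)
  have hxW : x ∈ W := Finset.mem_union_right _ (Finset.mem_singleton_self x)
  let inc : ↥Λ → Set ↥W := fun e => {v : ↥W | (v : V) ∈ (e : Sym2 V)}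
  let q : ↥Λ → ℝ := fun _ => p
  let A' : Finset ↥W := A.subtype (· ∈ W)
  let x' : ↥W := ⟨x, hxW⟩
  let F' : Set ↥W → ℝ := fun C => ind (∃ y ∈ B, y ∈ Subtype.val '' C)
  have hF' : Monotone F' := fun C C' h =>
    ind_mono fun ⟨y, hy, hyC⟩ => ⟨y, hy, Set.image_mono h hyC⟩
  have hcl : ∀ (ω : Finset ↥Λ) (a : ↥W), Subtype.val '' (P151.KN.cl inc ω ∅ {a}) =
      {y | Cn (ω.map (Function.Embedding.subtype _)) (a : V) y} :=
    fun ω a => P151.Red.KNWrapAux.image_cl Λ W hW ω a
  have hEx : ∀ G : Finset (Sym2 V) → ℝ, P151.KN.Ex q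
      (fun ω => G (ω.map (Function.Embedding.subtype _))) = Ex p Λ G := by
    intro G
    rw [P151.Red.KNWrapAux.KN_Ex_eq Λ (fun _ => p) G]
    exact P151.Red.KNWrapAux.ExQ_eq_Ex _ p Λ G fun _ _ => rfl
  have hmeet : ∀ ω : Finset ↥Λ, (∃ a ∈ A', a ∈ P151.KN.cl inc ω ∅ {x'}) ↔
      ∃ a ∈ (A : Set V), Cn (ω.map (Function.Embedding.subtype _)) x a := by
    intro ω
    have h := hcl ω x'
    constructor
    · rintro ⟨a, ha, hac⟩
      refine ⟨a, Finset.mem_subtype.1 ha, ?_⟩
      have h2 : (a : V) ∈ Subtype.val '' (P151.KN.cl inc ω ∅ {x'}) := ⟨a, hac, rfl⟩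
      rw [h] at h2
      exact h2
    · rintro ⟨a, ha, hac⟩
      have h2 : a ∈ {y | Cn (ω.map (Function.Embedding.subtype _)) (x' : V) y} := hac
      rw [← h] at h2
      obtain ⟨b, hb, rfl⟩ := h2
      exact ⟨b, Finset.mem_subtype.2 ha, hb⟩
  have hFc : ∀ (ω : Finset ↥Λ) (a : ↥W), F' (P151.KN.cl inc ω ∅ {a}) =
      hit (a : V) B (ω.map (Function.Embedding.subtype _)) := by
    intro ω a
    show ind (∃ y ∈ B, y ∈ Subtype.val '' (P151.KN.cl inc ω ∅ {a})) = _
    rw [hcl ω a]
    rfl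
  have hkn := P151.KN.kozma_nitzan inc q (fun _ => h0) (fun _ => h1) A' x' F' hF' m (by
    intro a ha
    simp only [hFc]
    rw [hEx (fun T => hit (a : V) B T)]
    exact hm a (Finset.mem_subtype.1 ha))
  have e2 : ∀ dec : ∀ ω : Finset ↥Λ, Decidable (∃ a ∈ A', a ∈ P151.KN.cl inc ω ∅ {x'}),
      P151.KN.Ex q (fun ω => @ite ℝ (∃ a ∈ A', a ∈ P151.KN.cl inc ω ∅ {x'}) (dec ω) 1 0) =
      Ex p Λ (hit x (A : Set V)) := by
    intro dec
    refine Eq.trans ?_ (hEx (fun T => hit x (A : Set V) T))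
    congr 1
    funext ω
    unfold hit
    by_cases h : ∃ a ∈ A', a ∈ P151.KN.cl inc ω ∅ {x'}
    · rw [if_pos h, ind_true ((hmeet ω).1 h)]
    · rw [if_neg h, ind_false fun h' => h ((hmeet ω).2 h')]
  have e3 : ∀ dec : ∀ ω : Finset ↥Λ, Decidable (∃ a ∈ A', a ∈ P151.KN.cl inc ω ∅ {x'}),
      P151.KN.Ex q (fun ω => @ite ℝ (∃ a ∈ A', a ∈ P151.KN.cl inc ω ∅ {x'}) (dec ω)
        (F' (P151.KN.cl inc ω ∅ {x'})) 0) =
      Ex p Λ (fun T => ind (∃ a ∈ (A : Set V), Cn T x a) * hit x B T) := by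
    intro dec
    refine Eq.trans ?_ (hEx (fun T => ind (∃ a ∈ (A : Set V), Cn T x a) * hit x B T))
    congr 1
    funext ω
    by_cases h : ∃ a ∈ A', a ∈ P151.KN.cl inc ω ∅ {x'}
    · rw [if_pos h, hFc, ind_true ((hmeet ω).1 h), one_mul]
    · rw [if_neg h, ind_false fun h' => h ((hmeet ω).2 h'), zero_mul]
  rw [e2, e3] at hkn
  refine hkn.trans (P151.Ex_mono h0 h1 fun T _ => ?_)
  have h2 := ind_le_one (∃ a ∈ (A : Set V), Cn T x a)
  have h3 : 0 ≤ hit x B T := ind_nonneg _
  nlinarith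

end Vale.Agent.P165.LF
end

section
/-! KN: composition of fattenings, and the domination form. -/

open Finset

set_option linter.unusedSectionVars false

namespace Vale.Agent.P165.BS

open Vale.Agent.P151 (Ex Cn cl csz edgesIn EV con tau)
open Vale.Agent.P165.LF

variable {V : Type} [DecidableEq V] {G : SimpleGraph V}

/-- Kozma-Nitzan in infinite volume. -/
theorem kn_inf {q m : ℝ} (h0 : 0 ≤ q) (h1 : q ≤ 1) (x : V) (A S : Finset V)
    (hm : ∀ a ∈ A, m ≤ HP G q a S) : m * HP G q x A ≤ HP G q x S := by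
  by_contra hcon
  push Not at hcon
  have hA0 := hP_nonneg (G := G) h0 h1 x A
  have hS0 := hP_nonneg (G := G) h0 h1 x S
  have hApos : 0 < HP G q x A := by
    rcases hA0.lt_or_eq with h | h
    · exact h
    · rw [← h, mul_zero] at hcon
      exact absurd hS0 (not_le.2 hcon)
  have h2 : HP G q x S / HP G q x A < m := by rwa [div_lt_iff₀ hApos]
  obtain ⟨m', hm1, hm2⟩ := exists_between h2
  have hm'0 : 0 ≤ m' := (div_nonneg hS0 hA0).trans hm1.le
  have hex : ∀ a ∈ A, ∃ F : Finset V, m' < Ex q (edgesIn G F) (hit a (S : Set V)) := fun a ha =>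
    Vale.Agent.P151.exists_lt_Ex (hm2.trans_le (hm a ha))
  choose! Fx hFx using hex
  set F0 := A.biUnion Fx with hF0
  have h3 : m' * HP G q x A ≤ HP G q x S := by
    rcases hm'0.lt_or_eq with hpos | h
    · rw [mul_comm, ← le_div_iff₀ hpos]
      refine Vale.Agent.P151.EV_le fun F => ?_
      refine (Vale.Agent.P151.Ex_edgesIn_mono h0 h1 (hit_mono x _)
        (subset_union_left (s₁ := F) (s₂ := F0))).trans ?_
      rw [le_div_iff₀ hpos, mul_comm]
      refine (kn_fin h0 h1 _ x A (S : Set V) fun a ha => ?_).trans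
        (Vale.Agent.P151.le_EV h0 h1 (hit_le_one x _) (F ∪ F0))
      exact (hFx a ha).le.trans (Vale.Agent.P151.Ex_edgesIn_mono h0 h1 (hit_mono a _)
        ((subset_biUnion_of_mem Fx ha).trans subset_union_right))
    · rw [← h, zero_mul]; exact hS0
  rw [div_lt_iff₀ hApos] at hm1
  linarith

/-- Composition of fattenings. -/
theorem fat_comp {q : ℝ} (h0 : 0 ≤ q) (h1 : q ≤ 1) (hs : Sub G q) (m n : ℕ) (S : Finset V) :
    fat G q n (fat G q m S) ⊆ fat G q (m + n) S := by
  intro z hz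
  rw [mem_fat h0 h1 hs] at hz
  rw [mem_fat h0 h1 hs]
  have h2 := kn_inf h0 h1 z (fat G q m S) S fun a ha => (mem_fat h0 h1 hs).1 ha
  refine le_trans ?_ h2
  push_cast
  rw [neg_add, Real.exp_add]
  exact mul_le_mul_of_nonneg_left hz (Real.exp_pos _).le

end Vale.Agent.P165.BS
end

section
/-! Growth of the fattening on nonamenable graphs. -/

open Finset

set_option linter.unusedSectionVars false

namespace Vale.Agent.P165.BS

open Vale.Agent.P151 (Ex Cn cl csz edgesIn EV con tau)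
open Vale.Agent.P165.LF

variable {V : Type} [DecidableEq V] {G : SimpleGraph V}

/-- A neighbour of a point of `S` is connected to `S` with probability at least `q`. -/
theorem hP_nbr {q : ℝ} (h0 : 0 ≤ q) (h1 : q ≤ 1) {x y : V} (h : G.Adj x y) {S : Finset V}
    (hx : x ∈ S) : q ≤ HP G q y S := by
  have hsub : ({s(x, y)} : Finset (Sym2 V)) ⊆ edgesIn G {x, y} := by
    rw [Finset.singleton_subset_iff, Vale.Agent.P151.mk_mem_edgesIn]
    exact ⟨h, by simp, by simp⟩
  have e1 : Ex q ({s(x, y)} : Finset (Sym2 V)) (hit y (S : Set V)) ≤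
      Ex q (edgesIn G {x, y}) (hit y (S : Set V)) :=
    Vale.Agent.P151.Ex_mono_set h0 h1 hsub (hit_mono y _)
  have e2 : Ex q (edgesIn G {x, y}) (hit y (S : Set V)) ≤ HP G q y S :=
    Vale.Agent.P151.le_EV h0 h1 (fun T => hit_le_one y _ T) _
  have e3 : q ≤ Ex q ({s(x, y)} : Finset (Sym2 V)) (hit y (S : Set V)) := by
    have h2 := Vale.Agent.P151.Ex_insert q (Finset.notMem_empty s(x, y)) (hit y (S : Set V))
    rw [insert_empty_eq] at h2
    rw [h2, Vale.Agent.P151.Ex_empty, Vale.Agent.P151.Ex_empty]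
    have h3 : hit y (S : Set V) (insert s(x, y) ∅) = 1 := by
      refine ind_true ⟨x, hx, ?_⟩
      exact (Vale.Agent.P151.Cn_of_mem (Finset.mem_insert_self _ _)).symm
    have h4 := hit_nonneg y (S : Set V) ∅
    rw [h3]
    nlinarith
  exact e3.trans (e1.trans e2)

private theorem grow_boundary_finite (G : SimpleGraph V) [G.LocallyFinite] (A : Finset V) :
    (vertexBoundary G A).Finite := by
  refine (Finset.finite_toSet (A.biUnion fun x => G.neighborFinset x)).subset ?_
  rintro y ⟨-, x, hx, hxy⟩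
  rw [Finset.mem_coe, Finset.mem_biUnion]
  exact ⟨x, hx, (G.mem_neighborFinset x y).2 hxy⟩

private theorem grow_cheeger (G : SimpleGraph V) (A : Finset V) :
    vertexCheeger G * A.card ≤ (vertexBoundary G A).ncard := by
  rcases A.eq_empty_or_nonempty with h | h
  · subst h; simp
  · have hpos : (0 : ℝ) < A.card := by exact_mod_cast Finset.card_pos.2 h
    rw [← le_div_iff₀ hpos]
    have hbdd : BddBelow (Set.range fun A : {A : Finset V // A.Nonempty} =>
        ((vertexBoundary G A.1).ncard : ℝ) / (A.1.card : ℝ)) :=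
      ⟨0, by rintro _ ⟨B, rfl⟩; positivity⟩
    exact ciInf_le hbdd ⟨A, h⟩

/-- Growth. -/
theorem fat_grow [G.LocallyFinite] (hna : 0 < vertexCheeger G) {q : ℝ} (h0 : 0 < q) (h1 : q ≤ 1)
    (hs : Sub G q) : ∃ (n : ℕ) (c : ℝ), 0 < c ∧ ∀ S : Finset V,
      (1 + c) * S.card ≤ ((fat G q n S).card : ℝ) := by
  obtain ⟨n, hn⟩ := exists_nat_ge (-Real.log q)
  have hq : Real.exp (-(n : ℝ)) ≤ q := by
    rw [← Real.le_log_iff_exp_le h0]
    linarith
  refine ⟨n, vertexCheeger G, hna, fun S => ?_⟩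
  have hfin := grow_boundary_finite G S
  have hsub : S ∪ hfin.toFinset ⊆ fat G q n S := by
    intro z hz
    rcases Finset.mem_union.1 hz with hz | hz
    · exact subset_fat h0.le h1 hs n S hz
    · rw [Set.Finite.mem_toFinset] at hz
      obtain ⟨-, x, hx, hxz⟩ := hz
      rw [mem_fat h0.le h1 hs]
      exact hq.trans (hP_nbr h0.le h1 hxz hx)
  have hdisj : Disjoint S hfin.toFinset := by
    rw [Finset.disjoint_left]
    intro z hz hz2
    rw [Set.Finite.mem_toFinset] at hz2
    exact hz2.1 hz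
  have hcard : (S.card : ℝ) + (vertexBoundary G S).ncard ≤ ((fat G q n S).card : ℝ) := by
    have h2 := Finset.card_le_card hsub
    rw [Finset.card_union_of_disjoint hdisj, ← Set.ncard_eq_toFinset_card _ hfin] at h2
    exact_mod_cast h2
  have h3 := grow_cheeger G S
  linarith

end Vale.Agent.P165.BS
end

section
open Finset

set_option linter.unusedSectionVars false

namespace Vale.Agent.P165.LF

open Vale.Agent.P151 (Ex Cn cl csz edgesIn EV con tau)

variable {V : Type} [DecidableEq V]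

lemma mem_offE {Λ : Finset (Sym2 V)} {Q : Set V} {e : Sym2 V} :
    e ∈ offE Λ Q ↔ e ∈ Λ ∧ ∀ v ∈ e, v ∉ Q := by
  classical
  unfold offE
  simp only [Finset.mem_filter]

lemma offE_subset (Λ : Finset (Sym2 V)) (Q : Set V) : offE Λ Q ⊆ Λ := by
  intro e he
  exact (mem_offE.1 he).1

lemma clS_mono {S T : Finset (Sym2 V)} (h : S ⊆ T) (B : Set V) : clS S B ⊆ clS T B := by
  rintro y ⟨b, hb, hc⟩
  exact ⟨b, hb, hc.mono h⟩

/-- The event `clS S B = Q` does not depend on the edges off `Q`. -/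
lemma clS_union_eq {Λ S1 S2 : Finset (Sym2 V)} {B Q : Set V} (h2 : S2 ⊆ offE Λ Q) :
    clS (S1 ∪ S2) B = Q ↔ clS S1 B = Q := by
  constructor
  · intro h
    apply Set.Subset.antisymm
    · rw [← h]; exact clS_mono Finset.subset_union_left B
    · intro y hy
      rw [← h] at hy
      obtain ⟨b, hb, hc⟩ := hy
      have hbQ : b ∈ Q := by rw [← h]; exact ⟨b, hb, Cn.refl _ b⟩
      have key : y ∈ {y | Cn S1 b y ∧ y ∈ Q} := by
        refine Vale.Agent.P151.Cn_closed (S := S1 ∪ S2) ?_ ⟨Cn.refl _ b, hbQ⟩ hc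
        rintro u ⟨hu, huQ⟩ v huv
        rw [Finset.mem_union] at huv
        rcases huv with huv | huv
        · have h3 : Cn S1 b v := hu.trans (Vale.Agent.P151.Cn_of_mem huv)
          refine ⟨h3, ?_⟩
          rw [← h]
          exact ⟨b, hb, h3.mono Finset.subset_union_left⟩
        · exact absurd huQ ((mem_offE.1 (h2 huv)).2 u (by simp))
      exact ⟨b, hb, key.1⟩
  · intro h
    apply Set.Subset.antisymm
    · rintro y ⟨b, hb, hc⟩
      rw [← h]
      have key : y ∈ {y | Cn S1 b y} := by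
        refine Vale.Agent.P151.Cn_closed (S := S1 ∪ S2) ?_ (Cn.refl _ b) hc
        intro u hu v huv
        have huQ : u ∈ Q := by rw [← h]; exact ⟨b, hb, hu⟩
        rw [Finset.mem_union] at huv
        rcases huv with huv | huv
        · exact Cn.trans hu (Vale.Agent.P151.Cn_of_mem huv)
        · exact absurd huQ ((mem_offE.1 (h2 huv)).2 u (by simp))
      exact ⟨b, hb, key⟩
    · rw [← h]; exact clS_mono Finset.subset_union_left B

lemma Ex_split (p : ℝ) (Λ : Finset (Sym2 V)) (B Q : Set V) (Ψ : Finset (Sym2 V) → ℝ) :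
    Ex p Λ (fun S => ind (clS S B = Q) * Ψ (S ∩ offE Λ Q)) =
      Ex p (Λ \ offE Λ Q) (fun S => ind (clS S B = Q)) * Ex p (offE Λ Q) Ψ := by
  have hΛ : Λ = (Λ \ offE Λ Q) ∪ offE Λ Q := by
    rw [Finset.sdiff_union_of_subset (offE_subset Λ Q)]
  have hd : Disjoint (Λ \ offE Λ Q) (offE Λ Q) := Finset.sdiff_disjoint
  have h1 : Ex p Λ (fun S => ind (clS S B = Q) * Ψ (S ∩ offE Λ Q)) =
      Ex p ((Λ \ offE Λ Q) ∪ offE Λ Q) (fun S => ind (clS S B = Q) * Ψ (S ∩ offE Λ Q)) := by
    rw [← hΛ]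
  rw [h1, Vale.Agent.P151.Ex_union p hd]
  rw [← Vale.Agent.P151.Ex_mul_const]
  apply Vale.Agent.P151.Ex_congr
  intro S1 hS1
  rw [← Vale.Agent.P151.Ex_const_mul]
  apply Vale.Agent.P151.Ex_congr
  intro S2 hS2
  have h3 : (S1 ∪ S2) ∩ offE Λ Q = S2 := by
    rw [Finset.union_inter_distrib_right, Finset.inter_eq_left.2 hS2]
    have : S1 ∩ offE Λ Q = ∅ := by
      rw [← Finset.disjoint_iff_inter_eq_empty]
      exact Finset.disjoint_of_subset_left hS1 hd
    rw [this, Finset.empty_union]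
  rw [h3, ind_congr (clS_union_eq hS2)]

lemma Ex_split_ind (p : ℝ) (Λ : Finset (Sym2 V)) (B Q : Set V) :
    Ex p Λ (fun S => ind (clS S B = Q)) =
      Ex p (Λ \ offE Λ Q) (fun S => ind (clS S B = Q)) := by
  have := Ex_split p Λ B Q (fun _ => 1)
  simpa using this

lemma Ex_offE (p : ℝ) (Λ : Finset (Sym2 V)) (Q : Set V) (Ψ : Finset (Sym2 V) → ℝ) :
    Ex p Λ (fun T => Ψ (T ∩ offE Λ Q)) = Ex p (offE Λ Q) Ψ := by
  rw [Vale.Agent.P151.Ex_restrict p (offE_subset Λ Q)]
  · apply Vale.Agent.P151.Ex_congr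
    intro S hS
    rw [Finset.inter_eq_left.2 hS]
  · intro S _
    rw [Finset.inter_assoc, Finset.inter_self]

open Classical in
lemma sum_values (Λ : Finset (Sym2 V)) (B : Set V) (g : Set V → ℝ) {S : Finset (Sym2 V)}
    (hS : S ⊆ Λ) :
    g (clS S B) = ∑ Q ∈ Λ.powerset.image (fun S => clS S B), ind (clS S B = Q) * g Q := by
  rw [Finset.sum_eq_single (clS S B)]
  · rw [ind_true rfl, one_mul]
  · intro Q _ hQ
    rw [ind_false (fun h => hQ h.symm), zero_mul]
  · intro h
    exact absurd (Finset.mem_image_of_mem _ (Finset.mem_powerset.2 hS)) h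

/-- Exploration: given the cluster of `B`, the edges with no end point in it are fresh. -/
theorem explore (p : ℝ) (Λ : Finset (Sym2 V)) (B : Set V)
    (Φ : Set V → Finset (Sym2 V) → ℝ) :
    Ex p Λ (fun S => Φ (clS S B) (S ∩ offE Λ (clS S B))) =
      Ex p Λ (fun S => Ex p Λ (fun T => Φ (clS S B) (T ∩ offE Λ (clS S B)))) := by
  classical
  have hL : Ex p Λ (fun S => Φ (clS S B) (S ∩ offE Λ (clS S B))) =
      Ex p Λ (fun S => ∑ Q ∈ Λ.powerset.image (fun S => clS S B),
        ind (clS S B = Q) * Φ Q (S ∩ offE Λ Q)) := by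
    apply Vale.Agent.P151.Ex_congr
    intro S hS
    exact sum_values Λ B (fun Q => Φ Q (S ∩ offE Λ Q)) hS
  have hR : Ex p Λ (fun S => Ex p Λ (fun T => Φ (clS S B) (T ∩ offE Λ (clS S B)))) =
      Ex p Λ (fun S => ∑ Q ∈ Λ.powerset.image (fun S => clS S B),
        ind (clS S B = Q) * Ex p Λ (fun T => Φ Q (T ∩ offE Λ Q))) := by
    apply Vale.Agent.P151.Ex_congr
    intro S hS
    exact sum_values Λ B (fun Q => Ex p Λ (fun T => Φ Q (T ∩ offE Λ Q))) hS
  rw [hL, hR, Vale.Agent.P151.Ex_sum, Vale.Agent.P151.Ex_sum]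
  apply Finset.sum_congr rfl
  intro Q _
  rw [Ex_split p Λ B Q (Φ Q), Vale.Agent.P151.Ex_mul_const, Ex_split_ind p Λ B Q, Ex_offE]

theorem not_mem_clS_of_Cn {S : Finset (Sym2 V)} {B : Set V} {x y : V} (hx : x ∉ clS S B)
    (h : Cn S x y) : y ∉ clS S B := by
  rintro ⟨b, hb, hc⟩
  exact hx ⟨b, hb, hc.trans h.symm⟩

/-- `Cn` between two points outside the cluster of `B` only uses edges off that cluster. -/
theorem Cn_off {Λ S : Finset (Sym2 V)} (hS : S ⊆ Λ) {B : Set V} {x y : V} (hx : x ∉ clS S B)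
    (h : Cn S x y) : Cn (S ∩ offE Λ (clS S B)) x y := by
  have key : y ∈ {y | Cn (S ∩ offE Λ (clS S B)) x y ∧ Cn S x y} := by
    refine Vale.Agent.P151.Cn_closed (S := S) ?_ ⟨Cn.refl _ x, Cn.refl _ x⟩ h
    rintro u ⟨hu1, hu2⟩ v huv
    have h3 : Cn S x v := hu2.trans (Vale.Agent.P151.Cn_of_mem huv)
    refine ⟨hu1.trans (Vale.Agent.P151.Cn_of_mem ?_), h3⟩
    rw [Finset.mem_inter, mem_offE]
    refine ⟨huv, hS huv, ?_⟩
    intro w hw
    rw [Sym2.mem_iff] at hw
    rcases hw with rfl | rfl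
    · exact not_mem_clS_of_Cn hx hu2
    · exact not_mem_clS_of_Cn hx h3
  exact key.1

/-- Exploration with distinct clusters: for `F` increasing and nonnegative in the configuration,
`E[a(C_y); z ∉ C_y, F off C_y] ≤ E[a(C_y)] E[F]`. -/
theorem explore_le {p : ℝ} (h0 : 0 ≤ p) (h1 : p ≤ 1) (Λ : Finset (Sym2 V)) (B : Set V)
    (a : Set V → ℝ) (ha : ∀ Q, 0 ≤ a Q) (H : Finset (Sym2 V) → ℝ) (hH : Monotone H)
    (hH0 : ∀ S, 0 ≤ H S) :
    Ex p Λ (fun S => a (clS S B) * H (S ∩ offE Λ (clS S B))) ≤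
      Ex p Λ (fun S => a (clS S B)) * Ex p Λ H := by
  rw [explore p Λ B (fun Q T => a Q * H T), ← Vale.Agent.P151.Ex_mul_const]
  apply Vale.Agent.P151.Ex_mono h0 h1
  intro S _
  rw [Vale.Agent.P151.Ex_const_mul]
  apply mul_le_mul_of_nonneg_left _ (ha _)
  apply Vale.Agent.P151.Ex_mono h0 h1
  intro T _
  exact hH Finset.inter_subset_left

end Vale.Agent.P165.LF
end

section
/-!
# P165: exponential moments, auxiliary lemmas
-/

open Finset

set_option linter.unusedSectionVars false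

namespace Vale.Agent.P165.LF

open Vale.Agent.P151 (Ex Cn cl csz edgesIn EV con tau)

variable {V : Type} [DecidableEq V]

/-- Exploration of a cluster inside a part `A` of the edges. -/
theorem explore_sub (p : ℝ) (Λ A : Finset (Sym2 V)) (B : Set V)
    (Φ : Set V → Finset (Sym2 V) → ℝ) :
    Ex p Λ (fun S => Φ (clS (S ∩ A) B) (S ∩ offE Λ (clS (S ∩ A) B))) =
      Ex p Λ (fun S => Ex p Λ (fun T => Φ (clS (S ∩ A) B) (T ∩ offE Λ (clS (S ∩ A) B)))) := by
  classical
  have hval : ∀ (g : Set V → ℝ) {S : Finset (Sym2 V)}, S ⊆ Λ →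
      g (clS (S ∩ A) B) = ∑ Q ∈ Λ.powerset.image (fun S => clS (S ∩ A) B),
        ind (clS (S ∩ A) B = Q) * g Q := by
    intro g S hS
    rw [Finset.sum_eq_single (clS (S ∩ A) B)]
    · rw [ind_true rfl, one_mul]
    · intro Q _ hQ
      rw [ind_false (fun h => hQ h.symm), zero_mul]
    · intro h
      exact absurd (Finset.mem_image_of_mem (fun S => clS (S ∩ A) B)
        (Finset.mem_powerset.2 hS)) h
  have hsplit : ∀ (Q : Set V) (Ψ : Finset (Sym2 V) → ℝ),
      Ex p Λ (fun S => ind (clS (S ∩ A) B = Q) * Ψ (S ∩ offE Λ Q)) =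
        Ex p (Λ \ offE Λ Q) (fun S => ind (clS (S ∩ A) B = Q)) * Ex p (offE Λ Q) Ψ := by
    intro Q Ψ
    have hΛ : Λ = (Λ \ offE Λ Q) ∪ offE Λ Q := by
      rw [Finset.sdiff_union_of_subset (offE_subset Λ Q)]
    have hd : Disjoint (Λ \ offE Λ Q) (offE Λ Q) := Finset.sdiff_disjoint
    have h1 : Ex p Λ (fun S => ind (clS (S ∩ A) B = Q) * Ψ (S ∩ offE Λ Q)) =
        Ex p ((Λ \ offE Λ Q) ∪ offE Λ Q)
          (fun S => ind (clS (S ∩ A) B = Q) * Ψ (S ∩ offE Λ Q)) := by
      rw [← hΛ]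
    rw [h1, Vale.Agent.P151.Ex_union p hd]
    rw [← Vale.Agent.P151.Ex_mul_const]
    apply Vale.Agent.P151.Ex_congr
    intro S1 hS1
    rw [← Vale.Agent.P151.Ex_const_mul]
    apply Vale.Agent.P151.Ex_congr
    intro S2 hS2
    have h3 : (S1 ∪ S2) ∩ offE Λ Q = S2 := by
      rw [Finset.union_inter_distrib_right, Finset.inter_eq_left.2 hS2]
      have : S1 ∩ offE Λ Q = ∅ := by
        rw [← Finset.disjoint_iff_inter_eq_empty]
        exact Finset.disjoint_of_subset_left hS1 hd
      rw [this, Finset.empty_union]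
    have h4 : (S1 ∪ S2) ∩ A = (S1 ∩ A) ∪ (S2 ∩ A) := Finset.union_inter_distrib_right _ _ _
    rw [h3, h4, ind_congr (clS_union_eq (Λ := Λ) (Finset.inter_subset_left.trans hS2))]
  have hL : Ex p Λ (fun S => Φ (clS (S ∩ A) B) (S ∩ offE Λ (clS (S ∩ A) B))) =
      Ex p Λ (fun S => ∑ Q ∈ Λ.powerset.image (fun S => clS (S ∩ A) B),
        ind (clS (S ∩ A) B = Q) * Φ Q (S ∩ offE Λ Q)) := by
    apply Vale.Agent.P151.Ex_congr
    intro S hS
    exact hval (fun Q => Φ Q (S ∩ offE Λ Q)) hS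
  have hR : Ex p Λ (fun S => Ex p Λ
        (fun T => Φ (clS (S ∩ A) B) (T ∩ offE Λ (clS (S ∩ A) B)))) =
      Ex p Λ (fun S => ∑ Q ∈ Λ.powerset.image (fun S => clS (S ∩ A) B),
        ind (clS (S ∩ A) B = Q) * Ex p Λ (fun T => Φ Q (T ∩ offE Λ Q))) := by
    apply Vale.Agent.P151.Ex_congr
    intro S hS
    exact hval (fun Q => Ex p Λ (fun T => Φ Q (T ∩ offE Λ Q))) hS
  rw [hL, hR, Vale.Agent.P151.Ex_sum, Vale.Agent.P151.Ex_sum]
  apply Finset.sum_congr rfl
  intro Q _
  have h5 : Ex p Λ (fun S => ind (clS (S ∩ A) B = Q)) =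
      Ex p (Λ \ offE Λ Q) (fun S => ind (clS (S ∩ A) B = Q)) := by
    have := hsplit Q (fun _ => 1)
    simpa using this
  rw [hsplit Q (Φ Q), Vale.Agent.P151.Ex_mul_const, h5, Ex_offE]

/-- The union of the clusters of finitely many points. -/
noncomputable def ucl (S : Finset (Sym2 V)) (B : Finset V) : Finset V := B.biUnion (cl S)

lemma ucl_insert_subset {Λ S : Finset (Sym2 V)} (hS : S ⊆ Λ) (b : V) (B : Finset V) :
    ucl S (insert b B) ⊆ cl S b ∪ ucl (S ∩ offE Λ (clS S {b})) B := by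
  intro y hy
  unfold ucl at hy
  rw [Finset.mem_biUnion] at hy
  obtain ⟨c, hc, hy⟩ := hy
  rw [Finset.mem_union]
  by_cases hcb : Cn S b c
  · left
    rw [Vale.Agent.P151.mem_cl] at hy ⊢
    exact hcb.trans hy
  · right
    rw [Finset.mem_insert] at hc
    rcases hc with rfl | hc
    · exact absurd (Cn.refl S c) hcb
    · unfold ucl
      rw [Finset.mem_biUnion]
      refine ⟨c, hc, ?_⟩
      rw [Vale.Agent.P151.mem_cl] at hy ⊢
      refine Cn_off hS ?_ hy
      rintro ⟨b', hb', hc'⟩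
      rw [Set.mem_singleton_iff] at hb'
      rw [hb'] at hc'
      exact hcb hc'

/-- Several clusters. -/
theorem exp_ucl_le {q lam M : ℝ} (h0 : 0 ≤ q) (h1 : q ≤ 1) (hlam : 0 ≤ lam) (hM : 1 ≤ M)
    (Λ0 : Finset (Sym2 V))
    (hs : ∀ Λ ⊆ Λ0, ∀ x : V, Ex q Λ (fun S => Real.exp (lam * csz S x)) ≤ M) (B : Finset V) :
    ∀ Λ ⊆ Λ0, Ex q Λ (fun S => Real.exp (lam * (ucl S B).card)) ≤ M ^ B.card := by
  classical
  induction B using Finset.induction_on with
  | empty =>
    intro Λ _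
    have : (fun S : Finset (Sym2 V) => Real.exp (lam * ((ucl S (∅ : Finset V)).card : ℝ))) =
        fun _ => 1 := by
      funext S
      simp [ucl]
    rw [this]
    simp
  | insert b B hb ih =>
    intro Λ hΛ
    have hb1 : Ex q Λ (fun S => Real.exp (lam * (ucl S (insert b B)).card)) ≤
        Ex q Λ (fun S => Real.exp (lam * csz S b) *
          Real.exp (lam * (ucl (S ∩ offE Λ (clS S {b})) B).card)) := by
      refine Vale.Agent.P151.Ex_mono h0 h1 fun S hS => ?_
      rw [← Real.exp_add, Real.exp_le_exp, ← mul_add]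
      refine mul_le_mul_of_nonneg_left ?_ hlam
      have h2 := (Finset.card_le_card (ucl_insert_subset hS b B)).trans
        (Finset.card_union_le _ _)
      unfold csz
      exact_mod_cast h2
    have hcl : ∀ S : Finset (Sym2 V), (csz S b : ℝ) = ((clS S {b}).ncard : ℝ) := by
      intro S
      have : clS S {b} = (cl S b : Set V) := by
        ext y
        rw [Finset.mem_coe, Vale.Agent.P151.mem_cl]
        constructor
        · rintro ⟨c, hc, h⟩
          rw [Set.mem_singleton_iff] at hc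
          rw [← hc]
          exact h
        · intro h
          exact ⟨b, rfl, h⟩
      rw [this, Set.ncard_coe_finset]
      rfl
    have hb2 : Ex q Λ (fun S => Real.exp (lam * csz S b) *
          Real.exp (lam * (ucl (S ∩ offE Λ (clS S {b})) B).card)) =
        Ex q Λ (fun S => Ex q Λ (fun T => Real.exp (lam * ((clS S {b}).ncard : ℝ)) *
          Real.exp (lam * (ucl (T ∩ offE Λ (clS S {b})) B).card))) := by
      rw [← explore q Λ {b} (fun Q U => Real.exp (lam * (Q.ncard : ℝ)) *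
        Real.exp (lam * (ucl U B).card))]
      refine Vale.Agent.P151.Ex_congr q fun S _ => ?_
      rw [hcl S]
    rw [hb2] at hb1
    refine hb1.trans ?_
    have hM0 : 0 ≤ M := zero_le_one.trans hM
    calc Ex q Λ (fun S => Ex q Λ (fun T => Real.exp (lam * ((clS S {b}).ncard : ℝ)) *
          Real.exp (lam * (ucl (T ∩ offE Λ (clS S {b})) B).card)))
        ≤ Ex q Λ (fun S => Real.exp (lam * csz S b) * M ^ B.card) := by
          refine Vale.Agent.P151.Ex_mono h0 h1 fun S _ => ?_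
          rw [Vale.Agent.P151.Ex_const_mul, ← hcl S]
          refine mul_le_mul_of_nonneg_left ?_ (Real.exp_nonneg _)
          rw [Ex_offE q Λ (clS S {b}) (fun U => Real.exp (lam * (ucl U B).card))]
          exact ih _ ((offE_subset _ _).trans hΛ)
      _ = Ex q Λ (fun S => Real.exp (lam * csz S b)) * M ^ B.card :=
          Vale.Agent.P151.Ex_mul_const _ _ _ _
      _ ≤ M * M ^ B.card := mul_le_mul_of_nonneg_right (hs Λ hΛ b) (pow_nonneg hM0 _)
      _ = M ^ (insert b B).card := by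
          rw [Finset.card_insert_of_notMem hb, pow_succ, mul_comm]

end Vale.Agent.P165.LF
end

section
open Finset

set_option linter.unusedSectionVars false

namespace Vale.Agent.P165.LF

open Vale.Agent.P151 (Ex Cn cl csz edgesIn EV con tau)

variable {V : Type} [DecidableEq V]

open Classical in
/-- The outer boundary in `A` of the part of the cluster `Q`. -/
noncomputable def obd (G : SimpleGraph V) [G.LocallyFinite] (A : Finset V) (Q : Set V) :
    Finset V := (A.filter (fun a => a ∈ Q)).biUnion (fun a => G.neighborFinset a \ A)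

lemma cl_subset_obd (G : SimpleGraph V) [G.LocallyFinite] {Λ S : Finset (Sym2 V)}
    (hΛ : ∀ e ∈ Λ, e ∈ G.edgeSet) (hS : S ⊆ Λ) (A : Finset V) {x : V} (hx : x ∈ A) :
    cl S x ⊆ A ∪ ucl (S ∩ offE Λ (clS (S ∩ edgesIn G A) {x}))
      (obd G A (clS (S ∩ edgesIn G A) {x})) := by
  classical
  set C : Set V := clS (S ∩ edgesIn G A) {x} with hC
  have hmC : ∀ y, y ∈ C ↔ Cn (S ∩ edgesIn G A) x y := by
    intro y
    constructor
    · rintro ⟨c, hc, h⟩
      rw [Set.mem_singleton_iff] at hc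
      rw [← hc]
      exact h
    · intro h
      exact ⟨x, rfl, h⟩
  have hCA : ∀ y ∈ C, y ∈ A := by
    intro y hy
    have : y ∈ (A : Set V) := by
      refine Vale.Agent.P151.Cn_closed (S := S ∩ edgesIn G A) ?_ (Finset.mem_coe.2 hx)
        ((hmC y).1 hy)
      intro u _ v huv
      exact (Vale.Agent.P151.mk_mem_edgesIn.1 (Finset.mem_of_mem_inter_right huv)).2.2
    exact Finset.mem_coe.1 this
  intro y hy
  rw [Vale.Agent.P151.mem_cl] at hy
  have key : y ∈ {y | y ∈ C ∨ y ∈ ucl (S ∩ offE Λ C) (obd G A C)} := by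
    refine Vale.Agent.P151.Cn_closed (S := S) ?_ (Or.inl ((hmC x).2 (Cn.refl _ x))) hy
    intro u hu v huv
    by_cases huC : u ∈ C
    · by_cases hvA : v ∈ A
      · left
        rw [hmC]
        refine ((hmC u).1 huC).trans (Vale.Agent.P151.Cn_of_mem ?_)
        rw [Finset.mem_inter]
        refine ⟨huv, Vale.Agent.P151.mk_mem_edgesIn.2 ⟨?_, hCA u huC, hvA⟩⟩
        exact hΛ _ (hS huv)
      · right
        unfold ucl
        rw [Finset.mem_biUnion]
        refine ⟨v, ?_, Vale.Agent.P151.self_mem_cl _ v⟩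
        unfold obd
        rw [Finset.mem_biUnion]
        refine ⟨u, Finset.mem_filter.2 ⟨hCA u huC, huC⟩, ?_⟩
        rw [Finset.mem_sdiff, SimpleGraph.mem_neighborFinset]
        exact ⟨hΛ _ (hS huv), hvA⟩
    · rcases hu with hu | hu
      · exact absurd hu huC
      · by_cases hvC : v ∈ C
        · exact Or.inl hvC
        · right
          unfold ucl at hu ⊢
          rw [Finset.mem_biUnion] at hu ⊢
          obtain ⟨b, hb, hu⟩ := hu
          refine ⟨b, hb, ?_⟩
          rw [Vale.Agent.P151.mem_cl] at hu ⊢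
          refine hu.trans (Vale.Agent.P151.Cn_of_mem ?_)
          rw [Finset.mem_inter, mem_offE]
          refine ⟨huv, hS huv, fun w hw => ?_⟩
          rcases Sym2.mem_iff.1 hw with rfl | rfl
          · exact huC
          · exact hvC
  rw [Finset.mem_union]
  rcases key with h | h
  · exact Or.inl (hCA y h)
  · exact Or.inr h

lemma card_obd_le (G : SimpleGraph V) [G.LocallyFinite] (A : Finset V) (Q : Set V) :
    ((obd G A Q).card : ℝ) ≤ ∑ a ∈ A, ind (a ∈ Q) * ((G.neighborFinset a \ A).card : ℝ) := by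
  classical
  unfold obd
  have h1 : (((A.filter (fun a => a ∈ Q)).biUnion (fun a => G.neighborFinset a \ A)).card : ℝ) ≤
      ∑ a ∈ A.filter (fun a => a ∈ Q), ((G.neighborFinset a \ A).card : ℝ) := by
    exact_mod_cast Finset.card_biUnion_le
  refine h1.trans_eq ?_
  rw [Finset.sum_filter]
  refine Finset.sum_congr rfl fun a _ => ?_
  by_cases h : a ∈ Q
  · rw [if_pos h, ind_true h, one_mul]
  · rw [if_neg h, ind_false h, zero_mul]

lemma one_add_pow_le {δ : ℝ} (hδ : 0 ≤ δ) {K : ℕ} (hK : (1 + δ) ^ K ≤ 3 / 2) :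
    ∀ k : ℕ, k ≤ K → (1 + δ) ^ k ≤ 1 + 3 / 2 * δ * k := by
  intro k
  induction k with
  | zero => intro _; simp
  | succ k ih =>
    intro hk
    have h1 := ih (by omega)
    have h2 : (1 + δ) ^ k ≤ 3 / 2 :=
      (pow_le_pow_right₀ (by linarith) (by omega : k ≤ K)).trans hK
    rw [pow_succ]
    push_cast
    nlinarith

/-- The inductive bound. -/
theorem exp_moment_aux (G : SimpleGraph V) [G.LocallyFinite] {q : ℝ} (h0 : 0 ≤ q) (h1 : q ≤ 1)
    {K : ℕ} (hS : ∀ x : V, ∃ S : Finset V, x ∈ S ∧ S.card ≤ K ∧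
      ∑ a ∈ S, ((G.neighborFinset a \ S).card : ℝ) ≤ K ∧
      ∑ a ∈ S, Ex q (edgesIn G S) (con x a) * ((G.neighborFinset a \ S).card : ℝ) ≤ 1 / 2)
    {δ lam : ℝ} (hδ : 0 < δ) (hlam : 0 ≤ lam) (hK : (1 + δ) ^ K ≤ 3 / 2)
    (hl : Real.exp (lam * K) * (1 + 3 / 4 * δ) ≤ 1 + δ) (hl1 : Real.exp lam ≤ 1 + δ) :
    ∀ (n : ℕ) (Λ : Finset (Sym2 V)), Λ.card = n → (∀ e ∈ Λ, e ∈ G.edgeSet) → ∀ x : V,
      Ex q Λ (fun S => Real.exp (lam * csz S x)) ≤ 1 + δ := by
  classical
  intro n
  induction n using Nat.strong_induction_on with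
  | _ n ih =>
    intro Λ hcard hΛ x
    by_cases hx : offE Λ {x} = Λ
    · -- no edge touches `x`
      have hsz : ∀ S ⊆ Λ, csz S x = 1 := by
        intro S hSΛ
        have : cl S x = {x} := by
          ext y
          rw [Vale.Agent.P151.mem_cl, Finset.mem_singleton]
          constructor
          · intro h
            have hy : y ∈ ({x} : Set V) := by
              refine Vale.Agent.P151.Cn_closed (S := S) ?_ (Set.mem_singleton x) h
              intro u hu v huv
              rw [Set.mem_singleton_iff] at hu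
              have h3 := hSΛ huv
              rw [← hx, mem_offE] at h3
              exact absurd (Set.mem_singleton_iff.2 hu) (h3.2 u (Sym2.mem_mk_left u v))
            exact hy
          · intro h
            rw [h]
            exact Cn.refl _ x
        unfold csz
        rw [this, Finset.card_singleton]
      rw [Vale.Agent.P151.Ex_congr q (G := fun _ => Real.exp lam) (fun S hSΛ => by
        rw [hsz S hSΛ]; simp)]
      simpa using hl1
    · have hlt : (offE Λ {x}).card < Λ.card :=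
        Finset.card_lt_card (lt_of_le_of_ne (offE_subset Λ {x}) hx)
      have hsingle : ∀ Λ' ⊆ offE Λ {x}, ∀ y : V,
          Ex q Λ' (fun S => Real.exp (lam * csz S y)) ≤ 1 + δ := by
        intro Λ' hΛ' y
        refine ih Λ'.card ?_ Λ' rfl (fun e he => hΛ e (offE_subset _ _ (hΛ' he))) y
        rw [← hcard]
        exact (Finset.card_le_card hΛ').trans_lt hlt
      obtain ⟨A, hxA, hAK, hbK, hφ⟩ := hS x
      set C : Finset (Sym2 V) → Set V := fun S => clS (S ∩ edgesIn G A) {x} with hC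
      have hxC : ∀ S, x ∈ C S := fun S => ⟨x, rfl, Cn.refl _ x⟩
      have hobdK : ∀ Q : Set V, (obd G A Q).card ≤ K := by
        intro Q
        have h3 : ((obd G A Q).card : ℝ) ≤ K := by
          refine (card_obd_le G A Q).trans (le_trans (Finset.sum_le_sum fun a _ => ?_) hbK)
          exact mul_le_of_le_one_left (Nat.cast_nonneg _) (ind_le_one _)
        exact_mod_cast h3
      -- first bound
      have e1 : Ex q Λ (fun S => Real.exp (lam * csz S x)) ≤
          Real.exp (lam * K) * Ex q Λ (fun S =>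
            Real.exp (lam * (ucl (S ∩ offE Λ (C S)) (obd G A (C S))).card)) := by
        rw [← Vale.Agent.P151.Ex_const_mul]
        refine Vale.Agent.P151.Ex_mono h0 h1 fun S hSΛ => ?_
        rw [← Real.exp_add, Real.exp_le_exp, ← mul_add]
        refine mul_le_mul_of_nonneg_left ?_ hlam
        have h4 := (Finset.card_le_card (cl_subset_obd G hΛ hSΛ A hxA)).trans
          (Finset.card_union_le _ _)
        unfold csz
        have h5 : (cl S x).card ≤ K + (ucl (S ∩ offE Λ (C S)) (obd G A (C S))).card :=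
          h4.trans (Nat.add_le_add_right hAK _)
        exact_mod_cast h5
      -- exploration
      have e2 : Ex q Λ (fun S =>
            Real.exp (lam * (ucl (S ∩ offE Λ (C S)) (obd G A (C S))).card)) ≤
          Ex q Λ (fun S => 1 + 3 / 2 * δ * (obd G A (C S)).card) := by
        rw [explore_sub q Λ (edgesIn G A) {x}
          (fun Q U => Real.exp (lam * (ucl U (obd G A Q)).card))]
        refine Vale.Agent.P151.Ex_mono h0 h1 fun S _ => ?_
        rw [Ex_offE q Λ (clS (S ∩ edgesIn G A) {x})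
          (fun U => Real.exp (lam * (ucl U (obd G A (clS (S ∩ edgesIn G A) {x}))).card))]
        have hsub : offE Λ (C S) ⊆ offE Λ {x} := by
          intro e he
          rw [mem_offE] at he ⊢
          refine ⟨he.1, fun v hv hvx => he.2 v hv ?_⟩
          rw [Set.mem_singleton_iff] at hvx
          rw [hvx]
          exact hxC S
        refine (exp_ucl_le h0 h1 hlam (by linarith) (offE Λ {x}) hsingle
          (obd G A (C S)) (offE Λ (C S)) hsub).trans ?_
        exact one_add_pow_le hδ.le hK _ (hobdK _)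
      -- the expected boundary
      have e3 : Ex q Λ (fun S => ((obd G A (C S)).card : ℝ)) ≤ 1 / 2 := by
        refine le_trans (Vale.Agent.P151.Ex_mono h0 h1 fun S _ => card_obd_le G A (C S)) ?_
        rw [Vale.Agent.P151.Ex_sum]
        refine le_trans (Finset.sum_le_sum fun a _ => ?_) hφ
        rw [Vale.Agent.P151.Ex_mul_const]
        refine mul_le_mul_of_nonneg_right ?_ (Nat.cast_nonneg _)
        have h6 : Ex q Λ (fun S => ind (a ∈ C S)) =
            Ex q Λ (fun S => con x a (S ∩ edgesIn G A)) := by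
          refine Vale.Agent.P151.Ex_congr q fun S _ => ?_
          have h7 : con x a (S ∩ edgesIn G A) = ind (Cn (S ∩ edgesIn G A) x a) := by
            unfold Vale.Agent.P151.con ind
            rfl
          rw [h7]
          refine ind_congr ⟨?_, fun h => ⟨x, rfl, h⟩⟩
          rintro ⟨c, hc, h⟩
          rw [Set.mem_singleton_iff] at hc
          rw [← hc]
          exact h
        rw [h6, Vale.Agent.P151.Ex_restrict q (A := Λ ∩ edgesIn G A) Finset.inter_subset_left
          (fun S hSΛ => by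
            congr 1
            ext e
            simp only [Finset.mem_inter]
            constructor
            · rintro ⟨h8, h9⟩
              exact ⟨⟨h8, hSΛ h8, h9⟩, h9⟩
            · rintro ⟨⟨h8, _, _⟩, h9⟩
              exact ⟨h8, h9⟩)]
        refine le_trans (le_of_eq (Vale.Agent.P151.Ex_congr q fun S hSA => ?_))
          (Vale.Agent.P151.Ex_mono_set h0 h1 Finset.inter_subset_right
            (Vale.Agent.P151.con_mono x a))
        have h10 : S ∩ edgesIn G A = S :=
          Finset.inter_eq_left.2 (hSA.trans Finset.inter_subset_right)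
        rw [h10]
      have e4 : Ex q Λ (fun S => 1 + 3 / 2 * δ * ((obd G A (C S)).card : ℝ)) =
          1 + 3 / 2 * δ * Ex q Λ (fun S => ((obd G A (C S)).card : ℝ)) := by
        rw [Vale.Agent.P151.Ex_add, Vale.Agent.P151.Ex_const, Vale.Agent.P151.Ex_const_mul]
      rw [e4] at e2
      have e5 : 1 + 3 / 2 * δ * Ex q Λ (fun S => ((obd G A (C S)).card : ℝ)) ≤
          1 + 3 / 4 * δ := by
        nlinarith
      calc Ex q Λ (fun S => Real.exp (lam * csz S x))
          ≤ Real.exp (lam * K) * Ex q Λ (fun S =>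
            Real.exp (lam * (ucl (S ∩ offE Λ (C S)) (obd G A (C S))).card)) := e1
        _ ≤ Real.exp (lam * K) * (1 + 3 / 4 * δ) :=
            mul_le_mul_of_nonneg_left (e2.trans e5) (Real.exp_nonneg _)
        _ ≤ 1 + δ := hl

open Classical in
/-- Exponential moment of the cluster size from the finite criterion. -/
theorem exp_moment (G : SimpleGraph V) [G.LocallyFinite] {q : ℝ} (h0 : 0 ≤ q) (h1 : q ≤ 1)
    {K : ℕ} (hS : ∀ x : V, ∃ S : Finset V, x ∈ S ∧ S.card ≤ K ∧
      ∑ a ∈ S, ((G.neighborFinset a \ S).card : ℝ) ≤ K ∧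
      ∑ a ∈ S, Ex q (edgesIn G S) (con x a) * ((G.neighborFinset a \ S).card : ℝ) ≤ 1 / 2) :
    ∃ lam C : ℝ, 0 < lam ∧ 0 < C ∧ ∀ (x : V) (F : Finset V),
      Ex q (edgesIn G F) (fun S => Real.exp (lam * csz S x)) ≤ C := by
  have hKp : (0 : ℝ) < K + 1 := by positivity
  set δ : ℝ := 1 / (4 * (K + 1)) with hδ
  have hδ0 : 0 < δ := by rw [hδ]; positivity
  have hK : (1 + δ) ^ K ≤ 3 / 2 := by
    have h2 : (1 + δ) ^ K ≤ Real.exp (1 / 4) := by
      have h3 : 1 + δ ≤ Real.exp δ := by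
        have := Real.add_one_le_exp δ
        linarith
      refine (pow_le_pow_left₀ (by linarith) h3 K).trans ?_
      rw [← Real.exp_nat_mul, Real.exp_le_exp, hδ, mul_one_div, div_le_div_iff₀ (by positivity)
        (by norm_num)]
      linarith
    have h4 : Real.exp (1 / 4) ≤ 3 / 2 := by
      have h5 := Real.add_one_le_exp (-(1 / 4) : ℝ)
      have h6 : Real.exp (1 / 4) * Real.exp (-(1 / 4)) = 1 := by
        rw [← Real.exp_add]
        simp
      have h7 := Real.exp_pos (1 / 4 : ℝ)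
      nlinarith
    exact h2.trans h4
  set r : ℝ := (1 + δ) / (1 + 3 / 4 * δ) with hr
  have hden : (0 : ℝ) < 1 + 3 / 4 * δ := by positivity
  have hr1 : 1 < r := by
    rw [hr, lt_div_iff₀ hden]
    linarith
  set lam : ℝ := Real.log r / (K + 1) with hlam
  have hlog : 0 < Real.log r := Real.log_pos hr1
  have hlam0 : 0 < lam := div_pos hlog hKp
  have hexp : Real.exp (lam * (K + 1)) = r := by
    rw [hlam, div_mul_cancel₀ _ hKp.ne', Real.exp_log (by linarith)]
  have hl : Real.exp (lam * K) * (1 + 3 / 4 * δ) ≤ 1 + δ := by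
    have h8 : Real.exp (lam * K) ≤ r := by
      rw [← hexp, Real.exp_le_exp]
      nlinarith
    calc Real.exp (lam * K) * (1 + 3 / 4 * δ) ≤ r * (1 + 3 / 4 * δ) :=
          mul_le_mul_of_nonneg_right h8 hden.le
      _ = 1 + δ := by
          rw [hr, div_mul_cancel₀ _ hden.ne']
  have hl1 : Real.exp lam ≤ 1 + δ := by
    have h9 : Real.exp lam ≤ r := by
      rw [← hexp, Real.exp_le_exp]
      nlinarith [show (0 : ℝ) ≤ K from Nat.cast_nonneg _]
    refine h9.trans ?_
    rw [hr]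
    exact div_le_self (by linarith) (by linarith)
  have hS' : ∀ x : V, ∃ S : Finset V, x ∈ S ∧ S.card ≤ K ∧
      ∑ a ∈ S, (((G.neighborFinset a) \ S).card : ℝ) ≤ K ∧
      ∑ a ∈ S, Ex q (edgesIn G S) (con x a) * ((G.neighborFinset a \ S).card : ℝ) ≤ 1 / 2 := by
    intro x
    obtain ⟨S, hx, hc, hb, hφ⟩ := hS x
    refine ⟨S, hx, hc, ?_, ?_⟩
    · convert hb using 3
    · convert hφ using 3
  refine ⟨lam, 1 + δ, hlam0, by linarith, fun x F => ?_⟩
  exact exp_moment_aux G h0 h1 hS' hδ0 hlam0.le hK hl hl1 _ (edgesIn G F) rfl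
    (fun e he => (Vale.Agent.P151.mem_edgesIn.1 he).1) x

/-- Consequences of the exponential moment. -/
theorem sub_of_exp_moment (G : SimpleGraph V) {q : ℝ} (h0 : 0 ≤ q) (h1 : q ≤ 1) {lam C : ℝ}
    (hl : 0 < lam) (h : ∀ (x : V) (F : Finset V),
      Ex q (edgesIn G F) (fun S => Real.exp (lam * csz S x)) ≤ C) : Sub G q := by
  refine ⟨C / lam, ?_⟩
  rintro _ ⟨⟨x, F⟩, rfl⟩
  rw [le_div_iff₀ hl]
  refine le_trans ?_ (h x F)
  unfold vol
  rw [← Vale.Agent.P151.Ex_mul_const]
  refine Vale.Agent.P151.Ex_mono h0 h1 fun S _ => ?_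
  have := Real.add_one_le_exp (lam * csz S x)
  show (csz S x : ℝ) * lam ≤ _
  linarith

theorem tail_of_exp_moment (G : SimpleGraph V) {q : ℝ} (h0 : 0 ≤ q) (h1 : q ≤ 1) {lam C : ℝ}
    (hl : 0 < lam) (h : ∀ (x : V) (F : Finset V),
      Ex q (edgesIn G F) (fun S => Real.exp (lam * csz S x)) ≤ C) (x : V) (F : Finset V) (L : ℕ) :
    Ex q (edgesIn G F) (fun S => ind (L < csz S x)) ≤ C * Real.exp (-(lam * L)) := by
  have h2 : Ex q (edgesIn G F) (fun S => ind (L < csz S x)) ≤
      Ex q (edgesIn G F) (fun S => Real.exp (lam * csz S x) * Real.exp (-(lam * L))) := by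
    refine Vale.Agent.P151.Ex_mono h0 h1 fun S _ => ?_
    by_cases hL : L < csz S x
    · rw [ind_true hL, ← Real.exp_add]
      have h3 : (L : ℝ) ≤ csz S x := by exact_mod_cast hL.le
      exact Real.one_le_exp (by nlinarith)
    · rw [ind_false hL]
      positivity
  refine h2.trans ?_
  rw [Vale.Agent.P151.Ex_mul_const]
  exact mul_le_mul_of_nonneg_right (h x F) (Real.exp_nonneg _)

end Vale.Agent.P165.LF
end

section
open Finset

namespace Vale.Agent.P165.FV

section Ex

set_option linter.unusedSectionVars false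

variable {α : Type*} [DecidableEq α]

/-- Expectation of `f` under independent `p`-percolation on the finite set `E`. -/
noncomputable def Ex (p : ℝ) (E : Finset α) (f : Finset α → ℝ) : ℝ :=
  ∑ B ∈ E.powerset, p ^ B.card * (1 - p) ^ (E.card - B.card) * f B

lemma Ex_empty (p : ℝ) (f : Finset α → ℝ) : Ex p ∅ f = f ∅ := by
  simp [Ex]

lemma Ex_insert (p : ℝ) {a : α} {s : Finset α} (ha : a ∉ s) (f : Finset α → ℝ) :
    Ex p (insert a s) f = (1 - p) * Ex p s f + p * Ex p s (fun B => f (insert a B)) := by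
  unfold Ex
  rw [Finset.sum_powerset_insert ha, Finset.mul_sum, Finset.mul_sum, Finset.card_insert_of_notMem ha]
  congr 1
  · refine Finset.sum_congr rfl fun B hB => ?_
    have hB' := Finset.card_le_card (Finset.mem_powerset.1 hB)
    rw [Nat.succ_sub hB', pow_succ]; ring
  · refine Finset.sum_congr rfl fun B hB => ?_
    have haB : a ∉ B := fun h => ha (Finset.mem_powerset.1 hB h)
    rw [Finset.card_insert_of_notMem haB, Nat.add_sub_add_right, pow_succ]; ring

lemma Ex_congr {p : ℝ} {E : Finset α} {f g : Finset α → ℝ} (h : ∀ B ⊆ E, f B = g B) :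
    Ex p E f = Ex p E g :=
  Finset.sum_congr rfl fun B hB => by rw [h B (Finset.mem_powerset.1 hB)]

lemma Ex_mono {p : ℝ} (hp0 : 0 ≤ p) (hp1 : p ≤ 1) {E : Finset α} {f g : Finset α → ℝ}
    (h : ∀ B ⊆ E, f B ≤ g B) : Ex p E f ≤ Ex p E g :=
  Finset.sum_le_sum fun B hB => mul_le_mul_of_nonneg_left (h B (Finset.mem_powerset.1 hB))
    (mul_nonneg (pow_nonneg hp0 _) (pow_nonneg (by linarith) _))

lemma Ex_const_mul (p : ℝ) (E : Finset α) (c : ℝ) (f : Finset α → ℝ) :
    Ex p E (fun B => c * f B) = c * Ex p E f := by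
  unfold Ex
  rw [Finset.mul_sum]
  exact Finset.sum_congr rfl fun B _ => by ring

lemma Ex_mul_const (p : ℝ) (E : Finset α) (c : ℝ) (f : Finset α → ℝ) :
    Ex p E (fun B => f B * c) = Ex p E f * c := by
  unfold Ex
  rw [Finset.sum_mul]
  exact Finset.sum_congr rfl fun B _ => by ring

lemma Ex_sub (p : ℝ) (E : Finset α) (f g : Finset α → ℝ) :
    Ex p E (fun B => f B - g B) = Ex p E f - Ex p E g := by
  unfold Ex
  rw [← Finset.sum_sub_distrib]
  exact Finset.sum_congr rfl fun B _ => by ring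

lemma Ex_sum {ι : Type*} (p : ℝ) (E : Finset α) (s : Finset ι) (f : ι → Finset α → ℝ) :
    Ex p E (fun B => ∑ i ∈ s, f i B) = ∑ i ∈ s, Ex p E (f i) := by
  unfold Ex
  rw [Finset.sum_comm]
  exact Finset.sum_congr rfl fun B _ => by rw [Finset.mul_sum]

lemma Ex_const (p : ℝ) (E : Finset α) (c : ℝ) : Ex p E (fun _ => c) = c := by
  induction E using Finset.induction_on with
  | empty => rw [Ex_empty]
  | insert a s ha ih => rw [Ex_insert p ha, ih]; ring

lemma Ex_nonneg {p : ℝ} (hp0 : 0 ≤ p) (hp1 : p ≤ 1) {E : Finset α} {f : Finset α → ℝ}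
    (h : ∀ B ⊆ E, 0 ≤ f B) : 0 ≤ Ex p E f := by
  have := Ex_mono hp0 hp1 (E := E) (f := fun _ => 0) (g := f) h
  rwa [Ex_const] at this

lemma Ex_union (p : ℝ) {F₁ F₂ : Finset α} (h : Disjoint F₁ F₂) (f : Finset α → ℝ) :
    Ex p (F₁ ∪ F₂) f = Ex p F₁ (fun B₁ => Ex p F₂ (fun B₂ => f (B₁ ∪ B₂))) := by
  induction F₁ using Finset.induction_on generalizing f with
  | empty => simp [Ex_empty]
  | insert a s ha ih =>
    rw [Finset.disjoint_insert_left] at h
    rw [Finset.insert_union, Ex_insert p (by simp [ha, h.1]), ih h.2, ih h.2, Ex_insert p ha]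
    congr 2
    refine Ex_congr fun B₁ _ => Ex_congr fun B₂ _ => ?_
    rw [Finset.insert_union]

lemma Ex_erase (p : ℝ) {E : Finset α} {e : α} (he : e ∈ E) (f : Finset α → ℝ) :
    Ex p E f = (1 - p) * Ex p (E.erase e) f + p * Ex p (E.erase e) (fun B => f (insert e B)) := by
  conv_lhs => rw [← Finset.insert_erase he]
  exact Ex_insert p (Finset.notMem_erase e E) f

/-- Russo's formula. -/
lemma hasDerivAt_Ex (E : Finset α) (f : Finset α → ℝ) (p : ℝ) :
    HasDerivAt (fun q => Ex q E f)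
      (∑ e ∈ E, Ex p (E.erase e) (fun B => f (insert e B) - f B)) p := by
  induction E using Finset.induction_on generalizing f with
  | empty =>
    simp only [Ex_empty, Finset.sum_empty]
    exact hasDerivAt_const p _
  | insert a s ha ih =>
    have hfun : (fun q => Ex q (insert a s) f) =
        fun q => (1 - q) * Ex q s f + q * Ex q s (fun B => f (insert a B)) := by
      funext q; exact Ex_insert q ha f
    rw [hfun]
    have h1 : HasDerivAt (fun q : ℝ => (1 - q)) (-1) p := (hasDerivAt_id p).const_sub 1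
    have h2 : HasDerivAt (fun q : ℝ => q) 1 p := hasDerivAt_id p
    have h3 := (h1.mul (ih f)).add (h2.mul (ih (fun B => f (insert a B))))
    refine h3.congr_deriv ?_
    rw [Finset.sum_insert ha, Finset.erase_insert ha]
    have hsum : ∑ e ∈ s, Ex p ((insert a s).erase e) (fun B => f (insert e B) - f B) =
        (1 - p) * ∑ e ∈ s, Ex p (s.erase e) (fun B => f (insert e B) - f B) +
        p * ∑ e ∈ s, Ex p (s.erase e)
          (fun B => f (insert a (insert e B)) - f (insert a B)) := by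
      rw [Finset.mul_sum, Finset.mul_sum, ← Finset.sum_add_distrib]
      refine Finset.sum_congr rfl fun e he => ?_
      have hne : e ≠ a := fun h => ha (h ▸ he)
      rw [Finset.erase_insert_of_ne hne.symm, Ex_insert p fun h => ha (Finset.mem_of_mem_erase h)]
      congr 2
      refine Ex_congr fun B _ => ?_
      rw [Finset.insert_comm]
    rw [hsum, Ex_sub]
    ring

end Ex

end Vale.Agent.P165.FV
end

section
open Finset

namespace Vale.Agent.P165.FV

universe u

variable {V : Type u}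

section Ind

/-- real indicator of a proposition -/
noncomputable def ind (P : Prop) : ℝ := by classical exact if P then 1 else 0

lemma ind_of {P : Prop} (h : P) : ind P = 1 := by
  unfold ind; exact if_pos h

lemma ind_not {P : Prop} (h : ¬ P) : ind P = 0 := by
  unfold ind; exact if_neg h

lemma ind_nonneg (P : Prop) : 0 ≤ ind P := by
  by_cases h : P
  · rw [ind_of h]; norm_num
  · rw [ind_not h]

lemma ind_mono {P Q : Prop} (h : P → Q) : ind P ≤ ind Q := by
  by_cases hP : P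
  · rw [ind_of hP, ind_of (h hP)]
  · rw [ind_not hP]; exact ind_nonneg Q

lemma ind_congr {P Q : Prop} (h : P ↔ Q) : ind P = ind Q :=
  le_antisymm (ind_mono h.1) (ind_mono h.2)

lemma ind_and (P Q : Prop) : ind (P ∧ Q) = ind P * ind Q := by
  by_cases hP : P <;> by_cases hQ : Q
  · rw [ind_of ⟨hP, hQ⟩, ind_of hP, ind_of hQ, one_mul]
  · rw [ind_not fun h => hQ h.2, ind_not hQ, mul_zero]
  · rw [ind_not fun h => hP h.1, ind_not hP, zero_mul]
  · rw [ind_not fun h => hP h.1, ind_not hP, zero_mul]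

lemma ind_not_eq (P : Prop) : ind (¬ P) = 1 - ind P := by
  by_cases hP : P
  · rw [ind_not (not_not.2 hP), ind_of hP]; ring
  · rw [ind_of hP, ind_not hP]; ring

end Ind

/-- The open graph of a finite configuration. -/
abbrev gr (B : Finset (Sym2 V)) : SimpleGraph V := SimpleGraph.fromEdgeSet (B : Set (Sym2 V))

/-- connectivity in a finite configuration -/
def Rch (B : Finset (Sym2 V)) (x y : V) : Prop := (gr B).Reachable x y

lemma gr_mono {A B : Finset (Sym2 V)} (h : A ⊆ B) : gr A ≤ gr B :=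
  SimpleGraph.fromEdgeSet_mono (by exact_mod_cast h)

lemma Rch.mono {A B : Finset (Sym2 V)} (h : A ⊆ B) {x y : V} (hr : Rch A x y) : Rch B x y :=
  SimpleGraph.Reachable.mono (gr_mono h) hr

lemma Rch.refl (B : Finset (Sym2 V)) (x : V) : Rch B x x := SimpleGraph.Reachable.refl x

lemma Rch.trans {B : Finset (Sym2 V)} {x y z : V} (h : Rch B x y) (h' : Rch B y z) : Rch B x z :=
  SimpleGraph.Reachable.trans h h'

lemma Rch.of_mem {B : Finset (Sym2 V)} {x y : V} (h : s(x, y) ∈ B) : Rch B x y := by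
  by_cases hxy : x = y
  · subst hxy; exact Rch.refl B x
  · exact SimpleGraph.Adj.reachable (by
      rw [SimpleGraph.fromEdgeSet_adj]; exact ⟨by exact_mod_cast h, hxy⟩)

lemma gr_adj {B : Finset (Sym2 V)} {x y : V} (h : (gr B).Adj x y) : s(x, y) ∈ B := by
  rw [SimpleGraph.fromEdgeSet_adj] at h
  exact_mod_cast h.1

variable [DecidableEq V]

end Vale.Agent.P165.FV
end

section
open Finset

namespace Vale.Agent.P165.FV

universe u

set_option linter.unusedSectionVars false

variable {V : Type u} [DecidableEq V]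

lemma Ex_factor {α : Type*} [DecidableEq α] (p : ℝ) {F E : Finset α} (hFE : F ⊆ E)
    (f g : Finset α → ℝ) :
    Ex p E (fun B => f (B \ F) * g (B ∩ F)) = Ex p (E \ F) f * Ex p F g := by
  have hE : (E \ F) ∪ F = E := by rw [Finset.sdiff_union_self_eq_union, Finset.union_eq_left.2 hFE]
  conv_lhs => rw [← hE]
  rw [Ex_union p Finset.sdiff_disjoint, ← Ex_mul_const]
  refine Ex_congr fun B₁ hB₁ => ?_
  rw [← Ex_const_mul]
  refine Ex_congr fun B₂ hB₂ => ?_
  have h1 : (B₁ ∪ B₂) \ F = B₁ := by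
    ext x
    simp only [Finset.mem_sdiff, Finset.mem_union]
    constructor
    · rintro ⟨h | h, h'⟩
      · exact h
      · exact absurd (hB₂ h) h'
    · intro h
      exact ⟨Or.inl h, (Finset.mem_sdiff.1 (hB₁ h)).2⟩
  have h2 : (B₁ ∪ B₂) ∩ F = B₂ := by
    ext x
    simp only [Finset.mem_inter, Finset.mem_union]
    constructor
    · rintro ⟨h | h, h'⟩
      · exact absurd h' (Finset.mem_sdiff.1 (hB₁ h)).2
      · exact h
    · intro h
      exact ⟨Or.inr h, hB₂ h⟩
  rw [h1, h2]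

lemma Ex_marginal {α : Type*} [DecidableEq α] (p : ℝ) {F E : Finset α} (hFE : F ⊆ E)
    (f : Finset α → ℝ) :
    Ex p E (fun B => f (B \ F)) = Ex p (E \ F) f := by
  have := Ex_factor p hFE f (fun _ => 1)
  simpa [Ex_const] using this

variable (G : SimpleGraph V) [G.LocallyFinite]

/-- All edges touching `L`. -/
def touch (L : Finset V) : Finset (Sym2 V) := L.biUnion (fun x => G.incidenceFinset x)

/-- All edges inside `S`. -/
noncomputable def inner (S : Finset V) : Finset (Sym2 V) := by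
  classical exact (touch G S).filter (fun e => ∀ v ∈ e, v ∈ S)

/-- `o` is connected to the complement of `L`. -/
def crossing (o : V) (L : Finset V) (B : Finset (Sym2 V)) : Prop := ∃ y, y ∉ L ∧ Rch B o y

variable {G}

lemma mem_touch {L : Finset V} {e : Sym2 V} :
    e ∈ touch G L ↔ ∃ x ∈ L, x ∈ e ∧ e ∈ G.edgeSet := by
  unfold touch
  rw [Finset.mem_biUnion]
  constructor
  · rintro ⟨x, hx, he⟩
    rw [SimpleGraph.mem_incidenceFinset] at he
    exact ⟨x, hx, he.2, he.1⟩
  · rintro ⟨x, hx, hxe, he⟩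
    exact ⟨x, hx, by rw [SimpleGraph.mem_incidenceFinset]; exact ⟨he, hxe⟩⟩

lemma mem_inner {S : Finset V} {e : Sym2 V} :
    e ∈ inner G S ↔ e ∈ G.edgeSet ∧ ∀ v ∈ e, v ∈ S := by
  classical
  unfold inner
  rw [Finset.mem_filter, mem_touch]
  constructor
  · rintro ⟨⟨x, _, _, he⟩, h⟩
    exact ⟨he, h⟩
  · rintro ⟨he, h⟩
    refine ⟨?_, h⟩
    induction e with
    | _ a b => exact ⟨a, h a (Sym2.mem_mk_left a b), Sym2.mem_mk_left a b, he⟩

lemma inner_subset_touch {S L : Finset V} (h : S ⊆ L) : inner G S ⊆ touch G L := by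
  intro e he
  rw [mem_inner] at he
  rw [mem_touch]
  obtain ⟨he1, he2⟩ := he
  induction e with
  | _ a b => exact ⟨a, h (he2 a (Sym2.mem_mk_left a b)), Sym2.mem_mk_left a b, he1⟩

lemma crossing.mono {o : V} {L : Finset V} {A B : Finset (Sym2 V)} (h : A ⊆ B)
    (hc : crossing o L A) : crossing o L B := by
  obtain ⟨y, hy, hr⟩ := hc
  exact ⟨y, hy, hr.mono h⟩

/-- vertices of `L` not connected to the complement of `L`. -/
noncomputable def sc (L : Finset V) (B : Finset (Sym2 V)) : Finset V := by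
  classical exact L.filter (fun x => ¬ crossing x L B)

lemma mem_sc {L : Finset V} {B : Finset (Sym2 V)} {x : V} :
    x ∈ sc L B ↔ x ∈ L ∧ ¬ crossing x L B := by
  classical
  unfold sc; rw [Finset.mem_filter]

lemma sc_subset (L : Finset V) (B : Finset (Sym2 V)) : sc L B ⊆ L := fun _ hx => (mem_sc.1 hx).1

lemma sc_sdiff_inner {L S : Finset V} {B : Finset (Sym2 V)} (h : sc L B = S) :
    sc L (B \ inner G S) = S := by
  apply Finset.Subset.antisymm
  · intro x hx
    rw [mem_sc] at hx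
    by_contra hxS
    apply hx.2
    have hcr : crossing x L B := by
      by_contra hc
      exact hxS (h ▸ mem_sc.2 ⟨hx.1, hc⟩)
    obtain ⟨y, hy, ⟨w⟩⟩ := hcr
    refine ⟨y, hy, ?_⟩
    have key : ∀ {a b : V} (w : (gr B).Walk a b), b ∉ L → a ∉ S → Rch (B \ inner G S) a b := by
      intro a b w
      induction w with
      | nil => intro _ _; exact Rch.refl _ _
      | @cons a z b hadj p ih =>
        intro hb ha
        have hz : z ∉ S := by
          intro hz
          rw [← h, mem_sc] at hz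
          exact hz.2 ⟨b, hb, ⟨p⟩⟩
        refine Rch.trans (Rch.of_mem ?_) (ih hb hz)
        rw [Finset.mem_sdiff]
        refine ⟨gr_adj hadj, fun hin => ha ?_⟩
        exact (mem_inner.1 hin).2 a (Sym2.mem_mk_left a z)
    exact key w hy hxS
  · intro x hx
    rw [← h, mem_sc] at hx
    rw [mem_sc]
    exact ⟨hx.1, fun hc => hx.2 (hc.mono Finset.sdiff_subset)⟩

lemma sc_of_sdiff_inner {L S : Finset V} {B : Finset (Sym2 V)}
    (h : sc L (B \ inner G S) = S) : sc L B = S := by
  have hSL : S ⊆ L := h ▸ sc_subset L _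
  have key : ∀ {a b : V} (w : (gr B).Walk a b), b ∉ L → a ∉ S := by
    intro a b w
    induction w with
    | nil => intro hb ha; exact hb (hSL ha)
    | @cons a z b hadj p ih =>
      intro hb ha
      have hz := ih hb
      have hedge : Rch (B \ inner G S) a z := by
        refine Rch.of_mem ?_
        rw [Finset.mem_sdiff]
        exact ⟨gr_adj hadj, fun hin => hz ((mem_inner.1 hin).2 z (Sym2.mem_mk_right a z))⟩
      rw [← h, mem_sc] at ha
      apply ha.2
      by_cases hzL : z ∈ L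
      · have hcz : crossing z L (B \ inner G S) := by
          by_contra hc
          exact hz (h ▸ mem_sc.2 ⟨hzL, hc⟩)
        obtain ⟨y, hy, hr⟩ := hcz
        exact ⟨y, hy, hedge.trans hr⟩
      · exact ⟨z, hzL, hedge⟩
  apply Finset.Subset.antisymm
  · intro x hx
    rw [mem_sc] at hx
    rw [← h, mem_sc]
    exact ⟨hx.1, fun hc => hx.2 (hc.mono Finset.sdiff_subset)⟩
  · intro x hx
    rw [mem_sc]
    refine ⟨hSL hx, ?_⟩
    rintro ⟨y, hy, ⟨w⟩⟩
    exact key w hy hx

lemma sc_eq_iff {L S : Finset V} {B : Finset (Sym2 V)} :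
    sc L B = S ↔ sc L (B \ inner G S) = S :=
  ⟨sc_sdiff_inner, sc_of_sdiff_inner⟩

variable (G)

/-- The Duminil-Copin and Tassion functional: the expected number of edges from the cluster of `o`
in `S` to the complement of `S`. -/
noncomputable def phi (p : ℝ) (o : V) (S : Finset V) : ℝ :=
  ∑ x ∈ S, Ex p (inner G S) (fun B => ind (Rch B o x)) * ((G.neighborFinset x \ S).card : ℝ)

variable {G}

lemma dct_pointwise {L : Finset V} {o : V} (ho : o ∈ L) {B : Finset (Sym2 V)}
    (hB : B ⊆ touch G L) :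
    ∑ S ∈ L.powerset, ind (o ∈ S) * (ind (sc L (B \ inner G S) = S) *
        ∑ x ∈ S, ind (Rch (B ∩ inner G S) o x) * ((G.neighborFinset x \ S).card : ℝ)) ≤
      ind (¬ crossing o L B) * ∑ e ∈ touch G L, ind (crossing o L (insert e B)) := by
  have hBG : ∀ e ∈ B, e ∈ G.edgeSet := by
    intro e he
    obtain ⟨_, _, _, h⟩ := mem_touch.1 (hB he)
    exact h
  have hR : 0 ≤ ind (¬ crossing o L B) * ∑ e ∈ touch G L, ind (crossing o L (insert e B)) :=
    mul_nonneg (ind_nonneg _) (Finset.sum_nonneg fun e _ => ind_nonneg _)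
  rw [Finset.sum_eq_single (sc L B)]
  · by_cases hc : crossing o L B
    · rw [ind_not (P := o ∈ sc L B) (fun h => (mem_sc.1 h).2 hc), zero_mul]
      exact hR
    · have hosc : o ∈ sc L B := mem_sc.2 ⟨ho, hc⟩
      rw [ind_of hosc, ind_of (sc_sdiff_inner (G := G) (rfl : sc L B = sc L B)), ind_of hc,
        one_mul, one_mul, one_mul]
      set S := sc L B with hS
      have hSL : S ⊆ L := sc_subset L B
      have e1 : ∑ x ∈ S, ind (Rch (B ∩ inner G S) o x) * ((G.neighborFinset x \ S).card : ℝ) =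
          ∑ z ∈ S.sigma (fun x => G.neighborFinset x \ S), ind (Rch (B ∩ inner G S) o z.1) := by
        rw [Finset.sum_sigma]
        refine Finset.sum_congr rfl fun x _ => ?_
        simp only [Finset.sum_const, nsmul_eq_mul]
        rw [mul_comm]
      rw [e1]
      have hinj : Set.InjOn (fun z : (_ : V) × V => s(z.1, z.2))
          (S.sigma (fun x => G.neighborFinset x \ S) : Set ((_ : V) × V)) := by
        rintro ⟨x, y⟩ hz ⟨x', y'⟩ hz' heq
        rw [Finset.mem_coe, Finset.mem_sigma, Finset.mem_sdiff] at hz hz'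
        simp only at hz hz' heq
        rw [Sym2.eq_iff] at heq
        rcases heq with ⟨rfl, rfl⟩ | ⟨rfl, rfl⟩
        · rfl
        · exact absurd hz.1 hz'.2.2
      have e2 : ∑ z ∈ S.sigma (fun x => G.neighborFinset x \ S),
            ind (Rch (B ∩ inner G S) o z.1) ≤
          ∑ z ∈ S.sigma (fun x => G.neighborFinset x \ S),
            ind (crossing o L (insert s(z.1, z.2) B)) := by
        refine Finset.sum_le_sum ?_
        rintro ⟨x, y⟩ hz
        rw [Finset.mem_sigma, Finset.mem_sdiff] at hz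
        simp only at hz ⊢
        refine ind_mono fun hr => ?_
        have h1 : Rch (insert s(x, y) B) o y :=
          (hr.mono (Finset.inter_subset_left.trans (Finset.subset_insert _ _))).trans
            (Rch.of_mem (Finset.mem_insert_self _ _))
        by_cases hyL : y ∈ L
        · have : crossing y L B := by
            by_contra hcy
            exact hz.2.2 (mem_sc.2 ⟨hyL, hcy⟩)
          obtain ⟨z, hz1, hz2⟩ := this
          exact ⟨z, hz1, h1.trans (hz2.mono (Finset.subset_insert _ _))⟩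
        · exact ⟨y, hyL, h1⟩
      refine e2.trans ?_
      rw [← Finset.sum_image (f := fun e => ind (crossing o L (insert e B))) hinj]
      refine Finset.sum_le_sum_of_subset_of_nonneg ?_ fun e _ _ => ind_nonneg _
      intro e he
      rw [Finset.mem_image] at he
      obtain ⟨⟨x, y⟩, hz, rfl⟩ := he
      rw [Finset.mem_sigma, Finset.mem_sdiff, SimpleGraph.mem_neighborFinset] at hz
      rw [mem_touch]
      exact ⟨x, hSL hz.1, Sym2.mem_mk_left x y, hz.2.1⟩
  · intro S _ hne
    rw [ind_not (P := sc L (B \ inner G S) = S) fun h => hne (sc_of_sdiff_inner h).symm, zero_mul,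
      mul_zero]
  · intro h
    exact absurd (Finset.mem_powerset.2 (sc_subset L B)) h

lemma dct_deriv {p : ℝ} (hp0 : 0 ≤ p) (hp1 : p ≤ 1) {L : Finset V} {o : V} (ho : o ∈ L) {c : ℝ}
    (hφ : ∀ S : Finset V, o ∈ S → c ≤ phi G p o S) :
    c * (1 - Ex p (touch G L) (fun B => ind (crossing o L B))) ≤
      ∑ e ∈ touch G L, Ex p ((touch G L).erase e)
        (fun B => ind (crossing o L (insert e B)) - ind (crossing o L B)) := by
  set E := touch G L with hE
  have step1 : ∀ e ∈ E, Ex p E (fun B => ind (¬ crossing o L B) * ind (crossing o L (insert e B))) ≤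
      Ex p (E.erase e) (fun B => ind (crossing o L (insert e B)) - ind (crossing o L B)) := by
    intro e he
    rw [Ex_erase p he]
    have z : Ex p (E.erase e) (fun B => ind (¬ crossing o L (insert e B)) *
        ind (crossing o L (insert e (insert e B)))) = 0 := by
      refine (Ex_congr fun B _ => ?_).trans (Ex_const p _ 0)
      rw [Finset.insert_idem, ← ind_and]
      exact ind_not fun h => h.1 h.2
    rw [z, mul_zero, add_zero]
    have hmon : Ex p (E.erase e)
        (fun B => ind (¬ crossing o L B) * ind (crossing o L (insert e B))) ≤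
        Ex p (E.erase e) (fun B => ind (crossing o L (insert e B)) - ind (crossing o L B)) := by
      refine Ex_mono hp0 hp1 fun B _ => ?_
      by_cases hc : crossing o L B
      · rw [ind_not (not_not.2 hc), ind_of (hc.mono (Finset.subset_insert e B)), ind_of hc]
        norm_num
      · rw [ind_of hc, ind_not hc]; simp
    have hnn : 0 ≤ Ex p (E.erase e)
        (fun B => ind (¬ crossing o L B) * ind (crossing o L (insert e B))) :=
      Ex_nonneg hp0 hp1 fun B _ => mul_nonneg (ind_nonneg _) (ind_nonneg _)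
    have : (1 - p) * Ex p (E.erase e)
        (fun B => ind (¬ crossing o L B) * ind (crossing o L (insert e B))) ≤
        1 * Ex p (E.erase e)
        (fun B => ind (¬ crossing o L B) * ind (crossing o L (insert e B))) :=
      mul_le_mul_of_nonneg_right (by linarith) hnn
    linarith
  refine le_trans ?_ (Finset.sum_le_sum step1)
  rw [← Ex_sum]
  have step2 : Ex p E (fun B => ∑ S ∈ L.powerset, ind (o ∈ S) *
      (ind (sc L (B \ inner G S) = S) *
        ∑ x ∈ S, ind (Rch (B ∩ inner G S) o x) * ((G.neighborFinset x \ S).card : ℝ))) ≤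
      Ex p E (fun B => ∑ e ∈ E, ind (¬ crossing o L B) * ind (crossing o L (insert e B))) := by
    refine Ex_mono hp0 hp1 fun B hB => ?_
    rw [← Finset.mul_sum]
    exact dct_pointwise ho hB
  refine le_trans ?_ step2
  rw [Ex_sum]
  have step3 : ∀ S ∈ L.powerset, c * (ind (o ∈ S) * Ex p E (fun B => ind (sc L B = S))) ≤
      Ex p E (fun B => ind (o ∈ S) *
      (ind (sc L (B \ inner G S) = S) *
        ∑ x ∈ S, ind (Rch (B ∩ inner G S) o x) * ((G.neighborFinset x \ S).card : ℝ))) := by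
    intro S hS
    rw [Finset.mem_powerset] at hS
    rw [Ex_const_mul, mul_left_comm]
    by_cases hoS : o ∈ S
    · refine mul_le_mul_of_nonneg_left ?_ (ind_nonneg _)
      rw [Ex_factor p (inner_subset_touch hS) (fun B => ind (sc L B = S))
        (fun B => ∑ x ∈ S, ind (Rch B o x) * ((G.neighborFinset x \ S).card : ℝ))]
      have e1 : Ex p E (fun B => ind (sc L B = S)) =
          Ex p (E \ inner G S) (fun B => ind (sc L B = S)) := by
        rw [← Ex_marginal p (inner_subset_touch hS) (fun B => ind (sc L B = S))]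
        exact Ex_congr fun B _ => ind_congr sc_eq_iff
      have e2 : Ex p (inner G S)
          (fun B => ∑ x ∈ S, ind (Rch B o x) * ((G.neighborFinset x \ S).card : ℝ)) =
          phi G p o S := by
        rw [Ex_sum]
        unfold phi
        exact Finset.sum_congr rfl fun x _ => Ex_mul_const p _ _ _
      rw [e1, e2, mul_comm c]
      exact mul_le_mul_of_nonneg_left (hφ S hoS) (Ex_nonneg hp0 hp1 fun B _ => ind_nonneg _)
    · rw [ind_not hoS]; simp
  refine le_trans (le_of_eq ?_) (Finset.sum_le_sum step3)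
  rw [← Finset.mul_sum]
  congr 1
  simp_rw [← Ex_const_mul]
  rw [← Ex_sum]
  have h1 : (1 : ℝ) = Ex p E (fun _ => 1) := (Ex_const p E 1).symm
  conv_lhs => rw [h1]
  rw [← Ex_sub]
  refine Ex_congr fun B _ => ?_
  rw [Finset.sum_eq_single (sc L B)]
  · rw [ind_of (rfl : sc L B = sc L B), mul_one, ← ind_not_eq]
    refine ind_congr ⟨fun h => mem_sc.2 ⟨ho, h⟩, fun h => (mem_sc.1 h).2⟩
  · intro S _ hne
    rw [ind_not (P := sc L B = S) fun h => hne h.symm, mul_zero]
  · intro h
    exact absurd (Finset.mem_powerset.2 (sc_subset L B)) h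

/-- Integrated differential inequality. -/
theorem crossing_ge {p₀ p₁ : ℝ} (h0 : 0 ≤ p₀) (h01 : p₀ ≤ p₁) (h1 : p₁ ≤ 1)
    {L : Finset V} {o : V} (ho : o ∈ L) {c : ℝ}
    (hφ : ∀ p, p₀ ≤ p → p ≤ p₁ → ∀ S : Finset V, o ∈ S → c ≤ phi G p o S) :
    1 - Real.exp (-(c * (p₁ - p₀))) ≤
      Ex p₁ (touch G L) (fun B => ind (crossing o L B)) := by
  set θ : ℝ → ℝ := fun p => Ex p (touch G L) (fun B => ind (crossing o L B)) with hθ
  set θ' : ℝ → ℝ := fun p => ∑ e ∈ touch G L, Ex p ((touch G L).erase e)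
        (fun B => ind (crossing o L (insert e B)) - ind (crossing o L B)) with hθ'
  have hder : ∀ p, HasDerivAt θ (θ' p) p := fun p => hasDerivAt_Ex _ _ p
  set u : ℝ → ℝ := fun p => (1 - θ p) * Real.exp (c * p) with hu
  have hderu : ∀ p, HasDerivAt u ((-θ' p) * Real.exp (c * p) +
      (1 - θ p) * (Real.exp (c * p) * c)) p := by
    intro p
    have a1 : HasDerivAt (fun q => 1 - θ q) (-θ' p) p := (hder p).const_sub 1
    have a2 : HasDerivAt (fun q : ℝ => c * q) c p := by
      simpa using (hasDerivAt_id p).const_mul c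
    exact a1.mul a2.exp
  have hanti : AntitoneOn u (Set.Icc p₀ p₁) := by
    refine antitoneOn_of_deriv_nonpos (convex_Icc _ _) ?_ ?_ ?_
    · exact fun p _ => (hderu p).continuousAt.continuousWithinAt
    · exact fun p _ => (hderu p).differentiableAt.differentiableWithinAt
    · intro p hp
      rw [interior_Icc] at hp
      rw [(hderu p).deriv]
      have hineq := dct_deriv (G := G) (h0.trans hp.1.le) (hp.2.le.trans h1) ho
        (hφ p hp.1.le hp.2.le)
      have hineq' : c * (1 - θ p) ≤ θ' p := hineq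
      have hexp := Real.exp_pos (c * p)
      nlinarith [mul_nonneg (sub_nonneg.2 hineq') hexp.le]
  have hle := hanti (Set.left_mem_Icc.2 h01) (Set.right_mem_Icc.2 h01) h01
  have hθ0 : 0 ≤ θ p₀ := Ex_nonneg h0 (h01.trans h1) fun B _ => ind_nonneg _
  simp only [hu] at hle
  have hexp1 := Real.exp_pos (c * p₁)
  have h3 : (1 - θ p₁) * Real.exp (c * p₁) ≤ Real.exp (c * p₀) := by
    refine hle.trans ?_
    have := Real.exp_pos (c * p₀)
    nlinarith
  have h4 : Real.exp (-(c * (p₁ - p₀))) * Real.exp (c * p₁) = Real.exp (c * p₀) := by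
    rw [← Real.exp_add]; congr 1; ring
  have h5 : 1 - θ p₁ ≤ Real.exp (-(c * (p₁ - p₀))) := by
    rw [← h4] at h3
    exact le_of_mul_le_mul_right h3 hexp1
  linarith

end Vale.Agent.P165.FV
end

section
open Finset

namespace Vale.Agent.P165.FV

universe u

variable {V : Type u} [DecidableEq V]

lemma Ex_ind_eq_sum_filter {α : Type*} [DecidableEq α] (p : ℝ) (E : Finset α)
    (P : Finset α → Prop) [DecidablePred P] :
    Ex p E (fun B => ind (P B)) =
      ∑ B ∈ E.powerset.filter P, p ^ B.card * (1 - p) ^ (E.card - B.card) := by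
  unfold Ex
  rw [Finset.sum_filter]
  refine Finset.sum_congr rfl fun B _ => ?_
  by_cases h : P B
  · simp only [ind_of h, if_pos h, mul_one]
  · simp only [ind_not h, if_neg h, mul_zero]

variable {G : SimpleGraph V} [G.LocallyFinite]

end Vale.Agent.P165.FV
end

section
open Finset

namespace Vale.Agent.P165

universe u

variable {V : Type u}

lemma fv_touch_eq [DecidableEq V] (G : SimpleGraph V) [G.LocallyFinite] (L : Finset V) :
    FV.touch G L = touch G L := by
  ext e
  rw [FV.mem_touch, mem_touch]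
  constructor
  · rintro ⟨x, hx, hxe, he⟩
    induction e with
    | _ a b =>
      rw [Sym2.mem_iff] at hxe
      rcases hxe with rfl | rfl
      · exact ⟨x, hx, b, he, rfl⟩
      · exact ⟨x, hx, a, (he : G.Adj a x).symm, Sym2.eq_swap⟩
  · rintro ⟨x, hx, y, hxy, rfl⟩
    exact ⟨x, hx, Sym2.mem_mk_left x y, hxy⟩

variable [DecidableEq V]

end Vale.Agent.P165
end

section
open Finset

set_option linter.unusedSectionVars false

namespace Vale.Agent.P165.LF

open Vale.Agent.P151 (Ex Cn cl csz edgesIn EV con tau)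

variable {V : Type} [DecidableEq V]

/-- The Duminil-Copin and Tassion functional. -/
noncomputable def shPhi (G : SimpleGraph V) [G.LocallyFinite] (q : ℝ) (x : V) (S : Finset V) : ℝ :=
  ∑ a ∈ S, Ex q (edgesIn G S) (con x a) * ((G.neighborFinset a \ S).card : ℝ)

lemma sh_phi_eq (G : SimpleGraph V) [G.LocallyFinite] (q : ℝ) (x : V) (S : Finset V) :
    shPhi G q x S = FV.phi G q x S := by
  have h1 : FV.inner G S = edgesIn G S := by
    ext e
    rw [FV.mem_inner, Vale.Agent.P151.mem_edgesIn]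
  unfold shPhi FV.phi
  rw [h1]
  refine Finset.sum_congr rfl fun a _ => ?_
  congr 1

lemma sh_phi_mono (G : SimpleGraph V) [G.LocallyFinite] {p q : ℝ} (h0 : 0 ≤ p) (hpq : p ≤ q)
    (h1 : q ≤ 1) (x : V) (S : Finset V) : shPhi G p x S ≤ shPhi G q x S :=
  Finset.sum_le_sum fun a _ => mul_le_mul_of_nonneg_right
    (Vale.Agent.P151.Ex_mono_p h0 hpq h1 _ (Vale.Agent.P151.con_mono x a)) (Nat.cast_nonneg _)

lemma sh_nbr (G : SimpleGraph V) [G.LocallyFinite] (g : G ≃g G) (a : V) (S : Finset V) :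
    (G.neighborFinset (g a) \ S.image g).card = (G.neighborFinset a \ S).card := by
  refine Eq.trans ?_ (Finset.card_image_of_injective (G.neighborFinset a \ S) g.injective)
  congr 1
  ext y
  obtain ⟨z, rfl⟩ := g.surjective y
  rw [Finset.mem_sdiff, SimpleGraph.mem_neighborFinset, g.injective.mem_finset_image,
    g.injective.mem_finset_image, Finset.mem_sdiff, SimpleGraph.mem_neighborFinset]
  exact and_congr_left fun _ => g.map_rel_iff

lemma sh_phi_aut (G : SimpleGraph V) [G.LocallyFinite] (g : G ≃g G) (q : ℝ) (x : V)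
    (S : Finset V) : shPhi G q (g x) (S.image g) = shPhi G q x S := by
  unfold shPhi
  rw [Finset.sum_image fun a _ b _ h => g.injective h]
  refine Finset.sum_congr rfl fun a _ => ?_
  rw [sh_nbr]
  congr 1
  rw [Vale.Agent.P151.edgesIn_image,
    Vale.Agent.P151.Ex_image q _ (Vale.Agent.P151.Sym2_map_inj g.injective)]
  refine Vale.Agent.P151.Ex_congr q fun T _ => ?_
  unfold con
  by_cases h : Cn T x a
  · rw [if_pos h, if_pos ((Vale.Agent.P151.Cn_image g.injective T x a).2 h)]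
  · rw [if_neg h, if_neg fun h' => h ((Vale.Agent.P151.Cn_image g.injective T x a).1 h')]

lemma sh_pc_le_one (G : SimpleGraph V) {q : ℝ} (h0 : 0 ≤ q) (hq : q < pc G) : pc G ≤ 1 := by
  unfold pc at hq ⊢
  by_contra h
  rcases Set.eq_empty_or_nonempty {p : ℝ | ∃ h : p ∈ Set.Icc (0 : ℝ) 1,
    0 < ProbabilityTheory.setBernoulli G.edgeSet (⟨p, h⟩ : unitInterval)
      {ω | 1 ≤ numInfiniteClusters ω}} with he | ⟨p, hp⟩
  · rw [he, Real.sInf_empty] at hq
    linarith
  · refine h ((csInf_le ⟨0, ?_⟩ hp).trans ?_)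
    · rintro r ⟨hr, _⟩
      exact hr.1
    · obtain ⟨hr, _⟩ := hp
      exact hr.2

lemma sh_exists (G : SimpleGraph V) [G.LocallyFinite] (hG : G.Connected) {q : ℝ} (h0 : 0 ≤ q)
    (hq : q < pc G) (x : V) : ∃ S : Finset V, x ∈ S ∧ shPhi G q x S ≤ 1 / 2 := by
  by_contra hcon
  push Not at hcon
  have hpc1 := sh_pc_le_one G h0 hq
  obtain ⟨p₁, hqp, hpp⟩ := exists_between hq
  have h1 : p₁ ≤ 1 := hpp.le.trans hpc1
  have hc : 0 < 1 - Real.exp (-(1 / 2 * (p₁ - q))) := by
    have : Real.exp (-(1 / 2 * (p₁ - q))) < Real.exp 0 := Real.exp_lt_exp.2 (by linarith)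
    rw [Real.exp_zero] at this
    linarith
  refine absurd (pc_le G hG p₁ ⟨h0.trans hqp.le, h1⟩ x _ hc ?_) (not_le.2 hpp)
  intro L hL
  have h := FV.crossing_ge (G := G) h0 hqp.le h1 hL (c := 1 / 2) (fun p hp0 hp1 S hS => by
    rw [← sh_phi_eq]
    exact (hcon S hS).le.trans (sh_phi_mono G h0 hp0 (hp1.trans h1) x S))
  classical
  rw [fv_touch_eq, FV.Ex_ind_eq_sum_filter] at h
  convert h using 3
  exact Iff.rfl

open Classical in
/-- Below `p_c` every vertex has a finite set `S` with Duminil-Copin and Tassion functional `≤ 1/2`,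
of bounded size. -/
theorem exists_phi_small (G : SimpleGraph V) [G.LocallyFinite] [Infinite V] (hG : G.Connected)
    (hqt : IsQuasiTransitive G) {q : ℝ} (h0 : 0 ≤ q) (hq : q < pc G) :
    ∃ K : ℕ, ∀ x : V, ∃ S : Finset V, x ∈ S ∧ S.card ≤ K ∧
      ∑ a ∈ S, ((G.neighborFinset a \ S).card : ℝ) ≤ K ∧
      ∑ a ∈ S, Ex q (edgesIn G S) (con x a) * ((G.neighborFinset a \ S).card : ℝ) ≤ 1 / 2 := by
  obtain ⟨R, hR⟩ := hqt
  choose S hS1 hS2 using sh_exists G hG h0 hq
  refine ⟨∑ y ∈ R, ((S y).card + ∑ a ∈ S y, (G.neighborFinset a \ S y).card), fun x => ?_⟩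
  obtain ⟨y, hy, g, rfl⟩ := hR x
  have hle : (S y).card + ∑ a ∈ S y, (G.neighborFinset a \ S y).card ≤
      ∑ y ∈ R, ((S y).card + ∑ a ∈ S y, (G.neighborFinset a \ S y).card) :=
    Finset.single_le_sum (f := fun y => (S y).card + ∑ a ∈ S y, (G.neighborFinset a \ S y).card)
      (fun _ _ => Nat.zero_le _) hy
  refine ⟨(S y).image g, Finset.mem_image_of_mem _ (hS1 y), ?_, ?_, ?_⟩
  · rw [Finset.card_image_of_injective _ g.injective]
    omega
  · rw [Finset.sum_image fun a _ b _ h => g.injective h]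
    simp only [sh_nbr]
    have : ∑ a ∈ S y, (G.neighborFinset a \ S y).card ≤
        ∑ y ∈ R, ((S y).card + ∑ a ∈ S y, (G.neighborFinset a \ S y).card) := by omega
    exact_mod_cast this
  · have h := (sh_phi_aut G g q y (S y)).le.trans (hS2 y)
    exact h

end Vale.Agent.P165.LF
end

section
/-! The subcritical regime: degree bound, exponential moment, exponential tail. -/

open Finset

set_option linter.unusedSectionVars false

namespace Vale.Agent.P165.LF

open Vale.Agent.P151 (Ex Cn cl csz edgesIn EV con tau)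

variable {V : Type} [DecidableEq V] {G : SimpleGraph V}

theorem exists_degree_bound [G.LocallyFinite] (hqt : IsQuasiTransitive G) :
    ∃ d : ℕ, 1 ≤ d ∧ ∀ x, G.degree x ≤ d := by
  obtain ⟨R, hR⟩ := hqt
  refine ⟨(R.sup fun r => G.degree r) + 1, by omega, fun x => ?_⟩
  obtain ⟨r, hr, g, rfl⟩ := hR x
  have h1 : G.degree (g r) = G.degree r := by
    rw [← SimpleGraph.card_neighborSet_eq_degree, ← SimpleGraph.card_neighborSet_eq_degree]
    exact (Fintype.card_congr (g.mapNeighborSet r)).symm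
  rw [h1]
  exact (Finset.le_sup (f := fun r => G.degree r) hr).trans (Nat.le_succ _)

/-- The exponential moment below `p_c`. -/
theorem exp_moment_of_lt_pc [G.LocallyFinite] [Infinite V] (hG : G.Connected)
    (hqt : IsQuasiTransitive G) {q : ℝ} (h0 : 0 ≤ q) (hq : q < pc G) (h1 : q ≤ 1) :
    ∃ lam C : ℝ, 0 < lam ∧ 0 < C ∧ ∀ (x : V) (F : Finset V),
      Ex q (edgesIn G F) (fun S => Real.exp (lam * csz S x)) ≤ C := by
  obtain ⟨K, hK⟩ := exists_phi_small G hG hqt h0 hq
  exact exp_moment G h0 h1 hK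

/-- The exponential tail below `p_c`. -/
theorem tail_of_lt_pc [G.LocallyFinite] [Infinite V] (hG : G.Connected)
    (hqt : IsQuasiTransitive G) {q : ℝ} (h0 : 0 ≤ q) (hq : q < pc G) (h1 : q ≤ 1) :
    ∃ lam C : ℝ, 0 < lam ∧ 0 < C ∧ ∀ (x : V) (F : Finset V) (L : ℕ),
      Ex q (edgesIn G F) (fun S => ind (L < csz S x)) ≤ C * Real.exp (-(lam * L)) := by
  obtain ⟨lam, C, hl, hC, h⟩ := exp_moment_of_lt_pc hG hqt h0 hq h1
  exact ⟨lam, C, hl, hC, fun x F L => tail_of_exp_moment G h0 h1 hl h x F L⟩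

theorem sub_of_lt_pc [G.LocallyFinite] [Infinite V] (hG : G.Connected)
    (hqt : IsQuasiTransitive G) {q : ℝ} (h0 : 0 ≤ q) (hq : q < pc G) (h1 : q ≤ 1) : Sub G q := by
  obtain ⟨lam, C, hl, -, h⟩ := exp_moment_of_lt_pc hG hqt h0 hq h1
  exact sub_of_exp_moment G h0 h1 hl h

end Vale.Agent.P165.LF
end

section
open Finset

set_option linter.unusedSectionVars false

namespace Vale.Agent.P165.LF

open Vale.Agent.P151 (Ex Cn cl csz edgesIn EV con tau)

variable {V : Type} [DecidableEq V]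

section aut
variable {G : SimpleGraph V} (g : G ≃g G) (p : ℝ)

lemma hit_image (x : V) (B : Set V) (S : Finset (Sym2 V)) :
    hit (g x) (g '' B) (S.image (Sym2.map g)) = hit x B S := by
  refine ind_congr ⟨?_, ?_⟩
  · rintro ⟨_, ⟨y, hy, rfl⟩, h⟩
    exact ⟨y, hy, (Vale.Agent.P151.Cn_image g.injective S x y).1 h⟩
  · rintro ⟨y, hy, h⟩
    exact ⟨g y, ⟨y, hy, rfl⟩, (Vale.Agent.P151.Cn_image g.injective S x y).2 h⟩

lemma EV_hit_aut (x : V) (B : Set V) : EV G p (hit (g x) (g '' B)) = EV G p (hit x B) := by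
  rw [← Vale.Agent.P151.EV_aut G g p (hit (g x) (g '' B))]
  congr 1
  funext S
  exact hit_image g x B S

end aut

/-- Automorphisms of a connected graph preserve the distance. -/
lemma dist_aut' {G : SimpleGraph V} (hG : G.Connected) (g : G ≃g G) (x y : V) :
    G.dist (g x) (g y) = G.dist x y := by
  have key : ∀ (g : G ≃g G) (x y : V), G.dist (g x) (g y) ≤ G.dist x y := by
    intro g x y
    obtain ⟨w, hw⟩ := hG.exists_walk_length_eq_dist x y
    rw [← hw, ← SimpleGraph.Walk.length_map g.toHom w]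
    exact SimpleGraph.dist_le _
  refine le_antisymm (key g x y) ?_
  have h := key g.symm (g x) (g y)
  rwa [RelIso.symm_apply_apply, RelIso.symm_apply_apply] at h

end Vale.Agent.P165.LF
end

section
/-! Layer-cake upper bound for `Fs`. -/

open Finset

set_option linter.unusedSectionVars false

namespace Vale.Agent.P165.BS

open Vale.Agent.P151 (Ex Cn cl csz edgesIn EV con tau)
open Vale.Agent.P165.LF

variable {V : Type} [DecidableEq V] {G : SimpleGraph V}

private lemma FsUb_nonneg {q : ℝ} (h0 : 0 ≤ q) (h1 : q ≤ 1) (x : V) (S : Finset V) :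
    0 ≤ HP G q x S :=
  Vale.Agent.P151.EV_nonneg h0 h1 (hit_nonneg x _) (hit_le_one x _)

private lemma FsUb_le_one {q : ℝ} (h0 : 0 ≤ q) (h1 : q ≤ 1) (x : V) (S : Finset V) :
    HP G q x S ≤ 1 :=
  Vale.Agent.P151.EV_le_one h0 h1 (hit_le_one x _)

/-- Invariance under automorphisms. -/
private lemma FsUb_aut (g : G ≃g G) (q : ℝ) (x s : V) :
    HP G q (g x) {g s} = HP G q x {s} := by
  unfold HP
  have h := EV_hit_aut g q x (({s} : Finset V) : Set V)
  rw [← h]
  congr 2
  simp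

/-- The points far away have small total weight: for each `r` large, uniformly in the centre. -/
theorem exists_radius [G.LocallyFinite] [Infinite V] (hG : G.Connected)
    (hqt : IsQuasiTransitive G) {q : ℝ} (h0 : 0 < q) (hq : q < pc G) (h1 : q ≤ 1) :
    ∃ r : ℕ, ∀ (s : V) (T : Finset V), (∀ v ∈ T, r < G.dist s v) →
      ∑ v ∈ T, HP G q v {s} ≤ 1 := by
  have hs : Sub G q := sub_of_lt_pc hG hqt h0.le hq h1
  obtain ⟨R, hR⟩ := hqt
  -- for each centre a finite set outside of which the weight is small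
  have hfin : ∀ s : V, ∃ F : Finset V, ∀ T : Finset V, Disjoint T F →
      ∑ v ∈ T, HP G q v {s} ≤ 1 := by
    intro s
    have hsum : Summable (fun v => HP G q v {s}) := by
      refine summable_of_sum_le (fun v => FsUb_nonneg h0.le h1 v {s}) (c := chi G q) fun T => ?_
      have := sum_HP_le h0.le h1 hs T {s}
      simpa using this
    obtain ⟨F, hF⟩ := summable_iff_vanishing_norm.1 hsum 1 one_pos
    refine ⟨F, fun T hT => ?_⟩
    exact ((le_abs_self _).trans_eq (Real.norm_eq_abs _).symm).trans (hF T hT).le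
  choose F hF using hfin
  refine ⟨R.sup fun s => (F s).sup fun v => G.dist s v, fun s T hT => ?_⟩
  obtain ⟨y, hy, g, rfl⟩ := hR s
  have hsum : ∑ v ∈ T, HP G q v {g y} = ∑ v ∈ T.image g.symm, HP G q v {y} := by
    rw [Finset.sum_image (fun a _ b _ h => g.symm.injective h)]
    refine Finset.sum_congr rfl fun v _ => ?_
    rw [← FsUb_aut g q (g.symm v) y, RelIso.apply_symm_apply]
  rw [hsum]
  apply hF y
  rw [Finset.disjoint_left]
  intro v hv hvF
  rw [Finset.mem_image] at hv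
  obtain ⟨u, hu, rfl⟩ := hv
  have h2 := hT u hu
  have h3 : G.dist (g y) u = G.dist y (g.symm u) := by
    rw [← dist_aut' hG g y (g.symm u), RelIso.apply_symm_apply]
  rw [h3] at h2
  have h4 : G.dist y (g.symm u) ≤ (F y).sup fun v => G.dist y v :=
    Finset.le_sup (f := fun v => G.dist y v) hvF
  have h5 : (F y).sup (fun v => G.dist y v) ≤ R.sup fun s => (F s).sup fun v => G.dist s v :=
    Finset.le_sup (f := fun s => (F s).sup fun v => G.dist s v) hy
  omega

/-- Subadditivity in the target set. -/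
private lemma FsUb_le_sum {q : ℝ} (h0 : 0 ≤ q) (h1 : q ≤ 1) (x : V) (S : Finset V) :
    HP G q x S ≤ ∑ s ∈ S, HP G q x {s} := by
  refine Vale.Agent.P151.EV_le fun F => ?_
  have h2 : ∀ T, hit x (S : Set V) T ≤ ∑ s ∈ S, hit x (({s} : Finset V) : Set V) T := by
    intro T
    by_cases h : ∃ y ∈ (S : Set V), Cn T x y
    · obtain ⟨y, hy, hc⟩ := h
      have h3 : hit x (({y} : Finset V) : Set V) T = 1 := ind_true ⟨y, by simp, hc⟩
      calc hit x (S : Set V) T ≤ 1 := hit_le_one x _ T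
        _ = hit x (({y} : Finset V) : Set V) T := h3.symm
        _ ≤ _ := Finset.single_le_sum (f := fun s => hit x (({s} : Finset V) : Set V) T)
            (fun s _ => hit_nonneg x _ T) (Finset.mem_coe.1 hy)
    · have h3 : hit x (S : Set V) T = 0 := ind_false h
      rw [h3]
      exact Finset.sum_nonneg fun s _ => hit_nonneg x _ T
  refine (Vale.Agent.P151.Ex_mono h0 h1 (fun T _ => h2 T)).trans ?_
  rw [Vale.Agent.P151.Ex_sum]
  exact Finset.sum_le_sum fun s _ => Vale.Agent.P151.le_EV h0 h1 (hit_le_one x _) F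

/-- Lower bound by the distance. -/
private lemma FsUb_pow_le (hG : G.Connected) {q : ℝ} (h0 : 0 ≤ q) (h1 : q ≤ 1) {x s : V}
    {S : Finset V} (hs : s ∈ S) : q ^ G.dist x s ≤ HP G q x S := by
  refine (pow_dist_le hG h0 h1 x s).trans ?_
  refine Vale.Agent.P151.EV_mono h0 h1 (fun T => ?_) (hit_le_one x _)
  unfold Vale.Agent.P151.con
  split_ifs with h
  · exact (ind_true ⟨s, Finset.mem_coe.2 hs, h⟩).symm.le
  · exact hit_nonneg x _ T

/-- Layer cake. -/
theorem Fs_ub [G.LocallyFinite] [Infinite V] (hG : G.Connected)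
    (hqt : IsQuasiTransitive G) {q : ℝ} (h0 : 0 < q) (hq : q < pc G) (h1 : q ≤ 1) :
    ∃ M : ℕ, ∀ S : Finset V,
      FS G q S ≤ S.card + ∑ m ∈ Finset.Icc 1 M, Real.exp (1 - (m : ℝ)) * (fat G q m S).card := by
  classical
  have hs : Sub G q := sub_of_lt_pc hG hqt h0.le hq h1
  obtain ⟨r, hr⟩ := exists_radius hG hqt h0 hq h1
  -- the number of layers
  obtain ⟨M, hM1, hM⟩ : ∃ M : ℕ, 1 ≤ M ∧ Real.exp (-(M : ℝ)) ≤ q ^ r := by
    obtain ⟨M, hM⟩ := exists_nat_ge (-Real.log (q ^ r))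
    refine ⟨M + 1, by omega, ?_⟩
    rw [← Real.exp_log (pow_pos h0 r)]
    apply Real.exp_le_exp.2
    push_cast
    linarith
  refine ⟨M, fun S => ?_⟩
  unfold FS
  have hne : Nonempty (Finset V) := ⟨∅⟩
  refine ciSup_le fun Z => ?_
  -- near and far points
  rw [← Finset.sum_filter_add_sum_filter_not Z (fun z => z ∈ fat G q M S), add_comm]
  refine add_le_add ?_ ?_
  · -- far points
    set Z2 := Z.filter (fun z => z ∉ fat G q M S) with hZ2
    have hfar : ∀ z ∈ Z2, ∀ s ∈ S, r < G.dist s z := by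
      intro z hz s hsS
      rw [hZ2, Finset.mem_filter] at hz
      by_contra hle
      apply hz.2
      rw [mem_fat h0.le h1 hs]
      refine hM.trans ((pow_le_pow_of_le_one h0.le h1 ?_).trans
        (FsUb_pow_le hG h0.le h1 (x := z) hsS))
      rw [SimpleGraph.dist_comm]
      exact not_lt.1 hle
    calc ∑ z ∈ Z2, HP G q z S ≤ ∑ z ∈ Z2, ∑ s ∈ S, HP G q z {s} :=
          Finset.sum_le_sum fun z _ => FsUb_le_sum h0.le h1 z S
      _ = ∑ s ∈ S, ∑ z ∈ Z2, HP G q z {s} := Finset.sum_comm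
      _ ≤ ∑ s ∈ S, (1 : ℝ) := Finset.sum_le_sum fun s hsS => hr s Z2 fun z hz => hfar z hz s hsS
      _ = S.card := by simp
  · -- near points
    set Z1 := Z.filter (fun z => z ∈ fat G q M S) with hZ1
    have hpt : ∀ z ∈ Z1, HP G q z S ≤
        ∑ m ∈ Finset.Icc 1 M, (if z ∈ fat G q m S then Real.exp (1 - (m : ℝ)) else 0) := by
      intro z hz
      rw [hZ1, Finset.mem_filter] at hz
      have hex : ∃ m, 1 ≤ m ∧ z ∈ fat G q m S := ⟨M, hM1, hz.2⟩
      obtain ⟨hm1, hm⟩ := Nat.find_spec hex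
      set m := Nat.find hex with hmdef
      have hmM : m ≤ M := Nat.find_min' hex ⟨hM1, hz.2⟩
      have hle : HP G q z S ≤ Real.exp (1 - (m : ℝ)) := by
        rcases Nat.lt_or_ge m 2 with h2 | h2
        · have : m = 1 := by omega
          rw [this]
          simpa using FsUb_le_one h0.le h1 z S
        · have h3 : ¬ (1 ≤ m - 1 ∧ z ∈ fat G q (m - 1) S) :=
            Nat.find_min hex (m := m - 1) (by omega)
          have h4 : z ∉ fat G q (m - 1) S := fun h => h3 ⟨by omega, h⟩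
          rw [mem_fat h0.le h1 hs, not_le] at h4
          refine h4.le.trans_eq ?_
          congr 1
          rw [Nat.cast_sub (by omega)]
          push_cast
          ring
      refine hle.trans ?_
      have h5 : (if z ∈ fat G q m S then Real.exp (1 - (m : ℝ)) else 0) = Real.exp (1 - (m : ℝ)) :=
        if_pos hm
      rw [← h5]
      refine Finset.single_le_sum
        (f := fun m : ℕ => if z ∈ fat G q m S then Real.exp (1 - (m : ℝ)) else 0) (fun k _ => ?_)
        (Finset.mem_Icc.2 ⟨hm1, hmM⟩)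
      split_ifs
      · exact (Real.exp_pos _).le
      · exact le_rfl
    refine (Finset.sum_le_sum hpt).trans ?_
    rw [Finset.sum_comm]
    refine Finset.sum_le_sum fun m _ => ?_
    rw [← Finset.sum_filter, Finset.sum_const, nsmul_eq_mul, mul_comm]
    apply mul_le_mul_of_nonneg_left _ (Real.exp_pos _).le
    have h6 : (Z1.filter (fun z => z ∈ fat G q m S)).card ≤ (fat G q m S).card :=
      Finset.card_le_card fun z hz => (Finset.mem_filter.1 hz).2
    exact_mod_cast h6

end Vale.Agent.P165.BS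
end

section
open Finset

set_option linter.unusedSectionVars false

namespace Vale.Agent.P165.LF

open Vale.Agent.P151 (Ex Cn cl csz edgesIn EV con tau)

variable {V : Type} [DecidableEq V]

/-- The sprinkling estimate for a fixed target set `Q`. -/
theorem sprinkle_fixed {p q s : ℝ} (hq0 : 0 ≤ q) (h1 : q ≤ 1)
    (hs0 : 0 ≤ s) (hs1 : s ≤ 1) (hpqs : 1 - q = (1 - p) * (1 - s))
    (Λ : Finset (Sym2 V)) (x : V) (Q : Set V) :
    s * Ex q Λ (fun S => ind (∃ y ∈ Q, Cn S x y)) ≤
      Ex p Λ (fun T => Ex s Λ (fun R => ind (∃ y ∈ Q, Cn ((T ∩ offE Λ Q) ∪ R) x y))) := by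
  classical
  set O := offE Λ Q with hO
  have hOΛ : O ⊆ Λ := offE_subset Λ Q
  set D := Λ \ O with hD
  have hd : Disjoint O D := Finset.disjoint_sdiff
  have hΛ : Λ = O ∪ D := (Finset.union_sdiff_of_subset hOΛ).symm
  -- the right-hand side
  have hR : Ex p Λ (fun T => Ex s Λ (fun R => ind (∃ y ∈ Q, Cn ((T ∩ O) ∪ R) x y))) =
      Ex q O (fun U => Ex s D (fun R => ind (∃ y ∈ Q, Cn (U ∪ R) x y))) := by
    rw [Ex_offE p Λ Q (fun T => Ex s Λ (fun R => ind (∃ y ∈ Q, Cn (T ∪ R) x y))),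
      Vale.Agent.P151.Ex_superpose hpqs O
        (fun U => Ex s D (fun R => ind (∃ y ∈ Q, Cn (U ∪ R) x y)))]
    refine Vale.Agent.P151.Ex_congr p fun T _ => ?_
    rw [hΛ, Vale.Agent.P151.Ex_union s hd]
    refine Vale.Agent.P151.Ex_congr s fun R1 _ => ?_
    refine Vale.Agent.P151.Ex_congr s fun R2 _ => ?_
    rw [Finset.union_assoc]
  have hL : Ex q Λ (fun S => ind (∃ y ∈ Q, Cn S x y)) =
      Ex q O (fun U => Ex q D (fun R => ind (∃ y ∈ Q, Cn (U ∪ R) x y))) := by
    rw [hΛ, Vale.Agent.P151.Ex_union q hd]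
  rw [hR, hL, ← Vale.Agent.P151.Ex_const_mul]
  refine Vale.Agent.P151.Ex_mono hq0 h1 fun U hU => ?_
  have hle1 : Ex q D (fun R => ind (∃ y ∈ Q, Cn (U ∪ R) x y)) ≤ 1 :=
    Vale.Agent.P151.Ex_le_const hq0 h1 fun _ _ => ind_le_one _
  by_cases hxQ : x ∈ Q
  · have e1 : Ex s D (fun R => ind (∃ y ∈ Q, Cn (U ∪ R) x y)) = 1 := by
      rw [Vale.Agent.P151.Ex_congr s (G := fun _ => (1 : ℝ))
        (fun R _ => ind_true ⟨x, hxQ, Cn.refl _ x⟩)]
      simp
    rw [e1]
    nlinarith
  · by_cases hex : ∃ u v, s(u, v) ∈ D ∧ Cn U x u ∧ v ∈ Q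
    · obtain ⟨u, v, huv, hu, hv⟩ := hex
      have e2 : s ≤ Ex s D (fun R => ind (∃ y ∈ Q, Cn (U ∪ R) x y)) := by
        have e3 : Ex s D (fun R => ind (s(u, v) ∈ R)) = s := by
          have hsub : {s(u, v)} ⊆ D := Finset.singleton_subset_iff.2 huv
          rw [Vale.Agent.P151.Ex_restrict s hsub (F := fun R => ind (s(u, v) ∈ R))
            (fun R _ => ind_congr (by simp))]
          have : ({s(u, v)} : Finset (Sym2 V)) = insert s(u, v) ∅ := rfl
          rw [this, Vale.Agent.P151.Ex_insert s (Finset.notMem_empty _)]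
          simp [ind]
        calc s = Ex s D (fun R => ind (s(u, v) ∈ R)) := e3.symm
          _ ≤ _ := Vale.Agent.P151.Ex_mono hs0 hs1 fun R _ => ind_mono fun hR =>
            ⟨v, hv, (hu.mono Finset.subset_union_left).trans
              (Vale.Agent.P151.Cn_of_mem (Finset.mem_union_right _ hR))⟩
      nlinarith
    · have e4 : Ex q D (fun R => ind (∃ y ∈ Q, Cn (U ∪ R) x y)) = 0 := by
        rw [Vale.Agent.P151.Ex_congr q (G := fun _ => (0 : ℝ)) (fun R hR => ?_)]
        · simp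
        · refine ind_false ?_
          rintro ⟨y, hyQ, hy⟩
          have key : y ∈ {u | Cn U x u ∧ u ∉ Q} := by
            refine Vale.Agent.P151.Cn_closed (S := U ∪ R) ?_ ⟨Cn.refl _ x, hxQ⟩ hy
            rintro u ⟨hu, huQ⟩ v huv
            rw [Finset.mem_union] at huv
            rcases huv with huv | huv
            · exact ⟨hu.trans (Vale.Agent.P151.Cn_of_mem huv),
                (mem_offE.1 (hU huv)).2 v (Sym2.mem_mk_right u v)⟩
            · exfalso
              have huD := hR huv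
              apply hex
              refine ⟨u, v, huD, hu, ?_⟩
              by_contra hvQ
              rw [hD, Finset.mem_sdiff] at huD
              apply huD.2
              rw [hO, mem_offE]
              refine ⟨huD.1, fun w hw => ?_⟩
              rcases Sym2.mem_iff.1 hw with rfl | rfl
              · exact huQ
              · exact hvQ
          exact key.2 hyQ
      rw [e4, mul_zero]
      exact Vale.Agent.P151.Ex_nonneg hs0 hs1 fun _ _ => ind_nonneg _

/-- Sprinkling inequality: if the cluster of `x` at level `q` meets the cluster of `B` in an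
independent configuration at level `p < q`, then with probability at least `s = (q-p)/(1-p)` they
can be connected at level `q`. -/
theorem sprinkle_hit {p q : ℝ} (h0 : 0 ≤ p) (hpq : p ≤ q) (hp1 : p < 1) (h1 : q ≤ 1)
    (Λ : Finset (Sym2 V)) (x : V) (B : Set V) :
    (q - p) / (1 - p) * Ex q Λ (fun S => Ex p Λ (fun T => ind (∃ y ∈ clS T B, Cn S x y))) ≤
      Ex q Λ (hit x B) := by
  classical
  set s : ℝ := (q - p) / (1 - p) with hs
  have hp : (0 : ℝ) < 1 - p := by linarith
  have hs0 : 0 ≤ s := div_nonneg (by linarith) hp.le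
  have hs1 : s ≤ 1 := by
    rw [hs, div_le_one hp]
    linarith
  have hpqs : 1 - q = (1 - p) * (1 - s) := by
    rw [hs]
    field_simp
    ring
  have hq0 : 0 ≤ q := h0.trans hpq
  have hA : Ex q Λ (hit x B) = Ex p Λ (fun T => Ex s Λ (fun R => hit x B (T ∪ R))) :=
    Vale.Agent.P151.Ex_superpose hpqs Λ (hit x B)
  have hB : Ex p Λ (fun T => Ex s Λ (fun R =>
      ind (∃ y ∈ clS T B, Cn ((T ∩ offE Λ (clS T B)) ∪ R) x y))) ≤
      Ex p Λ (fun T => Ex s Λ (fun R => hit x B (T ∪ R))) := by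
    refine Vale.Agent.P151.Ex_mono h0 hp1.le fun T _ =>
      Vale.Agent.P151.Ex_mono hs0 hs1 fun R _ => ind_mono ?_
    rintro ⟨y, ⟨b, hb, hby⟩, hy⟩
    refine ⟨b, hb, (hy.mono ?_).trans (hby.symm.mono Finset.subset_union_left)⟩
    exact Finset.union_subset_union Finset.inter_subset_left Finset.Subset.rfl
  have hC := explore p Λ B (fun Q U => Ex s Λ (fun R => ind (∃ y ∈ Q, Cn (U ∪ R) x y)))
  rw [hA]
  refine le_trans ?_ hB
  rw [hC, Vale.Agent.P151.Ex_comm, ← Vale.Agent.P151.Ex_const_mul]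
  exact Vale.Agent.P151.Ex_mono h0 hp1.le fun T _ =>
    sprinkle_fixed hq0 h1 hs0 hs1 hpqs Λ x (clS T B)

end Vale.Agent.P165.LF
end

section
open Finset

set_option linter.unusedSectionVars false

namespace Vale.Agent.P165.LF

open Vale.Agent.P151 (Ex Cn cl csz edgesIn EV con tau)

variable {V : Type} [DecidableEq V]

lemma mp_clS_single (S : Finset (Sym2 V)) (y : V) : clS S {y} = (cl S y : Set V) := by
  ext z
  constructor
  · rintro ⟨b, hb, hc⟩
    rw [Set.mem_singleton_iff] at hb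
    subst hb
    exact Finset.mem_coe.2 (Vale.Agent.P151.mem_cl.2 hc)
  · intro hz
    exact ⟨y, rfl, Vale.Agent.P151.mem_cl.1 (Finset.mem_coe.1 hz)⟩

/-- The two-point estimate behind the second moment. -/
lemma mp_pair {p : ℝ} (h0 : 0 ≤ p) (h1 : p ≤ 1) (Λ : Finset (Sym2 V)) (B : Set V) (L : ℕ)
    (y z : V) :
    Ex p Λ (fun S => hit y B S * ind (csz S y ≤ L) * hit z B S * ind (¬ Cn S y z)) ≤
      Ex p Λ (fun S => hit y B S * ind (csz S y ≤ L)) * Ex p Λ (hit z B) := by
  classical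
  set a : Set V → ℝ := fun Q => ind (∃ b ∈ B, b ∈ Q) * ind (Q.ncard ≤ L) with ha
  have ha0 : ∀ Q, 0 ≤ a Q := fun Q => mul_nonneg (ind_nonneg _) (ind_nonneg _)
  have haw : ∀ S, a (clS S {y}) = hit y B S * ind (csz S y ≤ L) := by
    intro S
    rw [ha, mp_clS_single]
    change ind (∃ b ∈ B, b ∈ (cl S y : Set V)) * ind ((cl S y : Set V).ncard ≤ L) = _
    rw [Set.ncard_coe_finset]
    congr 1
    apply ind_congr
    constructor
    · rintro ⟨b, hb, hc⟩
      exact ⟨b, hb, Vale.Agent.P151.mem_cl.1 (Finset.mem_coe.1 hc)⟩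
    · rintro ⟨b, hb, hc⟩
      exact ⟨b, hb, Finset.mem_coe.2 (Vale.Agent.P151.mem_cl.2 hc)⟩
  have hH : Monotone (hit z B : Finset (Sym2 V) → ℝ) := by
    intro S T hST
    exact ind_mono (fun ⟨b, hb, hc⟩ => ⟨b, hb, Cn.mono hST hc⟩)
  have key := explore_le h0 h1 Λ {y} a ha0 (hit z B) hH (fun S => ind_nonneg _)
  have e1 : Ex p Λ (fun S => a (clS S {y})) =
      Ex p Λ (fun S => hit y B S * ind (csz S y ≤ L)) :=
    Vale.Agent.P151.Ex_congr p (fun S _ => haw S)
  rw [e1] at key
  refine (Vale.Agent.P151.Ex_mono h0 h1 ?_).trans key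
  intro S hS
  change _ ≤ a (clS S {y}) * hit z B (S ∩ offE Λ (clS S {y}))
  rw [haw S]
  have w0 : 0 ≤ hit y B S * ind (csz S y ≤ L) := mul_nonneg (ind_nonneg _) (ind_nonneg _)
  rw [mul_assoc]
  apply mul_le_mul_of_nonneg_left _ w0
  by_cases hc : Cn S y z
  · rw [ind_false (not_not.2 hc), mul_zero]
    exact ind_nonneg _
  · rw [ind_true hc, mul_one]
    apply ind_mono
    rintro ⟨b, hb, hzb⟩
    refine ⟨b, hb, Cn_off hS ?_ hzb⟩
    intro hz
    rw [mp_clS_single] at hz
    exact hc (Vale.Agent.P151.mem_cl.1 (Finset.mem_coe.1 hz))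

/-- Second moment: a set `A'` of points each having chance at least `h` to reach `B`, and small
clusters, reaches `B` with probability at least `(h|A'|/2)/(L + h|A'|)`. -/
theorem many_points {p : ℝ} (h0 : 0 ≤ p) (h1 : p ≤ 1) (Λ : Finset (Sym2 V)) (A' : Finset V)
    (B : Set V) (L : ℕ) (hL : 1 ≤ L) {h : ℝ} (hpos : 0 < h)
    (hh : ∀ y ∈ A', h ≤ Ex p Λ (hit y B))
    (ht : ∀ y ∈ A', Ex p Λ (fun S => ind (L < csz S y)) ≤ h / 2) :
    (h * A'.card / 2) / (L + h * A'.card) ≤
      Ex p Λ (fun S => ind (∃ y ∈ A', ∃ b ∈ B, Cn S y b)) := by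
  classical
  set w : V → Finset (Sym2 V) → ℝ := fun y S => hit y B S * ind (csz S y ≤ L) with hw
  have w0 : ∀ y S, 0 ≤ w y S := fun y S => mul_nonneg (ind_nonneg _) (ind_nonneg _)
  have whit : ∀ y S, w y S ≤ hit y B S := fun y S =>
    mul_le_of_le_one_right (ind_nonneg _) (ind_le_one _)
  have hle : ∀ y S, hit y B S ≤ w y S + ind (L < csz S y) := by
    intro y S
    by_cases hc : csz S y ≤ L
    · have e : w y S = hit y B S := by rw [hw]; simp only; rw [ind_true hc, mul_one]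
      rw [e]
      have := ind_nonneg (L < csz S y)
      linarith
    · rw [ind_true (not_le.1 hc)]
      have e1 := w0 y S
      have e2 : hit y B S ≤ 1 := ind_le_one _
      linarith
  set b : V → ℝ := fun y => Ex p Λ (w y) with hb
  have hb1 : ∀ y ∈ A', Ex p Λ (hit y B) ≤ b y + h / 2 := by
    intro y hy
    have e1 : Ex p Λ (hit y B) ≤ Ex p Λ (fun S => w y S + ind (L < csz S y)) :=
      Vale.Agent.P151.Ex_mono h0 h1 (fun S _ => hle y S)
    rw [Vale.Agent.P151.Ex_add] at e1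
    have e2 := ht y hy
    exact e1.trans (by rw [hb]; exact add_le_add le_rfl e2)
  have hb2 : ∀ y ∈ A', h / 2 ≤ b y := by
    intro y hy
    have := hh y hy
    have := hb1 y hy
    linarith
  have hb3 : ∀ y ∈ A', Ex p Λ (hit y B) ≤ 2 * b y := by
    intro y hy
    have := hb2 y hy
    have := hb1 y hy
    linarith
  have hbpos : ∀ y ∈ A', 0 < b y := fun y hy => lt_of_lt_of_le (by linarith) (hb2 y hy)
  set a : V → ℝ := fun y => (h / 2) / b y with ha
  have a0 : ∀ y ∈ A', 0 ≤ a y := fun y hy => div_nonneg (by linarith) (hbpos y hy).le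
  have a1 : ∀ y ∈ A', a y ≤ 1 := fun y hy => (div_le_one (hbpos y hy)).2 (hb2 y hy)
  have ab : ∀ y ∈ A', a y * b y = h / 2 := fun y hy => div_mul_cancel₀ _ (hbpos y hy).ne'
  set Z : Finset (Sym2 V) → ℝ := fun S => ∑ y ∈ A', a y * w y S with hZ
  set m : ℝ := h * A'.card / 2 with hm
  have EZ : Ex p Λ Z = m := by
    rw [hZ, Vale.Agent.P151.Ex_sum]
    have : ∀ y ∈ A', Ex p Λ (fun S => a y * w y S) = h / 2 := by
      intro y hy
      rw [Vale.Agent.P151.Ex_const_mul]
      exact ab y hy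
    rw [Finset.sum_congr rfl this, Finset.sum_const, nsmul_eq_mul, hm]
    ring
  have hL0 : (1 : ℝ) ≤ L := by exact_mod_cast hL
  have hcard : (0 : ℝ) ≤ A'.card := Nat.cast_nonneg _
  set K : ℝ := L + h * A'.card with hK
  have hKpos : 0 < K := by
    have := mul_nonneg hpos.le hcard
    linarith
  -- pointwise bound of the square
  have sq : ∀ S, Z S ^ 2 ≤ L * Z S +
      ∑ y ∈ A', ∑ z ∈ A', a y * a z * (hit y B S * ind (csz S y ≤ L) * hit z B S *
        ind (¬ Cn S y z)) := by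
    intro S
    have e : Z S ^ 2 = ∑ y ∈ A', ∑ z ∈ A', (a y * w y S) * (a z * w z S) := by
      rw [sq, hZ]
      simp only
      rw [Finset.sum_mul_sum]
    rw [e]
    have e2 : (L : ℝ) * Z S = ∑ y ∈ A', L * (a y * w y S) := by
      rw [hZ]; simp only; rw [Finset.mul_sum]
    rw [e2, ← Finset.sum_add_distrib]
    apply Finset.sum_le_sum
    intro y hy
    have hsplit : ∀ z ∈ A', (a y * w y S) * (a z * w z S) ≤
        (a y * w y S) * ind (Cn S y z) + a y * a z * (hit y B S * ind (csz S y ≤ L) * hit z B S *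
        ind (¬ Cn S y z)) := by
      intro z hz
      have q1 : 0 ≤ a y * w y S := mul_nonneg (a0 y hy) (w0 y S)
      by_cases hc : Cn S y z
      · rw [ind_true hc, ind_false (not_not.2 hc), mul_zero, mul_zero, add_zero]
        apply mul_le_mul_of_nonneg_left _ q1
        have : w z S ≤ 1 := (whit z S).trans (ind_le_one _)
        exact mul_le_one₀ (a1 z hz) (w0 z S) this
      · rw [ind_false hc, ind_true hc, mul_zero, mul_one, zero_add]
        have : (a y * w y S) * (a z * w z S) ≤ (a y * w y S) * (a z * hit z B S) :=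
          mul_le_mul_of_nonneg_left (mul_le_mul_of_nonneg_left (whit z S) (a0 z hz)) q1
        refine this.trans (le_of_eq ?_)
        rw [hw]
        simp only
        ring
    refine (Finset.sum_le_sum hsplit).trans ?_
    rw [Finset.sum_add_distrib]
    apply add_le_add _ le_rfl
    rw [← Finset.mul_sum]
    have q1 : 0 ≤ a y * w y S := mul_nonneg (a0 y hy) (w0 y S)
    by_cases hc : csz S y ≤ L
    · rw [mul_comm (L : ℝ)]
      apply mul_le_mul_of_nonneg_left _ q1
      have : ∑ z ∈ A', ind (Cn S y z) = ((A'.filter (fun z => Cn S y z)).card : ℝ) := by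
        rw [Finset.card_filter]
        push_cast
        apply Finset.sum_congr rfl
        intro z _
        by_cases hz : Cn S y z
        · rw [ind_true hz, if_pos hz]
        · rw [ind_false hz, if_neg hz]
      rw [this]
      have h2 : (A'.filter (fun z => Cn S y z)).card ≤ csz S y := by
        apply Finset.card_le_card
        intro z hz
        exact Vale.Agent.P151.mem_cl.2 (Finset.mem_filter.1 hz).2
      exact_mod_cast h2.trans hc
    · have e : w y S = 0 := by rw [hw]; simp only; rw [ind_false hc, mul_zero]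
      rw [e, mul_zero, zero_mul, mul_zero]
  have EZ2 : Ex p Λ (fun S => Z S ^ 2) ≤ m * K := by
    refine (Vale.Agent.P151.Ex_mono h0 h1 (fun S _ => sq S)).trans ?_
    have e1 : Ex p Λ (fun S => Z S) = m := EZ
    rw [Vale.Agent.P151.Ex_add, Vale.Agent.P151.Ex_const_mul, e1, Vale.Agent.P151.Ex_sum]
    have e2 : ∀ y ∈ A', Ex p Λ (fun S => ∑ z ∈ A', a y * a z *
        (hit y B S * ind (csz S y ≤ L) * hit z B S * ind (¬ Cn S y z))) ≤
        ∑ z ∈ A', h ^ 2 / 2 := by
      intro y hy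
      rw [Vale.Agent.P151.Ex_sum]
      apply Finset.sum_le_sum
      intro z hz
      rw [Vale.Agent.P151.Ex_const_mul]
      have k1 := mp_pair h0 h1 Λ B L y z
      have k2 : Ex p Λ (fun S => hit y B S * ind (csz S y ≤ L)) * Ex p Λ (hit z B) ≤
          b y * (2 * b z) := mul_le_mul_of_nonneg_left (hb3 z hz) (hbpos y hy).le
      calc _ ≤ a y * a z * (b y * (2 * b z)) :=
            mul_le_mul_of_nonneg_left (k1.trans k2) (mul_nonneg (a0 y hy) (a0 z hz))
        _ = 2 * (a y * b y) * (a z * b z) := by ring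
        _ = h ^ 2 / 2 := by rw [ab y hy, ab z hz]; ring
    have e3 := Finset.sum_le_sum e2
    rw [Finset.sum_const, Finset.sum_const, nsmul_eq_mul, nsmul_eq_mul] at e3
    refine (add_le_add le_rfl e3).trans (le_of_eq ?_)
    rw [hm, hK]
    ring
  set J : Finset (Sym2 V) → ℝ := fun S => ind (∃ y ∈ A', ∃ b ∈ B, Cn S y b) with hJ
  have hpt : ∀ S, Z S ≤ (1 / (2 * K)) * Z S ^ 2 + (K / 2) * J S := by
    intro S
    by_cases hc : ∃ y ∈ A', ∃ b ∈ B, Cn S y b
    · have : J S = 1 := ind_true hc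
      rw [this]
      have e : (1 / (2 * K)) * Z S ^ 2 + (K / 2) * 1 - Z S = (Z S - K) ^ 2 / (2 * K) := by
        field_simp
        ring
      have : 0 ≤ (Z S - K) ^ 2 / (2 * K) := div_nonneg (sq_nonneg _) (by linarith)
      linarith
    · have e1 : J S = 0 := ind_false hc
      have e2 : Z S = 0 := by
        rw [hZ]
        simp only
        apply Finset.sum_eq_zero
        intro y hy
        have : hit y B S = 0 := ind_false (fun ⟨b, hb, hcn⟩ => hc ⟨y, hy, b, hb, hcn⟩)
        rw [hw]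
        simp only
        rw [this, zero_mul, mul_zero]
      rw [e1, e2]
      norm_num
  have fin := Vale.Agent.P151.Ex_mono h0 h1 (Λ := Λ) (fun S _ => hpt S)
  rw [Vale.Agent.P151.Ex_add, Vale.Agent.P151.Ex_const_mul, Vale.Agent.P151.Ex_const_mul] at fin
  have e1 : Ex p Λ (fun S => Z S) = m := EZ
  rw [e1] at fin
  have hm0 : 0 ≤ m := by rw [hm]; positivity
  have k1 : (1 / (2 * K)) * Ex p Λ (fun S => Z S ^ 2) ≤ m / 2 := by
    refine (mul_le_mul_of_nonneg_left EZ2 (by positivity)).trans (le_of_eq ?_)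
    field_simp
  rw [div_le_iff₀ hKpos]
  change m ≤ Ex p Λ J * K
  have : m ≤ m / 2 + K / 2 * Ex p Λ (fun S => J S) := fin.trans (add_le_add k1 le_rfl)
  have e : Ex p Λ (fun S => J S) = Ex p Λ J := rfl
  rw [e] at this
  linarith

end Vale.Agent.P165.LF
end

section
/-! Sprinkling and second moment in finite volume. -/

open Finset

set_option linter.unusedSectionVars false

namespace Vale.Agent.P165.BS

open Vale.Agent.P151 (Ex Cn cl csz edgesIn EV con tau)
open Vale.Agent.P165.LF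

variable {V : Type} [DecidableEq V] {G : SimpleGraph V}

/-- Finite volume: if every point of `L` is connected to `S` at level `p` with probability at least
`h`, and the clusters at level `p` are small, then at level `q` the point `x` is connected to `S`
at least with the averaged second-moment probability. -/
theorem clump_fin {p q : ℝ} (h0 : 0 ≤ p) (hpq : p ≤ q) (hp1 : p < 1) (h1 : q ≤ 1)
    (Λ : Finset (Sym2 V)) (S L : Finset V) (R : ℕ) (hR : 1 ≤ R) {h : ℝ} (hpos : 0 < h)
    (hh : ∀ y ∈ L, h ≤ Ex p Λ (hit y (S : Set V)))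
    (ht : ∀ y ∈ L, Ex p Λ (fun T => ind (R < csz T y)) ≤ h / 2) (x : V) :
    (q - p) / (1 - p) * Ex q Λ (fun T => (h * cnt x (L : Set V) T / 2) /
      (R + h * cnt x (L : Set V) T)) ≤ Ex q Λ (hit x (S : Set V)) := by
  classical
  refine le_trans ?_ (sprinkle_hit h0 hpq hp1 h1 Λ x (S : Set V))
  refine mul_le_mul_of_nonneg_left ?_ (div_nonneg (by linarith) (by linarith))
  refine Vale.Agent.P151.Ex_mono (h0.trans hpq) h1 fun W _ => ?_
  set A' : Finset V := (cl W x).filter (fun y => y ∈ (L : Set V)) with hA'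
  have hcard : cnt x (L : Set V) W = A'.card := by
    unfold cnt
    rw [hA']
    congr
  have hAL : ∀ y ∈ A', y ∈ L := fun y hy => Finset.mem_coe.1 (Finset.mem_filter.1 hy).2
  have hm := many_points h0 hp1.le Λ A' (S : Set V) R hR hpos (fun y hy => hh y (hAL y hy))
    (fun y hy => ht y (hAL y hy))
  rw [hcard]
  refine hm.trans (Vale.Agent.P151.Ex_mono h0 hp1.le fun T _ => ind_mono ?_)
  rintro ⟨y, hy, b, hb, hyb⟩
  exact ⟨y, ⟨b, hb, hyb.symm⟩, Vale.Agent.P151.mem_cl.1 (Finset.mem_filter.1 hy).1⟩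

end Vale.Agent.P165.BS
end

section
/-! The basic inequality for the bootstrap argument, in finite volume. -/

open Finset

set_option linter.unusedSectionVars false

namespace Vale.Agent.P165.BS

open Vale.Agent.P151 (Ex Cn cl csz edgesIn EV con tau)
open Vale.Agent.P165.LF

variable {V : Type} [DecidableEq V] {G : SimpleGraph V}

/-- Finite volume form: `W` consists of points of `L` which are badly connected to `S` at
level `q`. -/
theorem stepB_fin {p q : ℝ} (h0 : 0 ≤ p) (hpq : p ≤ q) (hp1 : p < 1) (h1 : q ≤ 1)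
    (F : Finset V) (S L W : Finset V) (hLF : L ⊆ F) (hWL : W ⊆ L) (R : ℕ) (hR : 1 ≤ R)
    {h : ℝ} (hpos : 0 < h)
    (hh : ∀ y ∈ L, h ≤ Ex p (edgesIn G F) (hit y (S : Set V)))
    (ht : ∀ y ∈ L, Ex p (edgesIn G F) (fun T => ind (R < csz T y)) ≤ h / 2)
    {X c0 : ℝ} (hX : 0 < X) (hc0 : 0 < c0) (hup : ∀ z, vol G q z ≤ X)
    (hlo : ∀ w ∈ W, c0 * X ≤ vol G q (w, F))
    (hsm : ∀ w ∈ W, Ex q (edgesIn G F) (hit w (S : Set V)) ≤
      (q - p) / (1 - p) * (c0 ^ 2 / (16 * X))) :
    (q - p) / (1 - p) * (h / (8 * R)) * (c0 * X) * W.card ≤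
      ∑ v ∈ F, Ex q (edgesIn G F) (hit v (S : Set V)) := by
  classical
  have hq0 : 0 ≤ q := h0.trans hpq
  set Λ := edgesIn G F with hΛ
  set κ : ℝ := (q - p) / (1 - p) with hκ
  have hκ0 : 0 ≤ κ := div_nonneg (by linarith) (by linarith)
  have hR0 : (0 : ℝ) < R := by exact_mod_cast hR
  have hclump := fun x => clump_fin h0 hpq hp1 h1 Λ S L R hR hpos hh ht x
  rw [← hκ] at hclump
  -- pointwise double counting
  set w : Finset V → ℝ := fun C => (h / 2) / (R + h * ((C.filter (fun y => y ∈ (L : Set V))).card))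
    with hw
  have hw0 : ∀ C, 0 ≤ w C := fun C => by
    simp only [hw]; positivity
  have hwcl : ∀ (T : Finset (Sym2 V)) (x : V),
      (h * cnt x (L : Set V) T / 2) / (R + h * cnt x (L : Set V) T) =
        (cnt x (L : Set V) T : ℝ) * w (cl T x) := by
    intro T x
    have e : (((cl T x).filter (fun y => y ∈ (L : Set V))).card : ℝ) = cnt x (L : Set V) T := by
      unfold cnt
      congr!
    simp only [hw]
    rw [e]
    ring
  rcases hκ0.eq_or_lt with hk | hk
  · rw [← hk]
    have : 0 ≤ ∑ v ∈ F, Ex q Λ (hit v (S : Set V)) :=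
      Finset.sum_nonneg fun v _ => Vale.Agent.P151.Ex_nonneg hq0 h1 (fun T _ => hit_nonneg _ _ _)
    simpa using this
  -- the probability of many points
  have hP : ∀ x ∈ W, Ex q Λ (fun T => ind ((R : ℝ) < h * cnt x (L : Set V) T)) ≤
      c0 ^ 2 / (4 * X) := by
    intro x hx
    have h2 : (1 / 4 : ℝ) * Ex q Λ (fun T => ind ((R : ℝ) < h * cnt x (L : Set V) T)) ≤
        Ex q Λ (fun T => (h * cnt x (L : Set V) T / 2) / (R + h * cnt x (L : Set V) T)) := by
      rw [← Vale.Agent.P151.Ex_const_mul]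
      refine Vale.Agent.P151.Ex_mono hq0 h1 fun T _ => ?_
      have hN : (0 : ℝ) ≤ h * cnt x (L : Set V) T := by positivity
      by_cases hc : (R : ℝ) < h * cnt x (L : Set V) T
      · rw [ind_true hc, mul_one, le_div_iff₀ (by positivity)]
        linarith
      · rw [ind_false hc, mul_zero]
        positivity
    have h3 := (mul_le_mul_of_nonneg_left h2 hκ0).trans ((hclump x).trans (hsm x hx))
    have h4 := le_of_mul_le_mul_left h3 hk
    have h5 : c0 ^ 2 / (4 * X) = 4 * (c0 ^ 2 / (16 * X)) := by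
      field_simp
      norm_num
    rw [h5]
    linarith
  -- expected size without many points
  have hE : ∀ x ∈ W, c0 * X / 2 ≤ Ex q Λ (fun T => (csz T x : ℝ) -
      (csz T x : ℝ) * ind ((R : ℝ) < h * cnt x (L : Set V) T)) := by
    intro x hx
    rw [Vale.Agent.P151.Ex_sub]
    have h2 : Ex q Λ (fun T => (csz T x : ℝ) * ind ((R : ℝ) < h * cnt x (L : Set V) T)) ≤
        c0 * X / 2 := by
      have h3 : Ex q Λ (fun T => (csz T x : ℝ) * ind ((R : ℝ) < h * cnt x (L : Set V) T)) ≤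
          Ex q Λ (fun T => c0 / (4 * X ^ 2) * (csz T x : ℝ) ^ 2 +
            X ^ 2 / c0 * ind ((R : ℝ) < h * cnt x (L : Set V) T)) := by
        refine Vale.Agent.P151.Ex_mono hq0 h1 fun T _ => ?_
        by_cases hc : (R : ℝ) < h * cnt x (L : Set V) T
        · rw [ind_true hc, mul_one, mul_one]
          have h6 : 0 ≤ (c0 * (csz T x : ℝ) - 2 * X ^ 2) ^ 2 / (4 * X ^ 2 * c0) := by positivity
          have h7 : (c0 * (csz T x : ℝ) - 2 * X ^ 2) ^ 2 / (4 * X ^ 2 * c0) =
              c0 / (4 * X ^ 2) * (csz T x : ℝ) ^ 2 + X ^ 2 / c0 - (csz T x : ℝ) := by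
            field_simp
            ring
          linarith
        · rw [ind_false hc, mul_zero, mul_zero, add_zero]
          positivity
      rw [Vale.Agent.P151.Ex_add, Vale.Agent.P151.Ex_const_mul,
        Vale.Agent.P151.Ex_const_mul] at h3
      have h8 := second_moment G hq0 h1 hup x F
      have h9 : c0 / (4 * X ^ 2) * Ex q Λ (fun T => (csz T x : ℝ) ^ 2) ≤
          c0 / (4 * X ^ 2) * X ^ 3 := by
        refine mul_le_mul_of_nonneg_left h8 (by positivity)
      have h10 : X ^ 2 / c0 * Ex q Λ (fun T => ind ((R : ℝ) < h * cnt x (L : Set V) T)) ≤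
          X ^ 2 / c0 * (c0 ^ 2 / (4 * X)) := by
        refine mul_le_mul_of_nonneg_left (hP x hx) (by positivity)
      have h11 : c0 / (4 * X ^ 2) * X ^ 3 + X ^ 2 / c0 * (c0 ^ 2 / (4 * X)) = c0 * X / 2 := by
        field_simp
        ring
      linarith
    have h12 := hlo x hx
    unfold vol at h12
    simp only at h12
    rw [← hΛ] at h12
    linarith
  calc κ * (h / (8 * R)) * (c0 * X) * W.card
      = κ * ∑ x ∈ W, h / (4 * R) * (c0 * X / 2) := by
        rw [Finset.sum_const, nsmul_eq_mul]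
        field_simp
        ring
    _ ≤ κ * ∑ x ∈ W, h / (4 * R) * Ex q Λ (fun T => (csz T x : ℝ) -
          (csz T x : ℝ) * ind ((R : ℝ) < h * cnt x (L : Set V) T)) := by
        refine mul_le_mul_of_nonneg_left (Finset.sum_le_sum fun x hx => ?_) hκ0
        exact mul_le_mul_of_nonneg_left (hE x hx) (by positivity)
    _ = κ * Ex q Λ (fun T => ∑ x ∈ W, h / (4 * R) * ((csz T x : ℝ) -
          (csz T x : ℝ) * ind ((R : ℝ) < h * cnt x (L : Set V) T))) := by
        rw [Vale.Agent.P151.Ex_sum]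
        congr 1
        refine Finset.sum_congr rfl fun x _ => ?_
        rw [Vale.Agent.P151.Ex_const_mul]
    _ ≤ κ * Ex q Λ (fun T => ∑ x ∈ F, (cnt x (L : Set V) T : ℝ) * w (cl T x)) := by
        refine mul_le_mul_of_nonneg_left (Vale.Agent.P151.Ex_mono hq0 h1 fun T hT => ?_) hκ0
        rw [sum_cnt_mul F L hLF hT w]
        refine (Finset.sum_le_sum fun x _ => ?_).trans
          (Finset.sum_le_sum_of_subset_of_nonneg hWL fun x _ _ =>
            mul_nonneg (Nat.cast_nonneg _) (hw0 _))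
        by_cases hc : (R : ℝ) < h * cnt x (L : Set V) T
        · rw [ind_true hc, mul_one, sub_self, mul_zero]
          exact mul_nonneg (Nat.cast_nonneg _) (hw0 _)
        · rw [ind_false hc, mul_zero, sub_zero, mul_comm]
          refine mul_le_mul_of_nonneg_left ?_ (Nat.cast_nonneg _)
          have e : (((cl T x).filter (fun y => y ∈ (L : Set V))).card : ℝ) =
              cnt x (L : Set V) T := by
            unfold cnt
            congr!
          simp only [hw]
          rw [e, div_le_div_iff₀ (by positivity) (by positivity)]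
          push Not at hc
          nlinarith
    _ = ∑ x ∈ F, κ * Ex q Λ (fun T => (h * cnt x (L : Set V) T / 2) /
          (R + h * cnt x (L : Set V) T)) := by
        rw [Vale.Agent.P151.Ex_sum, Finset.mul_sum]
        refine Finset.sum_congr rfl fun x _ => ?_
        congr 1
        refine Vale.Agent.P151.Ex_congr _ fun T _ => ?_
        rw [hwcl T x]
    _ ≤ ∑ v ∈ F, Ex q Λ (hit v (S : Set V)) := Finset.sum_le_sum fun x _ => hclump x

end Vale.Agent.P165.BS
end

section
/-! Good volumes. -/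

open Finset

set_option linter.unusedSectionVars false

namespace Vale.Agent.P165.BS

open Vale.Agent.P151 (Ex Cn cl csz edgesIn EV con tau)
open Vale.Agent.P165.LF

variable {V : Type} [DecidableEq V] {G : SimpleGraph V}

/-- The size `R` of the clusters at level `p` for the height `n`: linear in `n`; and every volume
containing `F0` is good. -/
theorem exists_good [G.LocallyFinite] [Infinite V] (hG : G.Connected)
    (hqt : IsQuasiTransitive G) {p : ℝ} (h0 : 0 < p) (hp : p < pc G) (h1 : p ≤ 1) :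
    ∃ C : ℝ, 1 ≤ C ∧ ∀ n : ℕ, ∃ R : ℕ, 1 ≤ R ∧ (R : ℝ) ≤ C * (1 + n) ∧
      ∀ (S L : Finset V), L ⊆ fat G p n S → ∃ F0 : Finset V, ∀ F, F0 ⊆ F →
        (∀ y ∈ L, Real.exp (-(n : ℝ)) / 2 ≤ Ex p (edgesIn G F) (hit y (S : Set V))) ∧
        (∀ y ∈ L, Ex p (edgesIn G F) (fun T => ind (R < csz T y)) ≤
          Real.exp (-(n : ℝ)) / 2 / 2) := by
  obtain ⟨lam, C0, hl, hC0, htail⟩ := tail_of_lt_pc hG hqt h0.le hp h1
  have hs : Sub G p := sub_of_lt_pc hG hqt h0.le hp h1
  obtain ⟨A, hA⟩ : ∃ A, A = max (Real.log (4 * C0)) 0 := ⟨_, rfl⟩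
  have hA0 : 0 ≤ A := by rw [hA]; exact le_max_right _ _
  have hA1 : Real.log (4 * C0) ≤ A := by rw [hA]; exact le_max_left _ _
  refine ⟨1 / lam + A / lam + 2, ?_, fun n => ?_⟩
  · have : 0 ≤ 1 / lam + A / lam := by positivity
    linarith
  have hn0 : (0 : ℝ) ≤ n := Nat.cast_nonneg n
  refine ⟨⌈((n : ℝ) + A) / lam⌉₊ + 1, by omega, ?_, fun S L hL => ?_⟩
  · have h2 : (⌈((n : ℝ) + A) / lam⌉₊ : ℝ) < ((n : ℝ) + A) / lam + 1 :=
      Nat.ceil_lt_add_one (by positivity)
    push_cast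
    have h3 : ((n : ℝ) + A) / lam = 1 / lam * n + A / lam := by ring
    have h4 : 0 ≤ 1 / lam := by positivity
    have h5 : 0 ≤ A / lam * n := by positivity
    have h6 : (1 / lam + A / lam + 2) * (1 + (n : ℝ)) =
        (1 / lam * n + A / lam + 2) + (1 / lam + A / lam * n + 2 * n) := by ring
    rw [h6]
    linarith
  · obtain ⟨F0, hF0⟩ := exists_hP_lt (G := G) h0.le h1 S L (c := Real.exp (-(n : ℝ)) / 2)
      (fun x hx => by
        have h2 := (mem_fat h0.le h1 hs).1 (hL hx)
        have h3 := Real.exp_pos (-(n : ℝ))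
        linarith)
    refine ⟨F0, fun F hF => ⟨fun y hy => (hF0 F hF y hy).le, fun y _ => ?_⟩⟩
    refine (htail y F _).trans ?_
    have h2 : ((n : ℝ) + A) / lam ≤ ((⌈((n : ℝ) + A) / lam⌉₊ + 1 : ℕ) : ℝ) := by
      have := Nat.le_ceil (((n : ℝ) + A) / lam)
      push_cast
      linarith
    have h3 : (n : ℝ) + Real.log (4 * C0) ≤ lam * ((⌈((n : ℝ) + A) / lam⌉₊ + 1 : ℕ) : ℝ) := by
      rw [div_le_iff₀ hl] at h2
      linarith
    have h4 : Real.exp (-(lam * ((⌈((n : ℝ) + A) / lam⌉₊ + 1 : ℕ) : ℝ))) ≤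
        Real.exp (-(n : ℝ)) * Real.exp (-Real.log (4 * C0)) := by
      rw [← Real.exp_add, Real.exp_le_exp]
      linarith
    have h5 : Real.exp (-Real.log (4 * C0)) = 1 / (4 * C0) := by
      rw [Real.exp_neg, Real.exp_log (by positivity), one_div]
    calc C0 * Real.exp (-(lam * ((⌈((n : ℝ) + A) / lam⌉₊ + 1 : ℕ) : ℝ)))
        ≤ C0 * (Real.exp (-(n : ℝ)) * Real.exp (-Real.log (4 * C0))) :=
          mul_le_mul_of_nonneg_left h4 hC0.le
      _ = Real.exp (-(n : ℝ)) / 2 / 2 := by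
          rw [h5]
          field_simp
          ring

end Vale.Agent.P165.BS
end

section
open Finset

set_option linter.unusedSectionVars false

namespace Vale.Agent.P165.LF

open Vale.Agent.P151 (Ex Cn cl csz edgesIn EV con tau)

variable {V : Type} [DecidableEq V]

private lemma cc_dist_aut {G : SimpleGraph V} (hG : G.Connected) (g : G ≃g G) (a b : V) :
    G.dist (g a) (g b) ≤ G.dist a b := by
  obtain ⟨w, hw⟩ := hG.exists_walk_length_eq_dist a b
  have h := SimpleGraph.dist_le (w.map g.toHom)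
  rw [SimpleGraph.Walk.length_map, hw] at h
  exact h

private lemma cc_vol_aut {G : SimpleGraph V} (g : G ≃g G) (q : ℝ) (z : V) (F : Finset V) :
    vol G q (g z, F.image g) = vol G q (z, F) := by
  show Ex q (edgesIn G (F.image g)) (fun S => (csz S (g z) : ℝ)) =
    Ex q (edgesIn G F) (fun S => (csz S z : ℝ))
  rw [Vale.Agent.P151.edgesIn_image, Vale.Agent.P151.Ex_image q _
    (Vale.Agent.P151.Sym2_map_inj g.injective)]
  congr 1
  funext S
  rw [Vale.Agent.P151.csz_image g.injective]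

private lemma cc_csz_mono (z : V) : Monotone (fun S : Finset (Sym2 V) => (csz S z : ℝ)) := by
  intro S T h
  exact Nat.cast_le.2 (Vale.Agent.P151.csz_mono h z)

private lemma cc_one {G : SimpleGraph V} (hG : G.Connected) {q : ℝ} (h0 : 0 ≤ q) (h1 : q ≤ 1)
    (x z : V) (F : Finset V) :
    ∃ F' : Finset V, q ^ G.dist x z * vol G q (z, F) ≤ vol G q (x, F') := by
  obtain ⟨F0, hF0⟩ := exists_finset_pow_dist_le hG x z
  refine ⟨F ∪ F0, ?_⟩
  have a1 := hF0 (F ∪ F0) Finset.subset_union_right q h0 h1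
  have a2 : vol G q (z, F) ≤ Ex q (edgesIn G (F ∪ F0)) (fun S => (csz S z : ℝ)) :=
    Vale.Agent.P151.Ex_edgesIn_mono h0 h1 (cc_csz_mono z) Finset.subset_union_left
  have a3 : 0 ≤ vol G q (z, F) := Vale.Agent.P151.Ex_nonneg h0 h1 fun S _ => Nat.cast_nonneg _
  have a4 : 0 ≤ Ex q (edgesIn G (F ∪ F0)) (con x z) :=
    Vale.Agent.P151.Ex_nonneg h0 h1 fun S _ => Vale.Agent.P151.con_nonneg x z S
  calc q ^ G.dist x z * vol G q (z, F)
      ≤ Ex q (edgesIn G (F ∪ F0)) (con x z) *
        Ex q (edgesIn G (F ∪ F0)) (fun S => (csz S z : ℝ)) := mul_le_mul a1 a2 a3 a4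
    _ ≤ Ex q (edgesIn G (F ∪ F0)) (fun S => con x z S * (csz S z : ℝ)) :=
        Vale.Agent.P151.harris h0 h1 _ (Vale.Agent.P151.con_mono x z) (cc_csz_mono z)
    _ ≤ vol G q (x, F ∪ F0) := by
        refine Vale.Agent.P151.Ex_mono h0 h1 fun S _ => ?_
        show con x z S * (csz S z : ℝ) ≤ (csz S x : ℝ)
        unfold con
        split_ifs with h
        · rw [one_mul, Vale.Agent.P151.csz_eq h]
        · rw [zero_mul]
          exact Nat.cast_nonneg _

/-- Lower bound for the expected cluster size of every vertex. -/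
theorem chi_comp (G : SimpleGraph V) [G.LocallyFinite] (hG : G.Connected)
    (hqt : IsQuasiTransitive G) {p2 : ℝ} (h0 : 0 < p2) (h1 : p2 ≤ 1) :
    ∃ c, 0 < c ∧ ∀ q, p2 ≤ q → q ≤ 1 → Sub G q → ∀ x,
      c * chi G q ≤ ⨆ F : Finset V, vol G q (x, F) := by
  obtain ⟨S, hS⟩ := hqt
  set D0 : ℕ := (S ×ˢ S).sup fun z => G.dist z.1 z.2 with hD0
  refine ⟨p2 ^ D0, pow_pos h0 _, ?_⟩
  intro q hq hq1 hsub x
  have hq0 : 0 < q := lt_of_lt_of_le h0 hq
  have hbdd : BddAbove (Set.range fun F : Finset V => vol G q (x, F)) := by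
    refine BddAbove.mono ?_ hsub
    rintro _ ⟨F, rfl⟩
    exact ⟨(x, F), rfl⟩
  have hne : Nonempty (V × Finset V) := ⟨(x, ∅)⟩
  have hc : 0 ≤ p2 ^ D0 := (pow_pos h0 _).le
  have h2 : p2 ^ D0 * chi G q = ⨆ z, p2 ^ D0 * vol G q z := Real.mul_iSup_of_nonneg hc _
  rw [h2]
  refine ciSup_le ?_
  rintro ⟨z, F⟩
  obtain ⟨y, hy, φ, hφ⟩ := hS z
  obtain ⟨y', hy', ψ, hψ⟩ := hS x
  have hgz : (φ.symm.trans ψ) z = ψ y := by
    rw [← hφ]
    show ψ (φ.symm (φ y)) = ψ y
    rw [RelIso.symm_apply_apply]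
  have hd : G.dist x ((φ.symm.trans ψ) z) ≤ D0 := by
    rw [hgz, ← hψ]
    refine (cc_dist_aut hG ψ y' y).trans ?_
    exact Finset.le_sup (f := fun z : V × V => G.dist z.1 z.2)
      (Finset.mem_product.2 ⟨hy', hy⟩ : (y', y) ∈ S ×ˢ S)
  obtain ⟨F', hF'⟩ := cc_one hG hq0.le hq1 x ((φ.symm.trans ψ) z) (F.image (φ.symm.trans ψ))
  rw [cc_vol_aut] at hF'
  refine le_trans ?_ (hF'.trans (le_ciSup hbdd F'))
  have a3 : 0 ≤ vol G q (z, F) :=
    Vale.Agent.P151.Ex_nonneg hq0.le hq1 fun S _ => Nat.cast_nonneg _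
  refine mul_le_mul_of_nonneg_right ?_ a3
  calc p2 ^ D0 ≤ q ^ D0 := pow_le_pow_left₀ h0.le hq _
    _ ≤ q ^ G.dist x ((φ.symm.trans ψ) z) := pow_le_pow_of_le_one hq0.le hq1 hd

end Vale.Agent.P165.LF
end

section
/-! Lower bound for the cluster size in finite volume. -/

open Finset

set_option linter.unusedSectionVars false

namespace Vale.Agent.P165.BS

open Vale.Agent.P151 (Ex Cn cl csz edgesIn EV con tau)
open Vale.Agent.P165.LF

variable {V : Type} [DecidableEq V] {G : SimpleGraph V}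

/-- The expected cluster size of every point of a finite set is comparable with `chi` in every
large finite volume. -/
theorem exists_vol_lower [G.LocallyFinite] [Infinite V] (hG : G.Connected)
    (hqt : IsQuasiTransitive G) {p2 : ℝ} (h0 : 0 < p2) (h1 : p2 ≤ 1) :
    ∃ c : ℝ, 0 < c ∧ c ≤ 1 ∧ ∀ q, p2 ≤ q → q ≤ 1 → Sub G q → ∀ L : Finset V,
      ∃ F0 : Finset V, ∀ F, F0 ⊆ F → ∀ a ∈ L, c * chi G q ≤ vol G q (a, F) := by
  obtain ⟨c0, hc0, hcomp⟩ := chi_comp G hG hqt h0 h1
  refine ⟨min (c0 / 2) 1, lt_min (by positivity) one_pos, min_le_right _ _, ?_⟩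
  intro q hq hq1 hsub L
  have hq0 : 0 ≤ q := h0.le.trans hq
  have hne : Nonempty V := inferInstance
  have hchi : 1 ≤ chi G q := one_le_chi hq0 hq1 hsub
  have hex : ∀ a : V, ∃ F : Finset V, c0 / 2 * chi G q < vol G q (a, F) := by
    intro a
    have h2 : c0 / 2 * chi G q < ⨆ F : Finset V, vol G q (a, F) := by
      refine lt_of_lt_of_le ?_ (hcomp q hq hq1 hsub a)
      have h3 : 0 < c0 * chi G q := mul_pos hc0 (lt_of_lt_of_le one_pos hchi)
      linarith
    exact exists_lt_of_lt_ciSup h2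
  choose Fa hFa using hex
  refine ⟨L.biUnion Fa, fun F hF a ha => ?_⟩
  have h4 : vol G q (a, Fa a) ≤ vol G q (a, F) :=
    Vale.Agent.P151.Ex_edgesIn_mono hq0 hq1 (csz_cast_mono a)
      ((Finset.subset_biUnion_of_mem Fa ha).trans hF)
  have h5 : min (c0 / 2) 1 * chi G q ≤ c0 / 2 * chi G q :=
    mul_le_mul_of_nonneg_right (min_le_left _ _) (le_trans zero_le_one hchi)
  exact h5.trans ((hFa a).le.trans h4)

end Vale.Agent.P165.BS
end

section
/-! The basic inequality for the bootstrap argument. -/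

open Finset

set_option linter.unusedSectionVars false

namespace Vale.Agent.P165.BS

open Vale.Agent.P151 (Ex Cn cl csz edgesIn EV con tau)
open Vale.Agent.P165.LF

variable {V : Type} [DecidableEq V] {G : SimpleGraph V}

/-- The points of the fattening of `S` at level `p` which are badly connected to `S` at level `q`
are controlled by `F_S(q)`. -/
theorem stepB [G.LocallyFinite] [Infinite V] (hG : G.Connected)
    (hqt : IsQuasiTransitive G) (hpc : pc G ≤ 1) (p p2 : ℝ) (h0 : 0 < p) (h1 : p < p2)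
    (h2 : p2 < pc G) :
    ∃ c C : ℝ, 0 < c ∧ 0 < C ∧ ∀ q, p2 ≤ q → q < pc G →
    ∀ (S : Finset V) (n m : ℕ), C * chi G q ≤ Real.exp m →
      c * (Real.exp (-(n : ℝ)) / (1 + n)) * chi G q * ((fat G p n S \ fat G q m S).card : ℝ) ≤
        FS G q S := by
  have hne : Nonempty V := hG.nonempty
  have hp1 : p < 1 := (h1.trans h2).trans_le hpc
  obtain ⟨C1, hC1, hgood⟩ := exists_good hG hqt h0 (h1.trans h2) hp1.le
  obtain ⟨c0, hc0, hc01, hvol⟩ := exists_vol_lower hG hqt (h0.trans h1) (h2.le.trans hpc)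
  set κ0 : ℝ := (p2 - p) / (1 - p) with hκ0
  have hκ0p : 0 < κ0 := div_pos (by linarith) (by linarith)
  refine ⟨κ0 * c0 / (16 * C1), 16 / (κ0 * c0 ^ 2), by positivity, by positivity,
    fun q hq2 hq S n m hm => ?_⟩
  have hq0 : 0 < q := (h0.trans h1).trans_le hq2
  have hq1 : q ≤ 1 := hq.le.trans hpc
  have hs : Sub G q := sub_of_lt_pc hG hqt hq0.le hq hq1
  have hX1 : 1 ≤ chi G q := one_le_chi hq0.le hq1 hs
  have hX0 : 0 < chi G q := one_pos.trans_le hX1
  set X := chi G q with hX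
  obtain ⟨R, hR, hRC, hR2⟩ := hgood n
  obtain ⟨F0, hF0⟩ := hR2 S (fat G p n S) (Finset.Subset.refl _)
  obtain ⟨F1, hF1⟩ := hvol q hq2 hq1 hs (fat G p n S)
  set F := F0 ∪ F1 ∪ fat G p n S with hF
  have hFF0 : F0 ⊆ F := subset_union_left.trans subset_union_left
  have hFF1 : F1 ⊆ F := subset_union_right.trans subset_union_left
  have hFL : fat G p n S ⊆ F := subset_union_right
  have hκ : κ0 ≤ (q - p) / (1 - p) := by
    rw [hκ0]
    have : 0 < 1 - p := by linarith
    gcongr
  have hκp : 0 < (q - p) / (1 - p) := hκ0p.trans_le hκ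
  have hRp : (0 : ℝ) < R := by exact_mod_cast hR
  have key := stepB_fin (G := G) h0.le (h1.le.trans hq2) hp1 hq1 F S (fat G p n S)
    (fat G p n S \ fat G q m S) hFL sdiff_subset R hR (h := Real.exp (-(n : ℝ)) / 2)
    (by positivity) (hF0 F hFF0).1 (hF0 F hFF0).2 hX0 hc0
    (fun z => csz_le_chi hs z.1 z.2)
    (fun w hw => hF1 F hFF1 w (mem_sdiff.1 hw).1)
    (fun w hw => by
      have hw2 : ¬ w ∈ fat G q m S := (mem_sdiff.1 hw).2
      rw [mem_fat hq0.le hq1 hs, not_le] at hw2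
      have h3 : Ex q (edgesIn G F) (hit w (S : Set V)) ≤ Real.exp (-(m : ℝ)) :=
        (le_hP hq0.le hq1 w S F).trans hw2.le
      refine h3.trans ?_
      rw [Real.exp_neg]
      have h4 : (Real.exp m)⁻¹ ≤ (16 / (κ0 * c0 ^ 2) * X)⁻¹ :=
        inv_anti₀ (by positivity) hm
      refine h4.trans ?_
      have h5 : (16 / (κ0 * c0 ^ 2) * X)⁻¹ = κ0 * (c0 ^ 2 / (16 * X)) := by
        field_simp
      rw [h5]
      exact mul_le_mul_of_nonneg_right hκ (by positivity))
  refine le_trans ?_ (key.trans (sum_Ex_hit_le_Fs hq0.le hq1 hs S F F))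
  refine mul_le_mul_of_nonneg_right ?_ (Nat.cast_nonneg _)
  have h6 : κ0 * c0 / (16 * C1) * (Real.exp (-(n : ℝ)) / (1 + n)) * X =
      κ0 * (Real.exp (-(n : ℝ)) / 2 / (8 * (C1 * (1 + n)))) * (c0 * X) := by
    field_simp
    ring
  rw [h6]
  gcongr

/-- The form used in the bootstrap argument. -/
theorem stepB' [G.LocallyFinite] [Infinite V] (hG : G.Connected)
    (hqt : IsQuasiTransitive G) (hpc : pc G ≤ 1) (p p2 : ℝ) (h0 : 0 < p) (h1 : p < p2)
    (h2 : p2 < pc G) :
    ∃ C : ℝ, 1 ≤ C ∧ ∀ q, p2 ≤ q → q < pc G →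
    ∀ (S : Finset V) (n k : ℕ), C * (1 + n) * chi G q ≤ Real.exp k →
      ((fat G p n S).card : ℝ) ≤ (fat G q k S).card +
        C * (1 + n) * Real.exp n * FS G q S / chi G q := by
  obtain ⟨c, C, hc, hC, hst⟩ := stepB hG hqt hpc p p2 h0 h1 h2
  have hne : Nonempty V := hG.nonempty
  refine ⟨max 1 (max C c⁻¹), le_max_left _ _, fun q hq2 hq S n k hk => ?_⟩
  have hq0 : 0 < q := (h0.trans h1).trans_le hq2
  have hq1 : q ≤ 1 := hq.le.trans hpc
  have hs : Sub G q := sub_of_lt_pc hG hqt hq0.le hq hq1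
  have hX0 : 0 < chi G q := one_pos.trans_le (one_le_chi hq0.le hq1 hs)
  have hn : (1 : ℝ) ≤ 1 + n := by
    have : (0 : ℝ) ≤ n := Nat.cast_nonneg n
    linarith
  have hm : C * chi G q ≤ Real.exp k := by
    refine le_trans ?_ hk
    refine mul_le_mul_of_nonneg_right ?_ hX0.le
    calc C ≤ max 1 (max C c⁻¹) * 1 := by
          rw [mul_one]; exact (le_max_left _ _).trans (le_max_right _ _)
      _ ≤ max 1 (max C c⁻¹) * (1 + n) := by gcongr
  have h3 := hst q hq2 hq S n k hm
  have hF0 : 0 ≤ FS G q S := by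
    refine le_trans ?_ h3
    positivity
  have h4 : ((fat G p n S).card : ℝ) ≤ (fat G q k S).card +
      ((fat G p n S \ fat G q k S).card : ℝ) := by
    have : (fat G p n S).card ≤ (fat G q k S).card + (fat G p n S \ fat G q k S).card := by
      have h5 := Finset.card_le_card (subset_union_right (s₁ := fat G q k S)
        (s₂ := fat G p n S))
      rw [← Finset.union_sdiff_self_eq_union] at h5
      exact h5.trans (Finset.card_union_le _ _)
    exact_mod_cast this
  refine h4.trans (add_le_add_right ?_ _)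
  rw [le_div_iff₀ hX0]
  have h6 : ((fat G p n S \ fat G q k S).card : ℝ) * chi G q ≤
      c⁻¹ * (1 + n) * Real.exp n * FS G q S := by
    have h7 : c * (Real.exp (-(n : ℝ)) / (1 + n)) * (c⁻¹ * (1 + n) * Real.exp n) = 1 := by
      have : Real.exp (-(n : ℝ)) * Real.exp n = 1 := by rw [← Real.exp_add]; simp
      field_simp
      exact this
    calc ((fat G p n S \ fat G q k S).card : ℝ) * chi G q
        = (c⁻¹ * (1 + n) * Real.exp n) * (c * (Real.exp (-(n : ℝ)) / (1 + n)) * chi G q *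
            ((fat G p n S \ fat G q k S).card : ℝ)) := by
          linear_combination (-((fat G p n S \ fat G q k S).card : ℝ) * chi G q) * h7
      _ ≤ (c⁻¹ * (1 + n) * Real.exp n) * FS G q S := by gcongr
      _ = _ := by ring
  refine h6.trans ?_
  gcongr
  exact (le_max_right _ _).trans (le_max_right _ _)

end Vale.Agent.P165.BS
end

section
open Finset

set_option linter.unusedSectionVars false

namespace Vale.Agent.P165.LF

open Vale.Agent.P151 (Ex Cn cl csz edgesIn EV con tau)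

variable {V : Type} [DecidableEq V]

open Classical in
/-- The edges of `Λ` joining the `U`-cluster of `v` to `Q`. -/
noncomputable def gnK (Λ : Finset (Sym2 V)) (Q : Set V) (U : Finset (Sym2 V)) (v : V) :
    Finset (Sym2 V) :=
  Λ.filter (fun e => ∃ w z, e = s(w, z) ∧ Cn U v w ∧ z ∈ Q)

lemma mem_gnK {Λ : Finset (Sym2 V)} {Q : Set V} {U : Finset (Sym2 V)} {v : V} {e : Sym2 V} :
    e ∈ gnK Λ Q U v ↔ e ∈ Λ ∧ ∃ w z, e = s(w, z) ∧ Cn U v w ∧ z ∈ Q := by
  classical
  unfold gnK
  rw [Finset.mem_filter]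

open Classical in
/-- The indicator that `v` is outside `Q` and is joined to `Q` by an edge of `Λ`, after a
`U`-path. -/
noncomputable def gnP (Λ : Finset (Sym2 V)) (v : V) (Q : Set V) (U : Finset (Sym2 V)) : ℝ :=
  if v ∈ Q then 0 else ind (∃ e, e ∈ gnK Λ Q U v)

open Classical in
/-- The same with an open edge of `T`. -/
noncomputable def gnT (Λ : Finset (Sym2 V)) (v : V) (Q : Set V) (U T : Finset (Sym2 V)) : ℝ :=
  if v ∈ Q then 0 else ind (∃ e, e ∈ gnK Λ Q U v ∧ e ∈ T)

lemma gn_mem {s : ℝ} {Λ : Finset (Sym2 V)} {e : Sym2 V} (he : e ∈ Λ) :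
    Ex s Λ (fun T => ind (e ∈ T)) = s := by
  conv_lhs => rw [← Finset.insert_erase he]
  rw [Vale.Agent.P151.Ex_insert s (Finset.notMem_erase e Λ)]
  have h1 : Ex s (Λ.erase e) (fun T => ind (e ∈ insert e T)) = 1 := by
    rw [← Vale.Agent.P151.Ex_const s (Λ.erase e) 1]
    apply Vale.Agent.P151.Ex_congr
    intro T _
    exact ind_true (Finset.mem_insert_self e T)
  have h2 : Ex s (Λ.erase e) (fun T => ind (e ∈ T)) = 0 := by
    rw [← Vale.Agent.P151.Ex_const s (Λ.erase e) 0]
    apply Vale.Agent.P151.Ex_congr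
    intro T hT
    exact ind_false (fun h => Finset.notMem_erase e Λ (hT h))
  rw [h1, h2]
  ring

lemma gn_open {s : ℝ} (h0 : 0 ≤ s) (h1 : s ≤ 1) (Λ : Finset (Sym2 V)) (v : V) (Q : Set V)
    (U : Finset (Sym2 V)) : s * gnP Λ v Q U ≤ Ex s Λ (fun T => gnT Λ v Q U T) := by
  unfold gnP gnT
  by_cases hv : v ∈ Q
  · simp [hv]
  · simp only [hv, if_false]
    by_cases he : ∃ e, e ∈ gnK Λ Q U v
    · obtain ⟨e, he⟩ := he
      rw [ind_true ⟨e, he⟩, mul_one]
      calc s = Ex s Λ (fun T => ind (e ∈ T)) := (gn_mem (mem_gnK.1 he).1).symm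
        _ ≤ _ := Vale.Agent.P151.Ex_mono h0 h1 fun T _ => ind_mono fun h => ⟨e, he, h⟩
    · rw [ind_false he, mul_zero]
      exact Vale.Agent.P151.Ex_nonneg h0 h1 fun T _ => ind_nonneg _

/-- A path from `v` to `Q`, with the first point in `Q`. -/
lemma gn_hit {Λ S : Finset (Sym2 V)} (hS : S ⊆ Λ) {Q : Set V} {v : V} (hv : v ∉ Q)
    (h : ∃ y ∈ Q, Cn S v y) : ∃ e, e ∈ gnK Λ Q (S ∩ offE Λ Q) v := by
  classical
  by_contra hno
  obtain ⟨y, hy, hvy⟩ := h
  have h1 : y ∈ {w | w ∉ Q ∧ Cn (S ∩ offE Λ Q) v w} := by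
    refine Vale.Agent.P151.Cn_closed (A := {w | w ∉ Q ∧ Cn (S ∩ offE Λ Q) v w}) ?_
      ⟨hv, Vale.Agent.P151.Cn.refl _ _⟩ hvy
    intro u hu z hz
    by_cases hzQ : z ∈ Q
    · exact absurd ⟨s(u, z), mem_gnK.2 ⟨hS hz, u, z, rfl, hu.2, hzQ⟩⟩ hno
    · refine ⟨hzQ, hu.2.trans (Vale.Agent.P151.Cn_of_mem ?_)⟩
      rw [Finset.mem_inter]
      refine ⟨hz, ?_⟩
      unfold offE
      rw [Finset.mem_filter]
      refine ⟨hS hz, ?_⟩
      intro w hw
      rw [Sym2.mem_iff] at hw
      rcases hw with rfl | rfl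
      · exact hu.1
      · exact hzQ
  exact h1.1 hy

lemma gn_card {Λ S0 S T : Finset (Sym2 V)} (h0 : S0 ⊆ S) (F : Finset V) (x : V)
    (U : Finset (Sym2 V)) (hU : U ⊆ S) :
    (csz S0 x : ℝ) + ∑ v ∈ F, gnT Λ v (cl S0 x : Set V) U T ≤ csz (S ∪ T) x := by
  classical
  have h1 : ∑ v ∈ F, gnT Λ v (cl S0 x : Set V) U T =
      ((F.filter fun v => v ∉ cl S0 x ∧ ∃ e, e ∈ gnK Λ (cl S0 x : Set V) U v ∧ e ∈ T).card : ℝ) := by
    rw [Finset.card_filter, Nat.cast_sum]
    apply Finset.sum_congr rfl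
    intro v _
    unfold gnT
    by_cases hv : v ∈ cl S0 x
    · rw [if_pos (Finset.mem_coe.2 hv), if_neg (fun h => h.1 hv)]
      simp
    · rw [if_neg (fun h => hv (Finset.mem_coe.1 h))]
      by_cases he : ∃ e, e ∈ gnK Λ (cl S0 x : Set V) U v ∧ e ∈ T
      · rw [ind_true he, if_pos ⟨hv, he⟩]
        simp
      · rw [ind_false he, if_neg (fun h => he h.2)]
        simp
  rw [h1]
  unfold csz
  rw [← Nat.cast_add, Nat.cast_le, ← Finset.card_union_of_disjoint]
  · apply Finset.card_le_card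
    intro v hv
    rw [Finset.mem_union] at hv
    rcases hv with hv | hv
    · exact Vale.Agent.P151.cl_mono (h0.trans Finset.subset_union_left) x hv
    · rw [Finset.mem_filter] at hv
      obtain ⟨-, -, e, he, heT⟩ := hv
      obtain ⟨-, w, z, rfl, hw, hz⟩ := mem_gnK.1 he
      rw [Vale.Agent.P151.mem_cl]
      rw [Finset.mem_coe, Vale.Agent.P151.mem_cl] at hz
      exact ((hz.mono (h0.trans Finset.subset_union_left)).trans
        (Vale.Agent.P151.Cn_of_mem (Finset.mem_union_right _ heT)).symm).trans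
        (hw.mono (hU.trans Finset.subset_union_left)).symm
  · rw [Finset.disjoint_left]
    intro v hv hv'
    exact (Finset.mem_filter.1 hv').2.1 hv

lemma gn_clS (S : Finset (Sym2 V)) (x : V) : clS S {x} = (cl S x : Set V) := by
  ext y
  simp [clS]

lemma gn_sub {G : SimpleGraph V} {F0 : Finset V} {S : Finset (Sym2 V)} (hS : S ⊆ edgesIn G F0)
    {x : V} (hx : x ∈ F0) : cl S x ⊆ F0 := by
  intro y hy
  rw [Vale.Agent.P151.mem_cl] at hy
  refine Finset.mem_coe.1 (Vale.Agent.P151.Cn_closed (A := (F0 : Set V)) ?_ hx hy)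
  intro u _ v hv
  exact (Vale.Agent.P151.mk_mem_edgesIn.1 (hS hv)).2.2

open Classical in
lemma gn_explore (q : ℝ) {Λ0 Λ : Finset (Sym2 V)} (hΛ : Λ0 ⊆ Λ) (x : V)
    (Φ : Set V → Finset (Sym2 V) → ℝ) :
    Ex q Λ0 (fun S0 => Ex q (Λ \ Λ0) (fun S1 =>
      Φ (cl S0 x : Set V) ((S0 ∪ S1) ∩ offE Λ (cl S0 x : Set V)))) =
      Ex q Λ0 (fun S0 => Ex q Λ (fun S =>
        Φ (cl S0 x : Set V) (S ∩ offE Λ (cl S0 x : Set V)))) := by
  have h1 : ∀ S1 : Finset (Sym2 V),
      Ex q Λ0 (fun S0 => Φ (cl S0 x : Set V) ((S0 ∪ S1) ∩ offE Λ (cl S0 x : Set V))) =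
      Ex q Λ0 (fun S0 => Ex q Λ0 (fun T0 =>
        Φ (cl S0 x : Set V) ((T0 ∪ S1) ∩ offE Λ (cl S0 x : Set V)))) := by
    intro S1
    have h2 := explore q Λ0 {x} (fun Q U => Φ Q (U ∪ (S1 ∩ offE Λ Q)))
    simp only [gn_clS] at h2
    have key : ∀ S0 ⊆ Λ0, ∀ Q : Set V,
        (S0 ∪ S1) ∩ offE Λ Q = (S0 ∩ offE Λ0 Q) ∪ (S1 ∩ offE Λ Q) := by
      intro S0 hS0 Q
      ext e
      simp only [offE, Finset.mem_inter, Finset.mem_union, Finset.mem_filter]
      constructor
      · rintro ⟨h3 | h3, h4, h5⟩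
        · exact Or.inl ⟨h3, hS0 h3, h5⟩
        · exact Or.inr ⟨h3, h4, h5⟩
      · rintro (⟨h3, h4, h5⟩ | ⟨h3, h4, h5⟩)
        · exact ⟨Or.inl h3, hΛ h4, h5⟩
        · exact ⟨Or.inr h3, h4, h5⟩
    calc Ex q Λ0 (fun S0 => Φ (cl S0 x : Set V) ((S0 ∪ S1) ∩ offE Λ (cl S0 x : Set V))) =
        Ex q Λ0 (fun S0 => Φ (cl S0 x : Set V) ((S0 ∩ offE Λ0 (cl S0 x : Set V)) ∪
          (S1 ∩ offE Λ (cl S0 x : Set V)))) :=
          Vale.Agent.P151.Ex_congr q fun S0 hS0 => by rw [key S0 hS0]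
      _ = _ := h2
      _ = _ := by
        apply Vale.Agent.P151.Ex_congr
        intro S0 _
        apply Vale.Agent.P151.Ex_congr
        intro T0 hT0
        rw [key T0 hT0]
  calc Ex q Λ0 (fun S0 => Ex q (Λ \ Λ0) (fun S1 =>
      Φ (cl S0 x : Set V) ((S0 ∪ S1) ∩ offE Λ (cl S0 x : Set V)))) =
      Ex q (Λ \ Λ0) (fun S1 => Ex q Λ0 (fun S0 =>
        Φ (cl S0 x : Set V) ((S0 ∪ S1) ∩ offE Λ (cl S0 x : Set V)))) :=
        Vale.Agent.P151.Ex_comm _ _ _ _ _
    _ = Ex q (Λ \ Λ0) (fun S1 => Ex q Λ0 (fun S0 => Ex q Λ0 (fun T0 =>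
        Φ (cl S0 x : Set V) ((T0 ∪ S1) ∩ offE Λ (cl S0 x : Set V))))) :=
        Vale.Agent.P151.Ex_congr q fun S1 _ => h1 S1
    _ = Ex q Λ0 (fun S0 => Ex q (Λ \ Λ0) (fun S1 => Ex q Λ0 (fun T0 =>
        Φ (cl S0 x : Set V) ((T0 ∪ S1) ∩ offE Λ (cl S0 x : Set V))))) :=
        Vale.Agent.P151.Ex_comm _ _ _ _ _
    _ = _ := by
      apply Vale.Agent.P151.Ex_congr
      intro S0 _
      rw [Vale.Agent.P151.Ex_comm q q (Λ \ Λ0) Λ0 (fun S1 T0 =>
        Φ (cl S0 x : Set V) ((T0 ∪ S1) ∩ offE Λ (cl S0 x : Set V)))]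
      rw [← Vale.Agent.P151.Ex_union q Finset.disjoint_sdiff (fun S =>
        Φ (cl S0 x : Set V) (S ∩ offE Λ (cl S0 x : Set V))), Finset.union_sdiff_of_subset hΛ]

/-- Gain from sprinkling the boundary of the explored cluster: with `s = (q' - q)/(1 - q)`,
`E_{q'}|C_x| ≥ E_q [ |Q| + s (∑_v P_q(v ↔ Q) - |Q|) ]`, `Q` the cluster of `x` in the volume
`F0` and the other expectations in the volume `F ⊇ F0`. -/
theorem gain (G : SimpleGraph V) {q q' : ℝ} (h0 : 0 ≤ q) (hqq : q ≤ q') (h1 : q' < 1)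
    (F0 F : Finset V) (hF : F0 ⊆ F) (x : V) (hx : x ∈ F0) :
    vol G q (x, F0) + (q' - q) / (1 - q) *
      (Ex q (edgesIn G F0) (fun S => ∑ v ∈ F, Ex q (edgesIn G F) (hit v (cl S x : Set V))) -
        vol G q (x, F0)) ≤
      vol G q' (x, F) := by
  classical
  have hq1 : 0 < 1 - q := by linarith
  have hq1' : q ≤ 1 := by linarith
  obtain ⟨s, hs⟩ : ∃ s, s = (q' - q) / (1 - q) := ⟨_, rfl⟩
  have hs0 : 0 ≤ s := by rw [hs]; exact div_nonneg (by linarith) hq1.le
  have hs1 : s ≤ 1 := by rw [hs, div_le_one hq1]; linarith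
  have hsup : 1 - q' = (1 - q) * (1 - s) := by
    rw [hs, mul_sub, mul_div_cancel₀ _ hq1.ne']; ring
  rw [← hs]
  obtain ⟨Λ0, hΛ0⟩ : ∃ Λ0, Λ0 = edgesIn G F0 := ⟨_, rfl⟩
  obtain ⟨Λ, hΛ⟩ : ∃ Λ, Λ = edgesIn G F := ⟨_, rfl⟩
  have hsub : Λ0 ⊆ Λ := by rw [hΛ0, hΛ]; exact Vale.Agent.P151.edgesIn_mono G hF
  unfold vol
  rw [← hΛ0, ← hΛ]
  have step1 : Ex q' Λ (fun S => (csz S x : ℝ)) =
      Ex q Λ0 (fun S0 => Ex q (Λ \ Λ0) (fun S1 => Ex s Λ (fun T =>
        (csz ((S0 ∪ S1) ∪ T) x : ℝ)))) := by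
    rw [Vale.Agent.P151.Ex_superpose hsup]
    rw [← Vale.Agent.P151.Ex_union q Finset.disjoint_sdiff (fun S => Ex s Λ (fun T =>
        (csz (S ∪ T) x : ℝ))), Finset.union_sdiff_of_subset hsub]
  have step2 : Ex q Λ0 (fun S0 => Ex q (Λ \ Λ0) (fun S1 => (csz S0 x : ℝ) +
      s * ∑ v ∈ F, gnP Λ v (cl S0 x : Set V) ((S0 ∪ S1) ∩ offE Λ (cl S0 x : Set V)))) ≤
      Ex q Λ0 (fun S0 => Ex q (Λ \ Λ0) (fun S1 => Ex s Λ (fun T =>
        (csz ((S0 ∪ S1) ∪ T) x : ℝ)))) := by
    apply Vale.Agent.P151.Ex_mono h0 hq1'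
    intro S0 _
    apply Vale.Agent.P151.Ex_mono h0 hq1'
    intro S1 _
    calc (csz S0 x : ℝ) +
        s * ∑ v ∈ F, gnP Λ v (cl S0 x : Set V) ((S0 ∪ S1) ∩ offE Λ (cl S0 x : Set V)) ≤
        (csz S0 x : ℝ) + ∑ v ∈ F, Ex s Λ (fun T =>
          gnT Λ v (cl S0 x : Set V) ((S0 ∪ S1) ∩ offE Λ (cl S0 x : Set V)) T) := by
          rw [Finset.mul_sum]
          gcongr with v _
          exact gn_open hs0 hs1 _ _ _ _
      _ = Ex s Λ (fun T => (csz S0 x : ℝ) + ∑ v ∈ F,
          gnT Λ v (cl S0 x : Set V) ((S0 ∪ S1) ∩ offE Λ (cl S0 x : Set V)) T) := by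
          rw [Vale.Agent.P151.Ex_add, Vale.Agent.P151.Ex_const, Vale.Agent.P151.Ex_sum]
      _ ≤ _ := by
          apply Vale.Agent.P151.Ex_mono hs0 hs1
          intro T _
          exact gn_card Finset.subset_union_left F x _ Finset.inter_subset_left
  have step3 : Ex q Λ0 (fun S0 => Ex q (Λ \ Λ0) (fun S1 => (csz S0 x : ℝ) +
      s * ∑ v ∈ F, gnP Λ v (cl S0 x : Set V) ((S0 ∪ S1) ∩ offE Λ (cl S0 x : Set V)))) =
      Ex q Λ0 (fun S0 => (csz S0 x : ℝ)) + s * Ex q Λ0 (fun S0 => Ex q Λ (fun S =>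
        ∑ v ∈ F, gnP Λ v (cl S0 x : Set V) (S ∩ offE Λ (cl S0 x : Set V)))) := by
    rw [← gn_explore q hsub x (fun Q U => ∑ v ∈ F, gnP Λ v Q U)]
    simp only [Vale.Agent.P151.Ex_add, Vale.Agent.P151.Ex_const, Vale.Agent.P151.Ex_const_mul]
  have step4 : Ex q Λ0 (fun S => ∑ v ∈ F, Ex q Λ (hit v (cl S x : Set V))) -
      Ex q Λ0 (fun S => (csz S x : ℝ)) ≤ Ex q Λ0 (fun S0 => Ex q Λ (fun S =>
        ∑ v ∈ F, gnP Λ v (cl S0 x : Set V) (S ∩ offE Λ (cl S0 x : Set V)))) := by
    rw [← Vale.Agent.P151.Ex_sub]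
    apply Vale.Agent.P151.Ex_mono h0 hq1'
    intro S0 hS0
    have hcard : (csz S0 x : ℝ) = ∑ v ∈ F, ind (v ∈ cl S0 x) := by
      have h3 : cl S0 x ⊆ F := (gn_sub (hΛ0 ▸ hS0) hx).trans hF
      unfold csz
      rw [← Finset.inter_eq_right.2 h3, ← Finset.filter_mem_eq_inter, Finset.card_filter,
        Nat.cast_sum]
      apply Finset.sum_congr rfl
      intro v hv
      by_cases hv' : v ∈ cl S0 x
      · have : v ∈ F.filter (fun i => i ∈ cl S0 x) := Finset.mem_filter.2 ⟨hv, hv'⟩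
        rw [if_pos hv', ind_true this]
        simp
      · have : ¬ v ∈ F.filter (fun i => i ∈ cl S0 x) := fun h => hv' (Finset.mem_filter.1 h).2
        rw [if_neg hv', ind_false this]
        simp
    rw [hcard, ← Vale.Agent.P151.Ex_sum, ← Vale.Agent.P151.Ex_const q Λ (∑ v ∈ F, ind (v ∈ cl S0 x)),
      ← Vale.Agent.P151.Ex_sub]
    apply Vale.Agent.P151.Ex_mono h0 hq1'
    intro S hS
    rw [← Finset.sum_sub_distrib]
    apply Finset.sum_le_sum
    intro v _
    unfold gnP
    by_cases hv : v ∈ cl S0 x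
    · rw [if_pos (Finset.mem_coe.2 hv), ind_true hv]
      linarith [hit_le_one v (cl S0 x : Set V) S]
    · rw [if_neg (fun h => hv (Finset.mem_coe.1 h)), ind_false hv, sub_zero]
      exact ind_mono (gn_hit hS (fun h => hv (Finset.mem_coe.1 h)))
  calc _ ≤ Ex q Λ0 (fun S0 => (csz S0 x : ℝ)) + s * Ex q Λ0 (fun S0 => Ex q Λ (fun S =>
        ∑ v ∈ F, gnP Λ v (cl S0 x : Set V) (S ∩ offE Λ (cl S0 x : Set V)))) := by
        gcongr
    _ ≤ _ := by
        rw [← step3, step1]
        exact step2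

end Vale.Agent.P165.LF
end

section
/-! P165, full conjecture: the doubling step -/

open Finset MeasureTheory ProbabilityTheory

set_option linter.unusedSectionVars false

namespace Vale.Agent.P165.BS

open Vale.Agent.P151 (Ex Cn cl csz edgesIn EV con tau)
open Vale.Agent.P165.LF

variable {V : Type} [DecidableEq V] {G : SimpleGraph V}

/-- Approximation of `F_Q` in finite volume. -/
lemma exists_vol_hit {q c : ℝ} (h0 : 0 ≤ q) (h1 : q ≤ 1) (Q : Finset V) (h : c < FS G q Q) :
    ∃ F1 : Finset V, ∀ F, F1 ⊆ F → c ≤ ∑ v ∈ F, Ex q (edgesIn G F) (hit v (Q : Set V)) := by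
  unfold FS at h
  obtain ⟨Z, hZ⟩ := exists_lt_of_lt_ciSup h
  have hex : ∃ F0 : Finset V, c < Ex q (edgesIn G F0) (fun S => ∑ z ∈ Z, hit z (Q : Set V) S) := by
    by_contra hcon
    push Not at hcon
    have := sum_EV_le h0 h1 Z (fun z => hit z (Q : Set V)) (fun z _ => hit_mono z _)
      (fun z _ S => hit_le_one z _ S) hcon
    unfold HP at hZ
    linarith
  obtain ⟨F0, hF0⟩ := hex
  refine ⟨F0 ∪ Z, fun F hF => ?_⟩
  have hF1 : F0 ⊆ F := subset_union_left.trans hF
  have hF2 : Z ⊆ F := subset_union_right.trans hF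
  rw [Vale.Agent.P151.Ex_sum] at hF0
  refine hF0.le.trans ?_
  calc ∑ z ∈ Z, Ex q (edgesIn G F0) (hit z (Q : Set V))
      ≤ ∑ z ∈ Z, Ex q (edgesIn G F) (hit z (Q : Set V)) :=
        sum_le_sum fun z _ => Vale.Agent.P151.Ex_edgesIn_mono h0 h1 (hit_mono z _) hF1
    _ ≤ _ := sum_le_sum_of_subset_of_nonneg hF2 fun z _ _ =>
        Vale.Agent.P151.Ex_nonneg h0 h1 fun S _ => hit_nonneg z _ S

/-- Doubling step. -/
theorem chi_step [Nonempty V] {q q' y : ℝ} (h0 : 0 ≤ q) (hqq : q ≤ q') (h1 : q' < 1)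
    (hs : Sub G q') (hY : ∀ S : Finset V, S.Nonempty → y * S.card ≤ FS G q S) :
    chi G q + (q' - q) / (1 - q) * ((y - 1) * chi G q) ≤ chi G q' := by
  classical
  have hq1 : 0 < 1 - q := by linarith
  have hq1' : q ≤ 1 := by linarith
  have hsq : Sub G q := Sub.mono h0 hqq h1.le hs
  obtain ⟨s, hsdef⟩ : ∃ s, s = (q' - q) / (1 - q) := ⟨_, rfl⟩
  have hs0 : 0 ≤ s := by rw [hsdef]; exact div_nonneg (by linarith) hq1.le
  rw [← hsdef]
  have hchi1 : 1 ≤ chi G q := one_le_chi h0 hq1' hsq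
  rcases le_or_gt y 1 with hy | hy
  · have h2 := chi_mono h0 hqq h1.le hs
    have h3 : s * ((y - 1) * chi G q) ≤ 0 :=
      mul_nonpos_of_nonneg_of_nonpos hs0 (mul_nonpos_of_nonpos_of_nonneg (by linarith) (by linarith))
    linarith
  have hk : 0 < 1 + s * (y - 1) := by
    have : 0 ≤ s * (y - 1) := mul_nonneg hs0 (by linarith)
    linarith
  -- the main bound
  have main : ∀ (x : V) (F0 : Finset V), x ∈ F0 →
      vol G q (x, F0) * (1 + s * (y - 1)) ≤ chi G q' := by
    intro x F0 hx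
    refine le_of_forall_pos_le_add fun δ hδ => ?_
    have hvol0 : 0 ≤ vol G q (x, F0) :=
      Vale.Agent.P151.Ex_nonneg h0 hq1' fun S _ => Nat.cast_nonneg _
    have hpos : 0 < s * vol G q (x, F0) + 1 := by positivity
    set ε : ℝ := δ / (s * vol G q (x, F0) + 1) with hε
    have hε0 : 0 < ε := div_pos hδ hpos
    have hex : ∀ Q : Finset V, Q.Nonempty → ∃ F1 : Finset V, ∀ F, F1 ⊆ F →
        (y - ε) * Q.card ≤ ∑ v ∈ F, Ex q (edgesIn G F) (hit v (Q : Set V)) := by
      intro Q hQ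
      refine exists_vol_hit h0 hq1' Q (lt_of_lt_of_le ?_ (hY Q hQ))
      have : (0 : ℝ) < Q.card := by exact_mod_cast hQ.card_pos
      nlinarith
    choose! F1 hF1 using hex
    set F : Finset V := F0 ∪ F0.powerset.biUnion F1 with hFdef
    have hF0F : F0 ⊆ F := subset_union_left
    have hbd : ∀ Q : Finset V, Q ⊆ F0 → Q.Nonempty →
        (y - ε) * Q.card ≤ ∑ v ∈ F, Ex q (edgesIn G F) (hit v (Q : Set V)) := fun Q hQ hQn =>
      hF1 Q hQn F ((subset_biUnion_of_mem F1 (mem_powerset.2 hQ)).trans subset_union_right)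
    have hg := gain G h0 hqq h1 F0 F hF0F x hx
    rw [← hsdef] at hg
    have hlow : (y - ε) * vol G q (x, F0) ≤
        Ex q (edgesIn G F0) (fun S => ∑ v ∈ F, Ex q (edgesIn G F) (hit v (cl S x : Set V))) := by
      unfold vol
      rw [← Vale.Agent.P151.Ex_const_mul]
      refine Vale.Agent.P151.Ex_mono h0 hq1' fun S hS => ?_
      refine hbd (cl S x) (gn_sub hS hx) ⟨x, ?_⟩
      rw [Vale.Agent.P151.mem_cl]
      exact Vale.Agent.P151.Cn.refl S x
    have hc : vol G q' (x, F) ≤ chi G q' := csz_le_chi hs x F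
    have h5 : s * ((y - ε) * vol G q (x, F0) - vol G q (x, F0)) ≤
        s * (Ex q (edgesIn G F0) (fun S => ∑ v ∈ F, Ex q (edgesIn G F) (hit v (cl S x : Set V))) -
          vol G q (x, F0)) := mul_le_mul_of_nonneg_left (by linarith) hs0
    have h6 : ε * (s * vol G q (x, F0)) ≤ δ := by
      rw [hε, div_mul_eq_mul_div, div_le_iff₀ hpos]
      nlinarith
    nlinarith
  have h2 : chi G q ≤ chi G q' / (1 + s * (y - 1)) := by
    refine chi_le fun x F0 => ?_
    rw [le_div_iff₀ hk]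
    have h3 : Ex q (edgesIn G F0) (fun S => (csz S x : ℝ)) ≤ vol G q (x, insert x F0) :=
      Vale.Agent.P151.Ex_edgesIn_mono h0 hq1' (csz_cast_mono x) (subset_insert x F0)
    exact (mul_le_mul_of_nonneg_right h3 hk.le).trans (main x (insert x F0) (mem_insert_self x F0))
  rw [le_div_iff₀ hk] at h2
  linarith

end Vale.Agent.P165.BS
end

section
open Finset

namespace Vale.Agent.P165.LF

/-- Real analysis: a function with `X(q') ≥ X(q) + c (q' - q) X(q)^{7/4}` on `[a, b)`
satisfies `(b - q) X(q)^{3/4} ≤ C` (doubling steps). -/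
theorem blowup_bound {c : ℝ} (hc : 0 < c) : ∃ C, 0 < C ∧ ∀ (a b : ℝ) (X : ℝ → ℝ),
    (∀ q, a ≤ q → q < b → 1 ≤ X q) →
    (∀ q q', a ≤ q → q ≤ q' → q' < b → X q ≤ X q') →
    (∀ q q', a ≤ q → q ≤ q' → q' < b → X q + c * (q' - q) * X q ^ (7 / 4 : ℝ) ≤ X q') →
    ∀ q, a ≤ q → q < b → (b - q) * X q ^ (3 / 4 : ℝ) ≤ C := by
  set r : ℝ := (2 : ℝ) ^ (3 / 4 : ℝ) with hr
  have hr1 : 1 < r := Real.one_lt_rpow (by norm_num) (by norm_num)
  have hr0 : 0 < r - 1 := by linarith
  have hrp : 0 < r := by linarith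
  set s : ℝ := r / (c * (r - 1)) with hs
  have hs0 : 0 < s := by positivity
  have hcs : c⁻¹ + s / r = s := by
    rw [hs]
    field_simp
    ring
  have hcs' : c⁻¹ ≤ s := by
    have h1 : 0 < s / r := by positivity
    linarith
  refine ⟨s, hs0, ?_⟩
  intro a b X hX1 hXm hstep q hq hqb
  by_contra hcon
  rw [not_le] at hcon
  have hXq := hX1 q hq hqb
  have hpos : 0 < X q ^ (3 / 4 : ℝ) := Real.rpow_pos_of_pos (by linarith) _
  set Q := q + s * (X q ^ (3 / 4 : ℝ))⁻¹ with hQ
  have hQb : Q < b := by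
    have h1 : s * (X q ^ (3 / 4 : ℝ))⁻¹ < b - q := by
      rw [← div_eq_mul_inv, div_lt_iff₀ hpos]
      exact hcon
    rw [hQ]
    linarith
  have key : ∀ k : ℕ, ∃ x, q ≤ x ∧ x + s * (X x ^ (3 / 4 : ℝ))⁻¹ ≤ Q ∧ (2 : ℝ) ^ k ≤ X x := by
    intro k
    induction k with
    | zero => exact ⟨q, le_rfl, le_rfl, by simpa using hXq⟩
    | succ k ih =>
      obtain ⟨x, hx1, hx2, hx3⟩ := ih
      have hX1x : 0 < X x := lt_of_lt_of_le (by positivity) hx3
      have hXp : 0 < X x ^ (3 / 4 : ℝ) := Real.rpow_pos_of_pos hX1x _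
      have hp : 0 < (X x ^ (3 / 4 : ℝ))⁻¹ := inv_pos.mpr hXp
      set Y := (X x ^ (3 / 4 : ℝ))⁻¹ with hY
      have hcY : 0 < c⁻¹ * Y := by positivity
      have hcsY : c⁻¹ * Y ≤ s * Y := mul_le_mul_of_nonneg_right hcs' hp.le
      have hx'b : x + c⁻¹ * Y < b := by linarith
      have h1 := hstep x (x + c⁻¹ * Y) (by linarith) (by linarith) hx'b
      have h2 : c * (x + c⁻¹ * Y - x) * X x ^ (7 / 4 : ℝ) = X x := by
        have h3 : X x ^ (7 / 4 : ℝ) = X x ^ (3 / 4 : ℝ) * X x := by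
          rw [show (7 / 4 : ℝ) = 3 / 4 + 1 by norm_num, Real.rpow_add hX1x, Real.rpow_one]
        rw [h3, add_sub_cancel_left, mul_inv_cancel_left₀ hc.ne', hY, inv_mul_cancel_left₀ hXp.ne']
      rw [h2] at h1
      refine ⟨x + c⁻¹ * Y, by linarith, ?_, ?_⟩
      · have h4 : r * X x ^ (3 / 4 : ℝ) ≤ X (x + c⁻¹ * Y) ^ (3 / 4 : ℝ) := by
          rw [hr, ← Real.mul_rpow (by norm_num) hX1x.le]
          exact Real.rpow_le_rpow (by positivity) (by linarith) (by norm_num)
        have h5 : (X (x + c⁻¹ * Y) ^ (3 / 4 : ℝ))⁻¹ ≤ r⁻¹ * Y := by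
          have h51 := inv_anti₀ (by positivity) h4
          rwa [mul_inv] at h51
        have h6 : s * (X (x + c⁻¹ * Y) ^ (3 / 4 : ℝ))⁻¹ ≤ s * (r⁻¹ * Y) :=
          mul_le_mul_of_nonneg_left h5 hs0.le
        have h7 : c⁻¹ * Y + s * (r⁻¹ * Y) = s * Y := by
          calc c⁻¹ * Y + s * (r⁻¹ * Y) = (c⁻¹ + s / r) * Y := by ring
            _ = s * Y := by rw [hcs]
        linarith
      · rw [pow_succ]
        linarith
  obtain ⟨k, hk⟩ := pow_unbounded_of_one_lt (X Q) (one_lt_two (α := ℝ))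
  obtain ⟨x, hx1, hx2, hx3⟩ := key k
  have hX1x : 0 < X x := lt_of_lt_of_le (by positivity) hx3
  have h1 : 0 ≤ s * (X x ^ (3 / 4 : ℝ))⁻¹ := by positivity
  have h2 := hXm x Q (by linarith) (by linarith) hQb
  linarith

end Vale.Agent.P165.LF
end

section
/-! Assembly: `p_c < p_u` on every nonamenable quasi-transitive graph. -/

open Finset

set_option linter.unusedSectionVars false

namespace Vale.Agent.P165.BS2

open Vale.Agent.P151 (Ex Cn cl csz edgesIn EV con tau)
open Vale.Agent.P165.LF Vale.Agent.P165.BS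

variable {V : Type} [DecidableEq V] {G : SimpleGraph V}

/-- The points of the fattening are few compared with `F_S`. -/
theorem card_fat_le_FS {q : ℝ} (h0 : 0 ≤ q) (h1 : q ≤ 1) (hs : Sub G q) (n : ℕ) (S : Finset V) :
    ((fat G q n S).card : ℝ) ≤ Real.exp n * FS G q S := by
  have h2 : ((fat G q n S).card : ℝ) * Real.exp (-(n : ℝ)) ≤ FS G q S := by
    refine le_trans ?_ (sum_HP_le_FS h0 h1 hs (fat G q n S) S)
    rw [← nsmul_eq_mul]
    exact Finset.card_nsmul_le_sum _ _ _ fun z hz => (mem_fat h0 h1 hs).1 hz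
  have h3 : Real.exp n * Real.exp (-(n : ℝ)) = 1 := by rw [← Real.exp_add]; simp
  calc ((fat G q n S).card : ℝ)
      = Real.exp n * (((fat G q n S).card : ℝ) * Real.exp (-(n : ℝ))) := by
        linear_combination (-((fat G q n S).card : ℝ)) * h3
    _ ≤ _ := mul_le_mul_of_nonneg_left h2 (Real.exp_pos _).le

theorem iface2 [G.LocallyFinite] [Infinite V] (hG : G.Connected) (hqt : IsQuasiTransitive G)
    (hna : 0 < vertexCheeger G) (hpc : 0 < pc G) (hpc1 : pc G ≤ 1) :
    Iface2 (pc G) (chi G) (fat G) (FS G) := by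
  have hsub : ∀ q, 0 < q → q < pc G → Sub G q := fun q h0 hq =>
    sub_of_lt_pc hG hqt h0.le hq (hq.le.trans hpc1)
  have hne : Nonempty V := hG.nonempty
  exact
  { b_pos := hpc
    X_ge := fun q h0 hq => one_le_chi h0.le (hq.le.trans hpc1) (hsub q h0 hq)
    subset := fun q h0 hq n S => subset_fat h0.le (hq.le.trans hpc1) (hsub q h0 hq) n S
    mono := fun p q h0 hpq hq m n hmn S T hST =>
      fat_mono h0.le hpq (hq.le.trans hpc1) (hsub q (h0.trans_le hpq) hq) hmn hST
    comp := fun q h0 hq m n S => fat_comp h0.le (hq.le.trans hpc1) (hsub q h0 hq) m n S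
    card_le := fun q h0 hq n S => card_fat_le h0.le (hq.le.trans hpc1) (hsub q h0 hq) n S
    card_le_F := fun q h0 hq n S => card_fat_le_FS h0.le (hq.le.trans hpc1) (hsub q h0 hq) n S
    grow := fun q h0 hq => fat_grow hna h0 (hq.le.trans hpc1) (hsub q h0 hq)
    F_ub := fun q h0 hq => Fs_ub hG hqt h0 hq (hq.le.trans hpc1)
    main := fun p p2 h0 h1 h2 => stepB' hG hqt hpc1 p p2 h0 h1 h2 }

end Vale.Agent.P165.BS2
end

section
/-! No percolation at `p_c` on nonamenable quasi-transitive graphs, from the growth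
`χ ≥ c (p_c - p)^{-4/3}` (Newman's argument). -/

open Finset MeasureTheory ProbabilityTheory

set_option linter.unusedSectionVars false

namespace Vale.Agent.P151.NA

open Vale.Agent.P151
open Vale.Agent.P165 (numInfiniteClusters vertexCheeger)
open Vale.Agent.P165.BS (FS chi_step)
open Vale.Agent.P165.LF (Sub chi vol sub_of_lt_pc one_le_chi chi_mono
  blowup_bound csz_le_chi)

variable {V : Type}

/-- The two definitions of `p_c` agree. -/
theorem pc_eq (G : SimpleGraph V) : Vale.Agent.P165.pc G = Vale.Agent.P151.pc G := by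
  have h : {ω : Set (Sym2 V) | 1 ≤ numInfiniteClusters ω} = hasInfiniteCluster V := by
    ext ω
    constructor
    · intro h
      exact Vale.Agent.P165.exists_supp_infinite_of_one_le h
    · rintro ⟨x, hx⟩
      exact Vale.Agent.P165.one_le_of_infC hx
  unfold Vale.Agent.P165.pc Vale.Agent.P151.pc
  rw [h]

lemma card_filter_edgesIn_le' [DecidableEq V] {G : SimpleGraph V} [G.LocallyFinite]
    (B : Finset V) (v : V) :
    ((edgesIn G B).filter (fun e => v ∈ e)).card ≤ G.degree v := by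
  classical
  have hsub : (edgesIn G B).filter (fun e => v ∈ e) ⊆
      (G.neighborFinset v).image (fun w => s(v, w)) := by
    intro e he
    rw [Finset.mem_filter] at he
    obtain ⟨h1, h2⟩ := he
    obtain ⟨w, rfl⟩ := Sym2.mem_iff_exists.1 h2
    rw [Finset.mem_image]
    refine ⟨w, ?_, rfl⟩
    rw [SimpleGraph.mem_neighborFinset]
    exact (mk_mem_edgesIn.1 h1).1
  calc _ ≤ ((G.neighborFinset v).image (fun w => s(v, w))).card := Finset.card_le_card hsub
    _ ≤ (G.neighborFinset v).card := Finset.card_image_le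
    _ = G.degree v := rfl

variable [DecidableEq V] {G : SimpleGraph V}

/-- Markov's inequality for the tail. -/
theorem phiB_le_chi_div [G.LocallyFinite] {q : ℝ} (h0 : 0 ≤ q) (h1 : q ≤ 1) (hs : Sub G q)
    {n : ℕ} (hn : 1 ≤ n) (x : V) : phiB G n x q ≤ chi G q / n := by
  have hn0 : (0 : ℝ) < n := by exact_mod_cast hn
  rw [le_div_iff₀ hn0, mul_comm]
  refine le_trans ?_ (csz_le_chi hs x (ballF G x n))
  unfold phiB
  rw [← Ex_const_mul]
  refine Ex_mono h0 h1 fun S _ => ?_
  unfold big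
  by_cases h : n ≤ csz S x
  · rw [if_pos h, mul_one]
    exact_mod_cast h
  · rw [if_neg h, mul_zero]
    exact Nat.cast_nonneg _

/-- The last step of Newman's argument. -/
theorem no_perc_of_bound [G.LocallyFinite] [Infinite V] (hG : G.Connected)
    (hqt : Vale.Agent.P165.IsQuasiTransitive G) {a b C : ℝ} (ha : 0 < a) (hab : a < b)
    (hb1 : b < 1) (hC : 0 ≤ C) (hsub : ∀ q, a ≤ q → q < b → Sub G q)
    (h : ∀ q, a ≤ q → q < b → (b - q) * chi G q ^ (3 / 4 : ℝ) ≤ C)
    (p : unitInterval) (hp : (p : ℝ) = b) :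
    setBernoulli G.edgeSet p (hasInfiniteCluster V) = 0 := by
  obtain ⟨d, hd1, hd⟩ := Vale.Agent.P165.LF.exists_degree_bound (G := G) hqt
  have hne : Nonempty V := hG.nonempty
  set D : ℝ := d / (a * (1 - b)) with hD
  have h1b : 0 < 1 - b := by linarith
  have hD0 : 0 ≤ D := by positivity
  set C1 : ℝ := C ^ (4 / 3 : ℝ) with hC1
  have hC10 : 0 ≤ C1 := Real.rpow_nonneg hC _
  apply no_infinite_of_phiB G hG p
  intro x ε hε
  rw [hp]
  -- the choice of `m`
  obtain ⟨m, hm⟩ := exists_nat_gt (max 1 (max ((C1 + D) / ε) (1 / (b - a))))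
  have hm1 : (1 : ℝ) < m := (le_max_left _ _).trans_lt hm
  have hm0 : (0 : ℝ) < m := by linarith
  have hmε : (C1 + D) / ε < m := ((le_max_left _ _).trans (le_max_right _ _)).trans_lt hm
  have hmb : 1 / (b - a) < m := ((le_max_right _ _).trans (le_max_right _ _)).trans_lt hm
  have hmn : 1 ≤ m := by
    have : (0 : ℝ) < m := hm0
    exact_mod_cast this
  have hba : 0 < b - a := by linarith
  have hm9 : (m : ℝ) ≤ (m : ℝ) ^ 9 := by
    calc (m : ℝ) = (m : ℝ) ^ 1 := (pow_one _).symm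
      _ ≤ (m : ℝ) ^ 9 := pow_le_pow_right₀ hm1.le (by norm_num)
  have hmp : 0 < (m : ℝ) ^ 9 := by positivity
  set q : ℝ := b - 1 / (m : ℝ) ^ 9 with hq
  have hq1 : 1 / (m : ℝ) ^ 9 ≤ b - a := by
    rw [div_le_iff₀ hmp]
    rw [div_lt_iff₀ hba] at hmb
    nlinarith
  have haq : a ≤ q := by rw [hq]; linarith
  have hqb : q < b := by
    have : 0 < 1 / (m : ℝ) ^ 9 := by positivity
    rw [hq]; linarith
  have hq0 : 0 < q := ha.trans_le haq
  have hqle1 : q ≤ 1 := by linarith
  have hs := hsub q haq hqb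
  have hX1 := one_le_chi hq0.le hqle1 hs
  have hX0 : 0 < chi G q := by linarith
  -- the bound on `χ`
  have hX : chi G q ≤ C1 * (m : ℝ) ^ 12 := by
    have h1 := h q haq hqb
    have h2 : b - q = 1 / (m : ℝ) ^ 9 := by rw [hq]; ring
    rw [h2, div_mul_eq_mul_div, one_mul, div_le_iff₀ hmp] at h1
    have h3 := Real.rpow_le_rpow (Real.rpow_nonneg hX0.le _) h1
      (show (0 : ℝ) ≤ 4 / 3 by norm_num)
    rw [← Real.rpow_mul hX0.le, Real.mul_rpow hC hmp.le, ← Real.rpow_natCast,
      ← Real.rpow_mul hm0.le] at h3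
    norm_num at h3
    exact h3
  refine ⟨m ^ 16, ?_⟩
  have hn1 : 1 ≤ m ^ 16 := Nat.one_le_pow _ _ hmn
  have hA := phiB_le_chi_div hq0.le hqle1 hs hn1 x
  have hB : phiB G (m ^ 16) x b - phiB G (m ^ 16) x q ≤
      D * √((m ^ 16 : ℕ) : ℝ) * (b - q) := by
    unfold phiB
    exact large_sub_le ha hb1 hn1 hd1
      (fun v => (card_filter_edgesIn_le' _ v).trans (hd v)) x haq hqb.le
  have hsq : √((m ^ 16 : ℕ) : ℝ) = (m : ℝ) ^ 8 := by
    rw [show ((m ^ 16 : ℕ) : ℝ) = ((m : ℝ) ^ 8) ^ 2 by push_cast; ring]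
    exact Real.sqrt_sq (by positivity)
  rw [hsq] at hB
  have h2 : b - q = 1 / (m : ℝ) ^ 9 := by rw [hq]; ring
  rw [h2] at hB
  have h5 : D * (m : ℝ) ^ 8 * (1 / (m : ℝ) ^ 9) = D / m := by
    field_simp
  rw [h5] at hB
  have h6 : chi G q / ((m ^ 16 : ℕ) : ℝ) ≤ C1 / m := by
    rw [div_le_div_iff₀ (by positivity) hm0]
    push_cast
    have h7 : (m : ℝ) ^ 12 * m ≤ (m : ℝ) ^ 16 := by
      rw [← pow_succ]
      exact pow_le_pow_right₀ hm1.le (by norm_num)
    calc chi G q * m ≤ C1 * (m : ℝ) ^ 12 * m := mul_le_mul_of_nonneg_right hX hm0.le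
      _ = C1 * ((m : ℝ) ^ 12 * m) := by ring
      _ ≤ C1 * (m : ℝ) ^ 16 := mul_le_mul_of_nonneg_left h7 hC10
  have h8 : phiB G (m ^ 16) x b ≤ (C1 + D) / m := by
    rw [add_div]
    linarith
  refine h8.trans_lt ?_
  rw [div_lt_iff₀ hm0]
  rw [div_lt_iff₀ hε] at hmε
  linarith

/-- No percolation at `p_c` from the lower bound `F_S(p) ≥ c χ^{3/4} |S|`. -/
theorem no_perc_of_FS [G.LocallyFinite] [Infinite V] (hG : G.Connected)
    (hqt : Vale.Agent.P165.IsQuasiTransitive G) (hpc1 : Vale.Agent.P165.pc G < 1)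
    (h : 0 < Vale.Agent.P165.pc G →
      (∀ K : ℝ, ∃ q0 : ℝ, 0 < q0 ∧ q0 < Vale.Agent.P165.pc G ∧
        ∀ q, q0 ≤ q → q < Vale.Agent.P165.pc G → K ≤ chi G q) →
      ∃ p2 c : ℝ, 0 < p2 ∧ p2 < Vale.Agent.P165.pc G ∧ 0 < c ∧
      ∀ q, p2 ≤ q → q < Vale.Agent.P165.pc G → ∀ S : Finset V, S.Nonempty →
        c * chi G q ^ (3 / 4 : ℝ) * S.card ≤ FS G q S)
    (p : unitInterval) (hp : (p : ℝ) = Vale.Agent.P165.pc G) :
    setBernoulli G.edgeSet p (hasInfiniteCluster V) = 0 := by
  have hne : Nonempty V := hG.nonempty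
  have hpc0 : 0 ≤ Vale.Agent.P165.pc G := by rw [pc_eq]; exact pc_nonneg G
  rcases hpc0.eq_or_lt with h0 | h0
  · exact no_infinite_zero G hG p (by rw [hp, ← h0])
  set b := Vale.Agent.P165.pc G with hb
  have hsub : ∀ q, 0 < q → q < b → Sub G q := fun q h0 hq =>
    sub_of_lt_pc hG hqt h0.le hq (hq.le.trans hpc1.le)
  have hX1 : ∀ q, 0 < q → q < b → 1 ≤ chi G q := fun q h0 hq =>
    one_le_chi h0.le (hq.le.trans hpc1.le) (hsub q h0 hq)
  have hXm : ∀ q q', 0 < q → q ≤ q' → q' < b → chi G q ≤ chi G q' := fun q q' h0 hqq hq' =>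
    chi_mono h0.le hqq (hq'.le.trans hpc1.le) (hsub q' (h0.trans_le hqq) hq')
  by_cases hinf : ∀ K : ℝ, ∃ q0 : ℝ, 0 < q0 ∧ q0 < b ∧ ∀ q, q0 ≤ q → q < b → K ≤ chi G q
  · obtain ⟨p2, c, hp20, hp2c, hc, hF⟩ := h h0 hinf
    obtain ⟨a0, ha00, ha0c, hKa0⟩ := hinf ((2 / c) ^ (4 / 3 : ℝ))
    set a := max p2 a0 with ha
    have hac : a < b := max_lt hp2c ha0c
    have hp2a : p2 ≤ a := le_max_left _ _
    have ha0 : 0 < a := hp20.trans_le hp2a
    have hgr : ∀ q q', p2 ≤ q → q ≤ q' → q' < b →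
        chi G q + (q' - q) / (1 - q) * ((c * chi G q ^ (3 / 4 : ℝ) - 1) * chi G q) ≤
          chi G q' := by
      intro q q' hq hqq hq'
      have hq0 : 0 < q := hp20.trans_le hq
      exact chi_step hq0.le hqq (hq'.trans hpc1) (hsub q' (hq0.trans_le hqq) hq')
        (hF q hq (hqq.trans_lt hq'))
    have hcC : 0 < c / 2 := by positivity
    obtain ⟨C₀, hC₀, hC⟩ := blowup_bound hcC
    have hbl := hC a b (chi G)
      (fun q hq hqc => hX1 q (ha0.trans_le hq) hqc)
      (fun q q' hq hqq hq' => hXm q q' (ha0.trans_le hq) hqq hq')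
      (fun q q' hq hqq hq' => by
        have hq0 : 0 < q := ha0.trans_le hq
        have hqc : q < b := hqq.trans_lt hq'
        have hq1 : q < 1 := hqc.trans hpc1
        set X := chi G q with hX
        have hX0 : 0 < X := by linarith [hX1 q hq0 hqc]
        have hXK : (2 / c) ^ (4 / 3 : ℝ) ≤ X := hKa0 q ((le_max_right _ _).trans hq) hqc
        have h2c : (0 : ℝ) ≤ 2 / c := by positivity
        have h34 : 2 / c ≤ X ^ (3 / 4 : ℝ) := by
          have h5 := Real.rpow_le_rpow (Real.rpow_nonneg h2c _) hXK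
            (show (0 : ℝ) ≤ 3 / 4 by norm_num)
          rw [← Real.rpow_mul h2c] at h5
          norm_num at h5
          exact h5
        have h35 : 1 ≤ c / 2 * X ^ (3 / 4 : ℝ) := by
          rw [div_le_iff₀ hc] at h34
          linarith
        have e2 : X ^ (7 / 4 : ℝ) = X ^ (3 / 4 : ℝ) * X := by
          rw [show (7 / 4 : ℝ) = 3 / 4 + 1 by norm_num, Real.rpow_add hX0, Real.rpow_one]
        refine le_trans ?_ (hgr q q' (hp2a.trans hq) hqq hq')
        have hs0 : 0 ≤ (q' - q) / (1 - q) := div_nonneg (by linarith) (by linarith)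
        have h6 : c / 2 * X ^ (7 / 4 : ℝ) ≤ (c * X ^ (3 / 4 : ℝ) - 1) * X := by
          rw [e2]
          nlinarith
        have h7 := mul_le_mul_of_nonneg_left h6 hs0
        have h2 : q' - q ≤ (q' - q) / (1 - q) := by
          rw [le_div_iff₀ (by linarith)]
          nlinarith
        have h3 : 0 ≤ c / 2 * X ^ (7 / 4 : ℝ) := by positivity
        have h4 := mul_le_mul_of_nonneg_right h2 h3
        linarith)
    exact no_perc_of_bound hG hqt ha0 hac hpc1 hC₀.le
      (fun q hq hqb => hsub q (ha0.trans_le hq) hqb) hbl p hp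
  · push Not at hinf
    obtain ⟨K, hK⟩ := hinf
    -- `χ` is bounded
    have hbd : ∀ q, 0 < q → q < b → chi G q ≤ max K 1 := by
      intro q hq0 hqb
      obtain ⟨q', hq1, hq2, hq3⟩ := hK q hq0 hqb
      exact (hXm q q' hq0 hq1 hq2).trans (hq3.le.trans (le_max_left _ _))
    refine no_perc_of_bound hG hqt (a := b / 2) (b := b) (C := (max K 1) ^ (3 / 4 : ℝ))
      (by linarith) (by linarith) hpc1 (Real.rpow_nonneg (by positivity) _)
      (fun q hq hqb => hsub q (by linarith) hqb) (fun q hq hqb => ?_) p hp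
    have hq0 : 0 < q := by linarith
    have h1 : chi G q ^ (3 / 4 : ℝ) ≤ (max K 1) ^ (3 / 4 : ℝ) :=
      Real.rpow_le_rpow (by linarith [hX1 q hq0 hqb]) (hbd q hq0 hqb) (by norm_num)
    have h2 : 0 ≤ chi G q ^ (3 / 4 : ℝ) :=
      Real.rpow_nonneg (by linarith [hX1 q hq0 hqb]) _
    have h3 : b - q ≤ 1 := by linarith
    nlinarith

/-- No percolation at `p_c` on nonamenable quasi-transitive graphs. -/
theorem no_perc_of_nonamenable' [G.LocallyFinite] [Infinite V] (hG : G.Connected)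
    (hqt : Vale.Agent.P165.IsQuasiTransitive G) (hna : 0 < vertexCheeger G)
    (hpc1 : Vale.Agent.P165.pc G < 1)
    (p : unitInterval) (hp : (p : ℝ) = Vale.Agent.P165.pc G) :
    setBernoulli G.edgeSet p (hasInfiniteCluster V) = 0 := by
  refine no_perc_of_FS hG hqt hpc1 (fun hpc _ => ?_) p hp
  have hne : Nonempty V := hG.nonempty
  have hI := Vale.Agent.P165.BS2.iface2 hG hqt hna hpc hpc1.le
  obtain ⟨p2, K, hp2, hp2b, hK1, hK⟩ :=
    Vale.Agent.P165.BS2.core2 hI (κ := 1 / 4) (by norm_num)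
  have hK0 : 0 < K := by linarith
  refine ⟨p2, K⁻¹, hp2, hp2b, inv_pos.2 hK0, fun q h1 h2 S _ => ?_⟩
  have hq0 : 0 < q := hp2.trans_le h1
  have hq1 : q < 1 := h2.trans_le hpc1.le
  have hs : Sub G q := sub_of_lt_pc hG hqt hq0.le h2 hq1.le
  have hX1 : 1 ≤ chi G q := one_le_chi hq0.le hq1.le hs
  have hX0 : 0 < chi G q := one_pos.trans_le hX1
  have hr0 : 0 ≤ chi G q ^ (3 / 4 : ℝ) := Real.rpow_nonneg hX0.le _
  by_cases hKX : K ≤ chi G q
  · have h3 := hK q h1 h2 hKX S
    have h4 : (1 - 1 / 4 : ℝ) = 3 / 4 := by norm_num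
    rw [h4] at h3
    refine le_trans ?_ h3
    have h5 : K⁻¹ ≤ 1 := inv_le_one_of_one_le₀ hK1
    have h6 : (0 : ℝ) ≤ S.card := Nat.cast_nonneg _
    nlinarith [mul_nonneg hr0 h6, mul_le_mul_of_nonneg_right h5 (mul_nonneg hr0 h6)]
  · push Not at hKX
    refine le_trans ?_ (Vale.Agent.P165.BS.card_le_Fs hq0.le hq1.le hs S)
    have h6 : (0 : ℝ) ≤ S.card := Nat.cast_nonneg _
    have h7 : chi G q ^ (3 / 4 : ℝ) ≤ K := by
      refine le_trans ?_ hKX.le
      calc chi G q ^ (3 / 4 : ℝ) ≤ chi G q ^ (1 : ℝ) :=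
            Real.rpow_le_rpow_of_exponent_le hX1 (by norm_num)
        _ = chi G q := Real.rpow_one _
    have h8 : K⁻¹ * chi G q ^ (3 / 4 : ℝ) ≤ 1 := by
      rw [inv_mul_le_iff₀ hK0, mul_one]; exact h7
    calc K⁻¹ * chi G q ^ (3 / 4 : ℝ) * S.card ≤ 1 * S.card :=
          mul_le_mul_of_nonneg_right h8 h6
      _ = S.card := one_mul _

/-- No percolation at `p_c` on nonamenable quasi-transitive graphs. -/
theorem no_perc_of_nonamenable (G : SimpleGraph V) [G.LocallyFinite] (hG : G.Connected)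
    (hqt : IsQuasiTransitive G) (hna : ¬ IsAmenable G) (hpc1 : pc G < 1)
    (p : unitInterval) (hp : (p : ℝ) = pc G) :
    setBernoulli G.edgeSet p (hasInfiniteCluster V) = 0 := by
  have hinf : Infinite V := by
    by_contra hfin
    rw [not_infinite_iff_finite] at hfin
    have : Fintype V := Fintype.ofFinite V
    apply hna
    intro ε hε
    have hne : Nonempty V := hG.nonempty
    refine ⟨Finset.univ, Finset.univ_nonempty, ?_⟩
    have h1 : outerBoundary G (Finset.univ : Finset V) = ∅ := by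
      ext y
      simp [outerBoundary]
    rw [h1]
    simp only [Set.ncard_empty, Nat.cast_zero]
    positivity
  unfold IsAmenable at hna
  push Not at hna
  obtain ⟨ε, hε, h⟩ := hna
  have hch : 0 < vertexCheeger G := by
    have hne : Nonempty V := hG.nonempty
    obtain ⟨o⟩ := hne
    have hne2 : Nonempty {A : Finset V // A.Nonempty} := ⟨⟨{o}, Finset.singleton_nonempty o⟩⟩
    refine hε.trans_le (le_ciInf fun A => ?_)
    have hA : (0 : ℝ) < A.1.card := by exact_mod_cast A.2.card_pos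
    rw [le_div_iff₀ hA]
    exact (h A.1 A.2).le
  rw [← pc_eq] at hpc1 hp
  exact no_perc_of_nonamenable' hG hqt hch hpc1 p hp

end Vale.Agent.P151.NA
end

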